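import Crest.Prelude.Def_FockState

/-! One-mode beam-splitter amplitudes: recursions and orthogonality. -/

set_option autoImplicit false

namespace Crest.Agent.R331

open Crest.MathPhysics.Bosonic Polynomial Finset

/-- generating polynomial `(sX - t)^k (tX + s)^l` -/
noncomputable def ampPoly (s t : ℝ) (k l : ℕ) : ℝ[X] :=
  (C s * X + C (-t)) ^ k * (C t * X + C s) ^ l

lemma coeff_lin_pow (a b : ℝ) (k i : ℕ) :
    ((C a * X + C b : ℝ[X]) ^ k).coeff i = if i ≤ k then (k.choose i : ℝ) * a ^ i * b ^ (k - i) else 0 := by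
  rw [add_pow, finsetSum_coeff]
  have h : ∀ j ∈ range (k + 1), ((C a * X) ^ j * C b ^ (k - j) * (k.choose j : ℝ[X])).coeff i
      = if i = j then (k.choose j : ℝ) * a ^ j * b ^ (k - j) else 0 := by
    intro j _
    have : (C a * X) ^ j * C b ^ (k - j) * (k.choose j : ℝ[X])
        = C ((k.choose j : ℝ) * a ^ j * b ^ (k - j)) * X ^ j := by
      rw [mul_pow, ← C_pow, ← C_pow, ← C_eq_natCast, C_mul, C_mul]; ring
    rw [this, coeff_C_mul, coeff_X_pow]
    split_ifs <;> simp
  rw [sum_congr rfl h, sum_ite_eq]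
  simp

lemma coeff_ampPoly (s t : ℝ) (k l p : ℕ) :
    (ampPoly s t k l).coeff p = ∑ i ∈ range (k + 1),
        if i ≤ p ∧ p - i ≤ l then
          ((Nat.choose k i * Nat.choose l (p - i) : ℕ) : ℝ) *
            (s ^ i * (-t) ^ (k - i) * t ^ (p - i) * s ^ (l - (p - i)))
        else 0 := by
  rw [ampPoly, coeff_mul, Finset.Nat.sum_antidiagonal_eq_sum_range_succ_mk]
  simp only [coeff_lin_pow]
  have e1 : ∀ (f : ℕ → ℝ) (a b : ℕ), (∀ i, a < i → f i = 0) → (∀ i, b < i → f i = 0) →
      ∑ i ∈ range (a + 1), f i = ∑ i ∈ range (b + 1), f i := by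
    intro f a b ha hb
    rcases le_total a b with h | h
    · apply sum_subset (range_subset_range.2 (by omega))
      intro i _ hi
      exact ha i (by simpa using hi)
    · symm
      apply sum_subset (range_subset_range.2 (by omega))
      intro i _ hi
      exact hb i (by simpa using hi)
  have key := e1 (fun i => if i ≤ p ∧ i ≤ k ∧ p - i ≤ l then
          ((Nat.choose k i * Nat.choose l (p - i) : ℕ) : ℝ) *
            (s ^ i * (-t) ^ (k - i) * t ^ (p - i) * s ^ (l - (p - i))) else 0) p k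
    (fun i hi => by rw [if_neg (by omega)]) (fun i hi => by rw [if_neg (by omega)])
  calc _ = ∑ i ∈ range (p + 1), (if i ≤ p ∧ i ≤ k ∧ p - i ≤ l then
          ((Nat.choose k i * Nat.choose l (p - i) : ℕ) : ℝ) *
            (s ^ i * (-t) ^ (k - i) * t ^ (p - i) * s ^ (l - (p - i))) else 0) := by
        apply sum_congr rfl
        intro i hi
        have hi' : i ≤ p := by simpa [Nat.lt_succ_iff] using hi
        by_cases h1 : i ≤ k <;> by_cases h2 : p - i ≤ l <;> simp [h1, h2, hi']
        ring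
    _ = _ := by
        rw [key]
        apply sum_congr rfl
        intro i hi
        have hi' : i ≤ k := by simpa [Nat.lt_succ_iff] using hi
        simp [hi']

lemma bsAmp_eq (η : ℝ) (k l p q : ℕ) :
    bsAmp η k l p q = if p + q = k + l then
      Real.sqrt (p.factorial) * Real.sqrt (q.factorial) /
        (Real.sqrt (k.factorial) * Real.sqrt (l.factorial)) *
        (ampPoly (Real.sqrt η) (Real.sqrt (1 - η)) k l).coeff p else 0 := by
  unfold bsAmp
  split_ifs with h
  · rw [coeff_ampPoly]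
    congr 1
    push_cast
    rw [Real.sqrt_div (by positivity), Real.sqrt_mul (by positivity), Real.sqrt_mul (by positivity)]
  · rfl

lemma bsAmp_of_ne (η : ℝ) {k l p q : ℕ} (h : p + q ≠ k + l) : bsAmp η k l p q = 0 := by
  unfold bsAmp; rw [if_neg h]

lemma ampPoly_succ_left (s t : ℝ) (k l : ℕ) :
    ampPoly s t (k + 1) l = C s * (X * ampPoly s t k l) - C t * ampPoly s t k l := by
  simp only [ampPoly, C_neg]; ring

lemma ampPoly_succ_right (s t : ℝ) (k l : ℕ) :
    ampPoly s t k (l + 1) = C t * (X * ampPoly s t k l) + C s * ampPoly s t k l := by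
  simp only [ampPoly, C_neg]; ring

lemma ampPoly_deriv (s t : ℝ) (k l : ℕ) :
    derivative (ampPoly s t k l) =
      C ((k : ℝ) * s) * ampPoly s t (k - 1) l + C ((l : ℝ) * t) * ampPoly s t k (l - 1) := by
  simp only [ampPoly, derivative_mul, derivative_pow, derivative_add, derivative_C, derivative_X,
    C_mul]
  ring

lemma ampPoly_euler (s t : ℝ) (k l : ℕ) :
    C ((k : ℝ) + l) * ampPoly s t k l - X * derivative (ampPoly s t k l) =
      C (-((k : ℝ) * t)) * ampPoly s t (k - 1) l + C ((l : ℝ) * s) * ampPoly s t k (l - 1) := by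
  rw [ampPoly_deriv]
  have h1 : C (k : ℝ) * ampPoly s t k l =
      C (k : ℝ) * ((C s * X + C (-t)) * ampPoly s t (k - 1) l) := by
    cases k with
    | zero => simp
    | succ k => simp only [ampPoly, Nat.add_sub_cancel]; ring
  have h2 : C (l : ℝ) * ampPoly s t k l =
      C (l : ℝ) * ((C t * X + C s) * ampPoly s t k (l - 1)) := by
    cases l with
    | zero => simp
    | succ l => simp only [ampPoly, Nat.add_sub_cancel]; ring
  rw [C_add, add_mul, h1, h2]
  simp only [C_neg, C_mul]
  ring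

lemma coeff_ampPoly_of_lt (s t : ℝ) {k l p : ℕ} (h : k + l < p) : (ampPoly s t k l).coeff p = 0 := by
  rw [coeff_ampPoly]
  apply sum_eq_zero
  intro i hi
  have hi' : i ≤ k := by simpa [Nat.lt_succ_iff] using hi
  rw [if_neg (by omega)]

lemma sqrt_fact_succ (k : ℕ) :
    Real.sqrt ((k + 1).factorial : ℕ) = Real.sqrt ((k : ℝ) + 1) * Real.sqrt (k.factorial) := by
  rw [Nat.factorial_succ]; push_cast; rw [Real.sqrt_mul (by positivity)]

lemma sqrt_fact_pos (k : ℕ) : 0 < Real.sqrt (k.factorial : ℕ) :=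
  Real.sqrt_pos.2 (by exact_mod_cast k.factorial_pos)

lemma sqrt_succ_pos (k : ℕ) : 0 < Real.sqrt ((k : ℝ) + 1) := Real.sqrt_pos.2 (by positivity)

lemma sqrt_succ_sq (k : ℕ) : Real.sqrt ((k : ℝ) + 1) * Real.sqrt ((k : ℝ) + 1) = k + 1 :=
  Real.mul_self_sqrt (by positivity)

/-- `√p · amp(p-1, q)` in polynomial terms -/
lemma sqrt_mul_amp_pred_left (η : ℝ) (k l p q : ℕ) (h : p + q = k + l + 1) :
    Real.sqrt p * bsAmp η k l (p - 1) q =
      Real.sqrt (p.factorial) * Real.sqrt (q.factorial) /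
        (Real.sqrt (k.factorial) * Real.sqrt (l.factorial)) *
        (X * ampPoly (Real.sqrt η) (Real.sqrt (1 - η)) k l).coeff p := by
  cases p with
  | zero => simp
  | succ p =>
    rw [Nat.add_sub_cancel, bsAmp_eq, if_pos (by omega), coeff_X_mul, sqrt_fact_succ]
    push_cast; ring

lemma sqrt_mul_amp_pred_right (η : ℝ) (k l p q : ℕ) (h : p + q = k + l + 1) :
    Real.sqrt q * bsAmp η k l p (q - 1) =
      Real.sqrt (p.factorial) * Real.sqrt (q.factorial) /
        (Real.sqrt (k.factorial) * Real.sqrt (l.factorial)) *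
        (ampPoly (Real.sqrt η) (Real.sqrt (1 - η)) k l).coeff p := by
  cases q with
  | zero => rw [coeff_ampPoly_of_lt _ _ (by omega)]; simp
  | succ q =>
    rw [Nat.add_sub_cancel, bsAmp_eq, if_pos (by omega), sqrt_fact_succ]
    push_cast; ring

lemma sqrt_mul_amp_pred_left_zero (η : ℝ) (k l p q : ℕ) (h : p + q ≠ k + l + 1) :
    Real.sqrt p * bsAmp η k l (p - 1) q = 0 := by
  cases p with
  | zero => simp
  | succ p => rw [Nat.add_sub_cancel, bsAmp_of_ne _ (by omega), mul_zero]

lemma sqrt_mul_amp_pred_right_zero (η : ℝ) (k l p q : ℕ) (h : p + q ≠ k + l + 1) :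
    Real.sqrt q * bsAmp η k l p (q - 1) = 0 := by
  cases q with
  | zero => simp
  | succ q => rw [Nat.add_sub_cancel, bsAmp_of_ne _ (by omega), mul_zero]

/-- `a† = √η c† - √(1-η) d†` -/
theorem amp_succ_k (η : ℝ) (k l p q : ℕ) :
    Real.sqrt ((k : ℝ) + 1) * bsAmp η (k + 1) l p q =
      Real.sqrt η * (Real.sqrt p * bsAmp η k l (p - 1) q) -
        Real.sqrt (1 - η) * (Real.sqrt q * bsAmp η k l p (q - 1)) := by
  by_cases h : p + q = k + l + 1
  · rw [sqrt_mul_amp_pred_left η k l p q h, sqrt_mul_amp_pred_right η k l p q h, bsAmp_eq,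
      if_pos (by omega), ampPoly_succ_left, coeff_sub, coeff_C_mul, coeff_C_mul, sqrt_fact_succ]
    have := sqrt_fact_pos k
    have := sqrt_fact_pos l
    have := sqrt_succ_pos k
    field_simp
  · rw [sqrt_mul_amp_pred_left_zero η k l p q h, sqrt_mul_amp_pred_right_zero η k l p q h,
      bsAmp_of_ne _ (by omega)]
    simp

/-- `b† = √(1-η) c† + √η d†` -/
theorem amp_succ_l (η : ℝ) (k l p q : ℕ) :
    Real.sqrt ((l : ℝ) + 1) * bsAmp η k (l + 1) p q =
      Real.sqrt (1 - η) * (Real.sqrt p * bsAmp η k l (p - 1) q) +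
        Real.sqrt η * (Real.sqrt q * bsAmp η k l p (q - 1)) := by
  by_cases h : p + q = k + l + 1
  · rw [sqrt_mul_amp_pred_left η k l p q h, sqrt_mul_amp_pred_right η k l p q h, bsAmp_eq,
      if_pos (by omega), ampPoly_succ_right, coeff_add, coeff_C_mul, coeff_C_mul, sqrt_fact_succ]
    have := sqrt_fact_pos k
    have := sqrt_fact_pos l
    have := sqrt_succ_pos l
    field_simp
  · rw [sqrt_mul_amp_pred_left_zero η k l p q h, sqrt_mul_amp_pred_right_zero η k l p q h,
      bsAmp_of_ne _ (by omega)]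
    simp

lemma sqrt_mul_amp_pred_k (η : ℝ) (k l p q : ℕ) (h : p + q + 1 = k + l) :
    Real.sqrt k * bsAmp η (k - 1) l p q =
      Real.sqrt (p.factorial) * Real.sqrt (q.factorial) /
        (Real.sqrt (k.factorial) * Real.sqrt (l.factorial)) *
        ((k : ℝ) * (ampPoly (Real.sqrt η) (Real.sqrt (1 - η)) (k - 1) l).coeff p) := by
  cases k with
  | zero => simp
  | succ k =>
    rw [Nat.add_sub_cancel, bsAmp_eq, if_pos (by omega), sqrt_fact_succ]
    have := sqrt_fact_pos k
    have := sqrt_fact_pos l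
    have h3 := sqrt_succ_pos k
    have h4 := sqrt_succ_sq k
    push_cast
    set r := Real.sqrt ((k : ℝ) + 1)
    rw [← h4]
    field_simp

lemma sqrt_mul_amp_pred_l (η : ℝ) (k l p q : ℕ) (h : p + q + 1 = k + l) :
    Real.sqrt l * bsAmp η k (l - 1) p q =
      Real.sqrt (p.factorial) * Real.sqrt (q.factorial) /
        (Real.sqrt (k.factorial) * Real.sqrt (l.factorial)) *
        ((l : ℝ) * (ampPoly (Real.sqrt η) (Real.sqrt (1 - η)) k (l - 1)).coeff p) := by
  cases l with
  | zero => simp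
  | succ l =>
    rw [Nat.add_sub_cancel, bsAmp_eq, if_pos (by omega), sqrt_fact_succ]
    have := sqrt_fact_pos k
    have := sqrt_fact_pos l
    have h3 := sqrt_succ_pos l
    have h4 := sqrt_succ_sq l
    push_cast
    set r := Real.sqrt ((l : ℝ) + 1)
    rw [← h4]
    field_simp

lemma sqrt_mul_amp_pred_k_zero (η : ℝ) (k l p q : ℕ) (h : p + q + 1 ≠ k + l) :
    Real.sqrt k * bsAmp η (k - 1) l p q = 0 := by
  cases k with
  | zero => simp
  | succ k => rw [Nat.add_sub_cancel, bsAmp_of_ne _ (by omega), mul_zero]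

lemma sqrt_mul_amp_pred_l_zero (η : ℝ) (k l p q : ℕ) (h : p + q + 1 ≠ k + l) :
    Real.sqrt l * bsAmp η k (l - 1) p q = 0 := by
  cases l with
  | zero => simp
  | succ l => rw [Nat.add_sub_cancel, bsAmp_of_ne _ (by omega), mul_zero]

/-- `c = √η a + √(1-η) b` -/
theorem amp_succ_p (η : ℝ) (k l p q : ℕ) :
    Real.sqrt ((p : ℝ) + 1) * bsAmp η k l (p + 1) q =
      Real.sqrt η * (Real.sqrt k * bsAmp η (k - 1) l p q) +
        Real.sqrt (1 - η) * (Real.sqrt l * bsAmp η k (l - 1) p q) := by
  by_cases h : p + q + 1 = k + l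
  · rw [sqrt_mul_amp_pred_k η k l p q h, sqrt_mul_amp_pred_l η k l p q h, bsAmp_eq,
      if_pos (by omega), sqrt_fact_succ]
    have hd := congrArg (fun P => Polynomial.coeff P p)
      (ampPoly_deriv (Real.sqrt η) (Real.sqrt (1 - η)) k l)
    simp only [coeff_derivative, coeff_add, coeff_C_mul] at hd
    have h4 := sqrt_succ_sq p
    set r := Real.sqrt ((p : ℝ) + 1)
    set D := Real.sqrt (k.factorial) * Real.sqrt (l.factorial)
    calc _ = Real.sqrt (p.factorial) * Real.sqrt (q.factorial) / D *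
          ((ampPoly (Real.sqrt η) (Real.sqrt (1 - η)) k l).coeff (p + 1) * (r * r)) := by ring
      _ = _ := by rw [h4, hd]; ring
  · rw [sqrt_mul_amp_pred_k_zero η k l p q h, sqrt_mul_amp_pred_l_zero η k l p q h,
      bsAmp_of_ne _ (by omega)]
    simp

/-- `d = -√(1-η) a + √η b` -/
theorem amp_succ_q (η : ℝ) (k l p q : ℕ) :
    Real.sqrt ((q : ℝ) + 1) * bsAmp η k l p (q + 1) =
      -(Real.sqrt (1 - η) * (Real.sqrt k * bsAmp η (k - 1) l p q)) +
        Real.sqrt η * (Real.sqrt l * bsAmp η k (l - 1) p q) := by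
  by_cases h : p + q + 1 = k + l
  · rw [sqrt_mul_amp_pred_k η k l p q h, sqrt_mul_amp_pred_l η k l p q h, bsAmp_eq,
      if_pos (by omega), sqrt_fact_succ]
    have hd := congrArg (fun P => Polynomial.coeff P p)
      (ampPoly_euler (Real.sqrt η) (Real.sqrt (1 - η)) k l)
    have hX : (X * derivative (ampPoly (Real.sqrt η) (Real.sqrt (1 - η)) k l)).coeff p =
        (p : ℝ) * (ampPoly (Real.sqrt η) (Real.sqrt (1 - η)) k l).coeff p := by
      cases p with
      | zero => simp
      | succ p => rw [coeff_X_mul, coeff_derivative]; push_cast; ring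
    simp only [coeff_sub, coeff_add, coeff_C_mul, hX] at hd
    have h4 := sqrt_succ_sq q
    have h5 : (k : ℝ) + l - p = q + 1 := by
      have : ((p + q + 1 : ℕ) : ℝ) = ((k + l : ℕ) : ℝ) := by rw [h]
      push_cast at this; linarith
    set r := Real.sqrt ((q : ℝ) + 1)
    set D := Real.sqrt (k.factorial) * Real.sqrt (l.factorial)
    calc _ = Real.sqrt (p.factorial) * Real.sqrt (q.factorial) / D *
          ((r * r) * (ampPoly (Real.sqrt η) (Real.sqrt (1 - η)) k l).coeff p) := by ring
      _ = _ := by rw [h4, ← h5, sub_mul, hd]; ring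
  · rw [sqrt_mul_amp_pred_k_zero η k l p q h, sqrt_mul_amp_pred_l_zero η k l p q h,
      bsAmp_of_ne _ (by omega)]
    simp

lemma bsAmp_zero (η : ℝ) : bsAmp η 0 0 0 0 = 1 := by
  simp [bsAmp]

/-- abstract orthogonality from the four recursions -/
lemma orth_abstract (s t : ℝ) (hst : s * s + t * t = 1) (A : ℕ → ℕ → ℕ → ℕ → ℝ)
    (h0 : A 0 0 0 0 = 1)
    (h1 : ∀ k l p q : ℕ, Real.sqrt ((k : ℝ) + 1) * A (k + 1) l p q =
      s * (Real.sqrt p * A k l (p - 1) q) - t * (Real.sqrt q * A k l p (q - 1)))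
    (h2 : ∀ k l p q : ℕ, Real.sqrt ((l : ℝ) + 1) * A k (l + 1) p q =
      t * (Real.sqrt p * A k l (p - 1) q) + s * (Real.sqrt q * A k l p (q - 1)))
    (h3 : ∀ k l p q : ℕ, Real.sqrt ((p : ℝ) + 1) * A k l (p + 1) q =
      s * (Real.sqrt k * A (k - 1) l p q) + t * (Real.sqrt l * A k (l - 1) p q))
    (h4 : ∀ k l p q : ℕ, Real.sqrt ((q : ℝ) + 1) * A k l p (q + 1) =
      -(t * (Real.sqrt k * A (k - 1) l p q)) + s * (Real.sqrt l * A k (l - 1) p q))
    (m : ℕ) : ∀ k l k' l' : ℕ, k + l = m → k' + l' = m →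
      ∑ x ∈ antidiagonal m, A k l x.1 x.2 * A k' l' x.1 x.2 = if k = k' then 1 else 0 := by
  induction m with
  | zero =>
    intro k l k' l' hk hk'
    obtain ⟨rfl, rfl⟩ : k = 0 ∧ l = 0 := by omega
    obtain ⟨rfl, rfl⟩ : k' = 0 ∧ l' = 0 := by omega
    simp [h0]
  | succ m ih =>
    have sp : ∀ k l k' l' : ℕ, ∑ x ∈ antidiagonal (m + 1),
        Real.sqrt x.1 * A k l (x.1 - 1) x.2 * A k' l' x.1 x.2 =
        ∑ x ∈ antidiagonal m, A k l x.1 x.2 * (Real.sqrt ((x.1 : ℝ) + 1) * A k' l' (x.1 + 1) x.2) := by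
      intro k l k' l'
      rw [Finset.Nat.sum_antidiagonal_succ]
      simp only [Nat.cast_zero, Real.sqrt_zero, zero_mul, zero_add, Nat.add_sub_cancel]
      apply sum_congr rfl; intro x _; push_cast; ring
    have sq : ∀ k l k' l' : ℕ, ∑ x ∈ antidiagonal (m + 1),
        Real.sqrt x.2 * A k l x.1 (x.2 - 1) * A k' l' x.1 x.2 =
        ∑ x ∈ antidiagonal m, A k l x.1 x.2 * (Real.sqrt ((x.2 : ℝ) + 1) * A k' l' x.1 (x.2 + 1)) := by
      intro k l k' l'
      rw [Finset.Nat.sum_antidiagonal_succ']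
      simp only [Nat.cast_zero, Real.sqrt_zero, zero_mul, zero_add, Nat.add_sub_cancel]
      apply sum_congr rfl; intro x _; push_cast; ring
    intro k l k' l' hk hk'
    cases k with
    | succ k =>
      have hpos := sqrt_succ_pos k
      apply mul_left_cancel₀ hpos.ne'
      have e : Real.sqrt ((k : ℝ) + 1) * ∑ x ∈ antidiagonal (m + 1),
          A (k + 1) l x.1 x.2 * A k' l' x.1 x.2 =
          Real.sqrt k' * ∑ x ∈ antidiagonal m, A k l x.1 x.2 * A (k' - 1) l' x.1 x.2 := by
        calc _ = s * ∑ x ∈ antidiagonal (m + 1),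
              Real.sqrt x.1 * A k l (x.1 - 1) x.2 * A k' l' x.1 x.2 -
              t * ∑ x ∈ antidiagonal (m + 1),
              Real.sqrt x.2 * A k l x.1 (x.2 - 1) * A k' l' x.1 x.2 := by
              rw [mul_sum, mul_sum, mul_sum, ← sum_sub_distrib]
              apply sum_congr rfl; intro x _
              rw [← mul_assoc, h1]; ring
          _ = _ := by
              rw [sp, sq, mul_sum, mul_sum, mul_sum, ← sum_sub_distrib]
              apply sum_congr rfl; intro x _
              rw [h3, h4]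
              linear_combination (Real.sqrt k' * A k l x.1 x.2 * A (k' - 1) l' x.1 x.2) * hst
      rw [e]
      cases k' with
      | zero => simp
      | succ k' =>
        rw [Nat.add_sub_cancel, ih k l k' l' (by omega) (by omega)]
        by_cases hkk : k = k'
        · subst hkk; simp
        · simp [hkk]
    | zero =>
      cases l with
      | zero => omega
      | succ l =>
        have hpos := sqrt_succ_pos l
        apply mul_left_cancel₀ hpos.ne'
        have e : Real.sqrt ((l : ℝ) + 1) * ∑ x ∈ antidiagonal (m + 1),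
            A 0 (l + 1) x.1 x.2 * A k' l' x.1 x.2 =
            Real.sqrt l' * ∑ x ∈ antidiagonal m, A 0 l x.1 x.2 * A k' (l' - 1) x.1 x.2 := by
          calc _ = t * ∑ x ∈ antidiagonal (m + 1),
                Real.sqrt x.1 * A 0 l (x.1 - 1) x.2 * A k' l' x.1 x.2 +
                s * ∑ x ∈ antidiagonal (m + 1),
                Real.sqrt x.2 * A 0 l x.1 (x.2 - 1) * A k' l' x.1 x.2 := by
                rw [mul_sum, mul_sum, mul_sum, ← sum_add_distrib]
                apply sum_congr rfl; intro x _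
                rw [← mul_assoc, h2]; ring
            _ = _ := by
                rw [sp, sq, mul_sum, mul_sum, mul_sum, ← sum_add_distrib]
                apply sum_congr rfl; intro x _
                rw [h3, h4]
                linear_combination (Real.sqrt l' * A 0 l x.1 x.2 * A k' (l' - 1) x.1 x.2) * hst
        rw [e]
        cases l' with
        | zero =>
          have : (0 : ℕ) ≠ k' := by omega
          simp [this]
        | succ l' =>
          rw [Nat.add_sub_cancel, ih 0 l k' l' (by omega) (by omega)]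
          by_cases hkk : 0 = k'
          · have : l = l' := by omega
            subst this; simp [hkk]
          · simp [hkk]

lemma sqrt_eta_sq {η : ℝ} (hη : η ∈ Set.Icc (0 : ℝ) 1) :
    Real.sqrt η * Real.sqrt η + Real.sqrt (1 - η) * Real.sqrt (1 - η) = 1 := by
  rw [Real.mul_self_sqrt hη.1, Real.mul_self_sqrt (by linarith [hη.2])]; ring

/-- rows: the images of `|k,l⟩` are orthonormal (sum over the outputs of one sector) -/
theorem amp_orth_out {η : ℝ} (hη : η ∈ Set.Icc (0 : ℝ) 1) (m k l k' l' : ℕ)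
    (h : k + l = m) (h' : k' + l' = m) :
    ∑ x ∈ antidiagonal m, bsAmp η k l x.1 x.2 * bsAmp η k' l' x.1 x.2 = if k = k' then 1 else 0 :=
  orth_abstract _ _ (sqrt_eta_sq hη) (bsAmp η) (bsAmp_zero η) (amp_succ_k η) (amp_succ_l η)
    (amp_succ_p η) (amp_succ_q η) m k l k' l' h h'

/-- columns: sum over the inputs of one sector -/
theorem amp_orth_in {η : ℝ} (hη : η ∈ Set.Icc (0 : ℝ) 1) (m p q p' q' : ℕ)
    (h : p + q = m) (h' : p' + q' = m) :
    ∑ x ∈ antidiagonal m, bsAmp η x.1 x.2 p q * bsAmp η x.1 x.2 p' q' = if p = p' then 1 else 0 :=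
  orth_abstract (Real.sqrt η) (-Real.sqrt (1 - η)) (by rw [neg_mul_neg]; exact sqrt_eta_sq hη)
    (fun p q k l => bsAmp η k l p q) (bsAmp_zero η)
    (fun k l p q => by rw [amp_succ_p]; ring) (fun k l p q => by rw [amp_succ_q]; ring)
    (fun k l p q => by rw [amp_succ_k]; ring) (fun k l p q => by rw [amp_succ_l]; ring)
    m p q p' q' h h'

end Crest.Agent.R331
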