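import Crest.Agent.R331.Amp

/-! Box and `n`-mode versions of the beam-splitter amplitude calculus. -/

set_option autoImplicit false

namespace Crest.Agent.R331

open Crest.MathPhysics.Bosonic Finset

/-- a function supported on one sector: box sum = antidiagonal sum -/
lemma sum_box_eq_antidiagonal (f : ℕ → ℕ → ℝ) (m P Q : ℕ) (hP : m < P) (hQ : m < Q)
    (hf : ∀ p q, p + q ≠ m → f p q = 0) :
    ∑ p ∈ range P, ∑ q ∈ range Q, f p q = ∑ x ∈ antidiagonal m, f x.1 x.2 := by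
  rw [← sum_product']
  symm
  apply sum_subset
  · intro x hx
    have := mem_antidiagonal.1 hx
    simp only [mem_product, mem_range]; omega
  · intro x _ hx
    exact hf _ _ (by simpa using hx)

theorem amp_orth_out_range {η : ℝ} (hη : η ∈ Set.Icc (0 : ℝ) 1) (P Q k l k' l' : ℕ)
    (hP : k + l < P) (hQ : k + l < Q) :
    ∑ p ∈ range P, ∑ q ∈ range Q, bsAmp η k l p q * bsAmp η k' l' p q =
      if k = k' ∧ l = l' then 1 else 0 := by
  rw [sum_box_eq_antidiagonal _ (k + l) P Q hP hQ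
    (fun p q h => by rw [bsAmp_of_ne η h, zero_mul])]
  by_cases h : k' + l' = k + l
  · rw [amp_orth_out hη (k + l) k l k' l' rfl h]
    by_cases hk : k = k'
    · have : l = l' := by omega
      simp [hk, this]
    · simp [hk]
  · rw [if_neg (by omega)]
    apply sum_eq_zero
    intro x hx
    have := mem_antidiagonal.1 hx
    rw [bsAmp_of_ne η (k := k') (by omega), mul_zero]

theorem amp_orth_in_range {η : ℝ} (hη : η ∈ Set.Icc (0 : ℝ) 1) (K L p q p' q' : ℕ)
    (hK : p + q < K) (hL : p + q < L) :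
    ∑ k ∈ range K, ∑ l ∈ range L, bsAmp η k l p q * bsAmp η k l p' q' =
      if p = p' ∧ q = q' then 1 else 0 := by
  rw [sum_box_eq_antidiagonal (fun k l => bsAmp η k l p q * bsAmp η k l p' q') (p + q) K L hK hL
    (fun k l h => by rw [bsAmp_of_ne η (Ne.symm h), zero_mul])]
  by_cases h : p' + q' = p + q
  · rw [amp_orth_in hη (p + q) p q p' q' rfl h]
    by_cases hk : p = p'
    · have : q = q' := by omega
      simp [hk, this]
    · simp [hk]
  · rw [if_neg (by omega)]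
    apply sum_eq_zero
    intro x hx
    have := mem_antidiagonal.1 hx
    rw [bsAmp_of_ne η (p := p') (by omega), mul_zero]

theorem amp_orth_out_fin {η : ℝ} (hη : η ∈ Set.Icc (0 : ℝ) 1) (P Q k l k' l' : ℕ)
    (hP : k + l < P) (hQ : k + l < Q) :
    ∑ p : Fin P, ∑ q : Fin Q, bsAmp η k l p q * bsAmp η k' l' p q =
      if k = k' ∧ l = l' then 1 else 0 := by
  rw [← amp_orth_out_range hη P Q k l k' l' hP hQ,
    ← Fin.sum_univ_eq_sum_range (fun p => ∑ q ∈ range Q, bsAmp η k l p q * bsAmp η k' l' p q) P]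
  apply sum_congr rfl; intro p _
  exact Fin.sum_univ_eq_sum_range (fun q => bsAmp η k l p q * bsAmp η k' l' p q) Q

theorem amp_orth_in_fin {η : ℝ} (hη : η ∈ Set.Icc (0 : ℝ) 1) (K L p q p' q' : ℕ)
    (hK : p + q < K) (hL : p + q < L) :
    ∑ k : Fin K, ∑ l : Fin L, bsAmp η k l p q * bsAmp η k l p' q' =
      if p = p' ∧ q = q' then 1 else 0 := by
  rw [← amp_orth_in_range hη K L p q p' q' hK hL,
    ← Fin.sum_univ_eq_sum_range (fun k => ∑ l ∈ range L, bsAmp η k l p q * bsAmp η k l p' q') K]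
  apply sum_congr rfl; intro k _
  exact Fin.sum_univ_eq_sum_range (fun l => bsAmp η k l p q * bsAmp η k l p' q') L

/-- squares of one row sum to at most one over any finite set of outputs -/
theorem amp_sq_sum_le {η : ℝ} (hη : η ∈ Set.Icc (0 : ℝ) 1) (k l : ℕ) (s : Finset (ℕ × ℕ)) :
    ∑ x ∈ s, bsAmp η k l x.1 x.2 ^ 2 ≤ 1 := by
  have h := amp_orth_out hη (k + l) k l k l rfl rfl
  rw [if_pos rfl] at h
  rw [← h]
  calc _ = ∑ x ∈ s ∩ antidiagonal (k + l), bsAmp η k l x.1 x.2 ^ 2 := by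
        symm; apply sum_subset inter_subset_left
        intro x hx hx'
        have : x.1 + x.2 ≠ k + l := fun h => hx' (mem_inter.2 ⟨hx, mem_antidiagonal.2 h⟩)
        rw [bsAmp_of_ne η this]; simp
    _ ≤ ∑ x ∈ antidiagonal (k + l), bsAmp η k l x.1 x.2 ^ 2 :=
        sum_le_sum_of_subset_of_nonneg inter_subset_right (fun _ _ _ => sq_nonneg _)
    _ = _ := by simp only [sq]

theorem abs_bsAmp_le_one {η : ℝ} (hη : η ∈ Set.Icc (0 : ℝ) 1) (k l p q : ℕ) :
    |bsAmp η k l p q| ≤ 1 := by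
  have := amp_sq_sum_le hη k l {(p, q)}
  simp only [sum_singleton] at this
  exact (sq_le_one_iff_abs_le_one _).1 this

lemma bsAmpN_eq_ampOcc {n K : ℕ} (η : ℝ) (k l : Fin n → Fin (K + 1))
    (p q : Fin n → Fin (2 * K + 1)) :
    bsAmpN η k l p q =
      ampOcc η (fun j => (k j : ℕ)) (fun j => (l j : ℕ)) (fun j => (p j : ℕ)) (fun j => (q j : ℕ)) :=
  rfl

theorem ampOcc_of_ne {n : ℕ} (η : ℝ) {k l p q : Occ n} (h : p + q ≠ k + l) :
    ampOcc η k l p q = 0 := by
  obtain ⟨j, hj⟩ := Function.ne_iff.1 h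
  exact prod_eq_zero (mem_univ j) (bsAmp_of_ne η hj)

theorem abs_ampOcc_le_one {n : ℕ} {η : ℝ} (hη : η ∈ Set.Icc (0 : ℝ) 1) (k l p q : Occ n) :
    |ampOcc η k l p q| ≤ 1 := by
  rw [ampOcc, abs_prod]
  exact prod_le_one (fun _ _ => abs_nonneg _) (fun j _ => abs_bsAmp_le_one hη _ _ _ _)

lemma prod_ite_and {n : ℕ} (k l k' l' : Occ n) :
    (∏ j, if k j = k' j ∧ l j = l' j then (1 : ℝ) else 0) = if k = k' ∧ l = l' then 1 else 0 := by
  rw [prod_boole]
  simp only [mem_univ, true_imp_iff, funext_iff, forall_and]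

/-- `n` modes: orthonormal rows, summed over any box of outputs containing the sector -/
theorem ampOcc_orth_out {n : ℕ} {η : ℝ} (hη : η ∈ Set.Icc (0 : ℝ) 1) (P Q : ℕ) (k l k' l' : Occ n)
    (hP : ∀ j, k j + l j < P) (hQ : ∀ j, k j + l j < Q) :
    ∑ p : Fin n → Fin P, ∑ q : Fin n → Fin Q,
      ampOcc η k l (fun j => (p j : ℕ)) (fun j => (q j : ℕ)) *
        ampOcc η k' l' (fun j => (p j : ℕ)) (fun j => (q j : ℕ)) =
      if k = k' ∧ l = l' then 1 else 0 := by
  rw [← prod_ite_and]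
  simp only [ampOcc, ← prod_mul_distrib]
  have h1 : ∀ p : Fin n → Fin P, ∑ q : Fin n → Fin Q, ∏ j,
      bsAmp η (k j) (l j) (p j) (q j) * bsAmp η (k' j) (l' j) (p j) (q j) =
      ∏ j, ∑ q : Fin Q, bsAmp η (k j) (l j) (p j) q * bsAmp η (k' j) (l' j) (p j) q := by
    intro p
    rw [prod_univ_sum, Fintype.piFinset_univ]
  simp only [h1]
  have h2 := prod_univ_sum (fun _ : Fin n => (univ : Finset (Fin P)))
    (fun j (p : Fin P) => ∑ q : Fin Q, bsAmp η (k j) (l j) p q * bsAmp η (k' j) (l' j) p q)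
  rw [Fintype.piFinset_univ] at h2
  rw [← h2]
  exact prod_congr rfl fun j _ => amp_orth_out_fin hη P Q _ _ _ _ (hP j) (hQ j)

/-- `n` modes: orthonormal columns, summed over any box of inputs containing the sector -/
theorem ampOcc_orth_in {n : ℕ} {η : ℝ} (hη : η ∈ Set.Icc (0 : ℝ) 1) (K L : ℕ) (p q p' q' : Occ n)
    (hK : ∀ j, p j + q j < K) (hL : ∀ j, p j + q j < L) :
    ∑ k : Fin n → Fin K, ∑ l : Fin n → Fin L,
      ampOcc η (fun j => (k j : ℕ)) (fun j => (l j : ℕ)) p q *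
        ampOcc η (fun j => (k j : ℕ)) (fun j => (l j : ℕ)) p' q' =
      if p = p' ∧ q = q' then 1 else 0 := by
  rw [← prod_ite_and]
  simp only [ampOcc, ← prod_mul_distrib]
  have h1 : ∀ k : Fin n → Fin K, ∑ l : Fin n → Fin L, ∏ j,
      bsAmp η (k j) (l j) (p j) (q j) * bsAmp η (k j) (l j) (p' j) (q' j) =
      ∏ j, ∑ l : Fin L, bsAmp η (k j) l (p j) (q j) * bsAmp η (k j) l (p' j) (q' j) := by
    intro p
    rw [prod_univ_sum, Fintype.piFinset_univ]
  simp only [h1]
  have h2 := prod_univ_sum (fun _ : Fin n => (univ : Finset (Fin K)))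
    (fun j (k : Fin K) => ∑ l : Fin L, bsAmp η k l (p j) (q j) * bsAmp η k l (p' j) (q' j))
  rw [Fintype.piFinset_univ] at h2
  rw [← h2]
  exact prod_congr rfl fun j _ => amp_orth_in_fin hη K L _ _ _ _ (hK j) (hL j)

/-- the prelude's finite version: `U` is an isometry on the box `Fin (K+1)` -/
theorem bsAmpN_orth {n K : ℕ} {η : ℝ} (hη : η ∈ Set.Icc (0 : ℝ) 1)
    (k l k' l' : Fin n → Fin (K + 1)) :
    ∑ p : Fin n → Fin (2 * K + 1), ∑ q : Fin n → Fin (2 * K + 1),
      bsAmpN η k l p q * bsAmpN η k' l' p q = if k = k' ∧ l = l' then 1 else 0 := by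
  simp only [bsAmpN_eq_ampOcc]
  rw [ampOcc_orth_out hη _ _ _ _ _ _ (fun j => by have := (k j).2; have := (l j).2; omega)
    (fun j => by have := (k j).2; have := (l j).2; omega)]
  simp only [funext_iff, Fin.val_inj]

/-- split off mode `i` -/
lemma ampOcc_split {n : ℕ} (η : ℝ) (i : Fin n) (k l p q : Occ n) :
    ampOcc η k l p q = bsAmp η (k i) (l i) (p i) (q i) *
      ∏ j ∈ univ.erase i, bsAmp η (k j) (l j) (p j) (q j) :=
  (mul_prod_erase univ (fun j => bsAmp η (k j) (l j) (p j) (q j)) (mem_univ i)).symm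

/-- amplitudes of tuples that agree off mode `i` share the factor of the other modes -/
lemma ampOcc_split_of_eq {n : ℕ} (η : ℝ) (i : Fin n) (k l p q k' l' p' q' : Occ n)
    (hk : ∀ j, j ≠ i → k' j = k j) (hl : ∀ j, j ≠ i → l' j = l j)
    (hp : ∀ j, j ≠ i → p' j = p j) (hq : ∀ j, j ≠ i → q' j = q j) :
    ampOcc η k' l' p' q' = bsAmp η (k' i) (l' i) (p' i) (q' i) *
      ∏ j ∈ univ.erase i, bsAmp η (k j) (l j) (p j) (q j) := by
  rw [ampOcc_split η i]
  congr 1
  apply prod_congr rfl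
  intro j hj
  have hj' := ne_of_mem_erase hj
  rw [hk j hj', hl j hj', hp j hj', hq j hj']

/-- raise mode `i` -/
def up {n : ℕ} (i : Fin n) (k : Occ n) : Occ n := Function.update k i (k i + 1)
/-- lower mode `i` (truncated at `0`) -/
def dn {n : ℕ} (i : Fin n) (k : Occ n) : Occ n := Function.update k i (k i - 1)

@[simp] lemma up_self {n : ℕ} (i : Fin n) (k : Occ n) : up i k i = k i + 1 := by simp [up]
@[simp] lemma dn_self {n : ℕ} (i : Fin n) (k : Occ n) : dn i k i = k i - 1 := by simp [dn]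
lemma up_ne {n : ℕ} {i j : Fin n} (k : Occ n) (h : j ≠ i) : up i k j = k j := by simp [up, h]
lemma dn_ne {n : ℕ} {i j : Fin n} (k : Occ n) (h : j ≠ i) : dn i k j = k j := by simp [dn, h]

theorem ampOcc_up_k {n : ℕ} (η : ℝ) (i : Fin n) (k l p q : Occ n) :
    Real.sqrt ((k i : ℝ) + 1) * ampOcc η (up i k) l p q =
      Real.sqrt η * (Real.sqrt (p i) * ampOcc η k l (dn i p) q) -
        Real.sqrt (1 - η) * (Real.sqrt (q i) * ampOcc η k l p (dn i q)) := by
  rw [ampOcc_split_of_eq η i k l p q (up i k) l p q (fun _ h => up_ne _ h) (fun _ _ => rfl)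
      (fun _ _ => rfl) (fun _ _ => rfl),
    ampOcc_split_of_eq η i k l p q k l (dn i p) q (fun _ _ => rfl) (fun _ _ => rfl)
      (fun _ h => dn_ne _ h) (fun _ _ => rfl),
    ampOcc_split_of_eq η i k l p q k l p (dn i q) (fun _ _ => rfl) (fun _ _ => rfl)
      (fun _ _ => rfl) (fun _ h => dn_ne _ h), up_self, dn_self, dn_self, ← mul_assoc, amp_succ_k]
  ring

theorem ampOcc_up_l {n : ℕ} (η : ℝ) (i : Fin n) (k l p q : Occ n) :
    Real.sqrt ((l i : ℝ) + 1) * ampOcc η k (up i l) p q =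
      Real.sqrt (1 - η) * (Real.sqrt (p i) * ampOcc η k l (dn i p) q) +
        Real.sqrt η * (Real.sqrt (q i) * ampOcc η k l p (dn i q)) := by
  rw [ampOcc_split_of_eq η i k l p q k (up i l) p q (fun _ _ => rfl) (fun _ h => up_ne _ h)
      (fun _ _ => rfl) (fun _ _ => rfl),
    ampOcc_split_of_eq η i k l p q k l (dn i p) q (fun _ _ => rfl) (fun _ _ => rfl)
      (fun _ h => dn_ne _ h) (fun _ _ => rfl),
    ampOcc_split_of_eq η i k l p q k l p (dn i q) (fun _ _ => rfl) (fun _ _ => rfl)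
      (fun _ _ => rfl) (fun _ h => dn_ne _ h), up_self, dn_self, dn_self, ← mul_assoc, amp_succ_l]
  ring

theorem ampOcc_up_p {n : ℕ} (η : ℝ) (i : Fin n) (k l p q : Occ n) :
    Real.sqrt ((p i : ℝ) + 1) * ampOcc η k l (up i p) q =
      Real.sqrt η * (Real.sqrt (k i) * ampOcc η (dn i k) l p q) +
        Real.sqrt (1 - η) * (Real.sqrt (l i) * ampOcc η k (dn i l) p q) := by
  rw [ampOcc_split_of_eq η i k l p q k l (up i p) q (fun _ _ => rfl) (fun _ _ => rfl)
      (fun _ h => up_ne _ h) (fun _ _ => rfl),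
    ampOcc_split_of_eq η i k l p q (dn i k) l p q (fun _ h => dn_ne _ h) (fun _ _ => rfl)
      (fun _ _ => rfl) (fun _ _ => rfl),
    ampOcc_split_of_eq η i k l p q k (dn i l) p q (fun _ _ => rfl) (fun _ h => dn_ne _ h)
      (fun _ _ => rfl) (fun _ _ => rfl), up_self, dn_self, dn_self, ← mul_assoc, amp_succ_p]
  ring

theorem ampOcc_up_q {n : ℕ} (η : ℝ) (i : Fin n) (k l p q : Occ n) :
    Real.sqrt ((q i : ℝ) + 1) * ampOcc η k l p (up i q) =
      -(Real.sqrt (1 - η) * (Real.sqrt (k i) * ampOcc η (dn i k) l p q)) +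
        Real.sqrt η * (Real.sqrt (l i) * ampOcc η k (dn i l) p q) := by
  rw [ampOcc_split_of_eq η i k l p q k l p (up i q) (fun _ _ => rfl) (fun _ _ => rfl)
      (fun _ _ => rfl) (fun _ h => up_ne _ h),
    ampOcc_split_of_eq η i k l p q (dn i k) l p q (fun _ h => dn_ne _ h) (fun _ _ => rfl)
      (fun _ _ => rfl) (fun _ _ => rfl),
    ampOcc_split_of_eq η i k l p q k (dn i l) p q (fun _ _ => rfl) (fun _ h => dn_ne _ h)
      (fun _ _ => rfl) (fun _ _ => rfl), up_self, dn_self, dn_self, ← mul_assoc, amp_succ_q]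
  ring

end Crest.Agent.R331
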