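import Mathlib

/-! Abstract ANOVA (Bessel) inequality for a product state and an isometric dilation. -/

set_option autoImplicit false
set_option linter.unusedSectionVars false

namespace Crest.Agent.R331

open Matrix
open scoped Kronecker ComplexOrder

section
variable {I J K D : Type*} [Fintype I] [Fintype J] [Fintype K] [Fintype D]
  [DecidableEq I] [DecidableEq J] [DecidableEq K] [DecidableEq D]

lemma re_trace_conj_nonneg {ρ : Matrix I I ℂ} (h : ρ.PosSemidef) (Y : Matrix I J ℂ) :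
    0 ≤ (Yᴴ * ρ * Y).trace.re :=
  (Complex.nonneg_iff.1 (h.conjTranspose_mul_mul_same Y).trace_nonneg).1

lemma trace_conj_symm {ρ : Matrix I I ℂ} (h : ρ.IsHermitian) (X Y : Matrix I I ℂ) :
    (Yᴴ * ρ * X).trace = star (Xᴴ * ρ * Y).trace := by
  rw [← trace_conjTranspose, conjTranspose_mul, conjTranspose_mul, conjTranspose_conjTranspose,
    h.eq, Matrix.mul_assoc]

/-- Bessel for one vector: if `⟨P,W⟩ = ⟨P,P⟩` then `‖P‖² ≤ ‖W‖²`. -/
lemma bessel_one {ρ : Matrix I I ℂ} (h : ρ.PosSemidef) (P W : Matrix I I ℂ)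
    (hPW : (Pᴴ * ρ * W).trace = (Pᴴ * ρ * P).trace) :
    (Pᴴ * ρ * P).trace.re ≤ (Wᴴ * ρ * W).trace.re := by
  have h0 := re_trace_conj_nonneg h (W - P)
  have e : ((W - P)ᴴ * ρ * (W - P)).trace =
      (Wᴴ * ρ * W).trace - (Wᴴ * ρ * P).trace - (Pᴴ * ρ * W).trace + (Pᴴ * ρ * P).trace := by
    simp only [conjTranspose_sub, Matrix.sub_mul, Matrix.mul_sub, trace_sub]; ring
  rw [e, trace_conj_symm h.1 P W, hPW] at h0
  simp only [Complex.add_re, Complex.sub_re, Complex.star_def, Complex.conj_re] at h0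
  linarith

/-- ANOVA in the form `Y ↦ tr Yᴴ ρ Y` on a product state. `α + z`, `β + z` are the two conditional
expectations of `W`, `α`, `β` are centred. -/
theorem anova_L {ρA : Matrix I I ℂ} {ρB : Matrix J J ℂ} (hA : ρA.PosSemidef) (hB : ρB.PosSemidef)
    (tA : ρA.trace = 1) (tB : ρB.trace = 1) (W : Matrix (I × J) (I × J) ℂ)
    (α : Matrix I I ℂ) (β : Matrix J J ℂ) (z : ℂ)
    (hα : ∀ σ : Matrix I I ℂ, ((σ ⊗ₖ ρB) * W).trace = (σ * (α + z • (1 : Matrix I I ℂ))).trace)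
    (hβ : ∀ σ : Matrix J J ℂ, ((ρA ⊗ₖ σ) * W).trace = (σ * (β + z • (1 : Matrix J J ℂ))).trace)
    (hα0 : (ρA * α).trace = 0) (hβ0 : (ρB * β).trace = 0) :
    (αᴴ * ρA * α).trace.re + (βᴴ * ρB * β).trace.re + ‖z‖ ^ 2 ≤
      (Wᴴ * (ρA ⊗ₖ ρB) * W).trace.re := by
  have hρ : (ρA ⊗ₖ ρB).PosSemidef := hA.kronecker hB
  have hα1 : (αᴴ * ρA).trace = 0 := by
    rw [← hA.1.eq, ← conjTranspose_mul, trace_conjTranspose, hα0, star_zero]
  have hβ1 : (βᴴ * ρB).trace = 0 := by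
    rw [← hB.1.eq, ← conjTranspose_mul, trace_conjTranspose, hβ0, star_zero]
  set P : Matrix (I × J) (I × J) ℂ :=
    α ⊗ₖ (1 : Matrix J J ℂ) + (1 : Matrix I I ℂ) ⊗ₖ β + z • (1 : Matrix (I × J) (I × J) ℂ) with hP
  have hPρ : Pᴴ * (ρA ⊗ₖ ρB) =
      (αᴴ * ρA) ⊗ₖ ρB + ρA ⊗ₖ (βᴴ * ρB) + star z • (ρA ⊗ₖ ρB) := by
    rw [hP]
    simp only [conjTranspose_add, conjTranspose_smul, conjTranspose_kronecker, conjTranspose_one,
      Matrix.add_mul, Matrix.smul_mul, Matrix.one_mul, ← mul_kronecker_mul]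
  have hzz : star z * z = ((‖z‖ ^ 2 : ℝ) : ℂ) := by
    rw [Complex.star_def, Complex.conj_mul']; push_cast; ring
  have e1 : (Pᴴ * (ρA ⊗ₖ ρB) * W).trace =
      (αᴴ * ρA * α).trace + (βᴴ * ρB * β).trace + star z * z := by
    rw [hPρ]
    simp only [Matrix.add_mul, Matrix.smul_mul, trace_add, trace_smul, hα, hβ, Matrix.mul_add,
      Matrix.mul_smul, Matrix.mul_one, hα1, hβ1, hα0, tA, smul_eq_mul]
    ring
  have e2 : (Pᴴ * (ρA ⊗ₖ ρB) * P).trace =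
      (αᴴ * ρA * α).trace + (βᴴ * ρB * β).trace + star z * z := by
    rw [hPρ, hP]
    simp only [Matrix.add_mul, Matrix.smul_mul, trace_add, trace_smul, Matrix.mul_add,
      Matrix.mul_smul, Matrix.mul_one, ← mul_kronecker_mul, trace_kronecker, hα1, hβ1, hα0, hβ0,
      tA, tB, smul_eq_mul]
    ring
  have := bessel_one hρ P W (e1.trans e2.symm)
  rw [e2, hzz] at this
  simpa only [Complex.add_re, Complex.ofReal_re] using this

/-- compressing by an isometry decreases the form -/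
lemma re_trace_isometry_le {V : Matrix K I ℂ} (hV : Vᴴ * V = 1) {X : Matrix K K ℂ}
    (hX : X.PosSemidef) : (Vᴴ * X * V).trace.re ≤ X.trace.re := by
  classical
  have hproj : (1 - V * Vᴴ) * (1 - V * Vᴴ) = 1 - V * Vᴴ := by
    simp only [Matrix.sub_mul, Matrix.mul_sub, Matrix.one_mul, Matrix.mul_one]
    rw [Matrix.mul_assoc V, ← Matrix.mul_assoc Vᴴ, hV, Matrix.one_mul]; simp
  have hh : (1 - V * Vᴴ)ᴴ = 1 - V * Vᴴ := by
    simp [conjTranspose_sub, conjTranspose_mul]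
  have h0 := re_trace_conj_nonneg hX (1 - V * Vᴴ)
  rw [hh, trace_mul_cycle, hproj, Matrix.sub_mul, Matrix.one_mul, trace_sub, Complex.sub_re] at h0
  rw [trace_mul_cycle]
  linarith

/-- `tr Wᴴ ρ W ≤ tr Zᴴ ρC Z` for `W = Vᴴ (Z ⊗ 1) V`, `ρC` the reduced output. -/
theorem dilation_L {V : Matrix (K × D) I ℂ} (hV : Vᴴ * V = 1) {ρ : Matrix I I ℂ}
    (hρ : ρ.PosSemidef) (ρC : Matrix K K ℂ)
    (hC : ∀ Y : Matrix K K ℂ,
      (Y * ρC).trace = ((Y ⊗ₖ (1 : Matrix D D ℂ)) * (V * ρ * Vᴴ)).trace) (Z : Matrix K K ℂ) :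
    ((Vᴴ * (Z ⊗ₖ (1 : Matrix D D ℂ)) * V)ᴴ * ρ * (Vᴴ * (Z ⊗ₖ (1 : Matrix D D ℂ)) * V)).trace.re ≤
      (Zᴴ * ρC * Z).trace.re := by
  set Z' : Matrix (K × D) (K × D) ℂ := Z ⊗ₖ (1 : Matrix D D ℂ) with hZ'
  have hX : (Z'ᴴ * (V * ρ * Vᴴ) * Z').PosSemidef :=
    (hρ.mul_mul_conjTranspose_same V).conjTranspose_mul_mul_same Z'
  have h1 := re_trace_isometry_le hV hX
  have e1 : (Vᴴ * Z' * V)ᴴ * ρ * (Vᴴ * Z' * V) = Vᴴ * (Z'ᴴ * (V * ρ * Vᴴ) * Z') * V := by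
    simp only [conjTranspose_mul, conjTranspose_conjTranspose, Matrix.mul_assoc]
  have e2 : (Z'ᴴ * (V * ρ * Vᴴ) * Z').trace = (Zᴴ * ρC * Z).trace := by
    rw [trace_mul_cycle, trace_mul_cycle Zᴴ, hC, hZ', conjTranspose_kronecker, conjTranspose_one,
      ← mul_kronecker_mul, Matrix.one_mul]
  rw [e1, ← e2]
  exact h1

/-- ANOVA, `L` form, for an isometric dilation `V` of a two-input channel. -/
theorem anova_dil_L {V : Matrix (K × D) (I × J) ℂ} (hV : Vᴴ * V = 1)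
    {ρA : Matrix I I ℂ} {ρB : Matrix J J ℂ} (hA : ρA.PosSemidef) (hB : ρB.PosSemidef)
    (tA : ρA.trace = 1) (tB : ρB.trace = 1) (ρC : Matrix K K ℂ)
    (hC : ∀ Y : Matrix K K ℂ,
      (Y * ρC).trace = ((Y ⊗ₖ (1 : Matrix D D ℂ)) * (V * (ρA ⊗ₖ ρB) * Vᴴ)).trace)
    (Z : Matrix K K ℂ) (α : Matrix I I ℂ) (β : Matrix J J ℂ) (z : ℂ)
    (hα : ∀ σ : Matrix I I ℂ, ((Z ⊗ₖ (1 : Matrix D D ℂ)) * (V * (σ ⊗ₖ ρB) * Vᴴ)).trace =
      (σ * (α + z • (1 : Matrix I I ℂ))).trace)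
    (hβ : ∀ σ : Matrix J J ℂ, ((Z ⊗ₖ (1 : Matrix D D ℂ)) * (V * (ρA ⊗ₖ σ) * Vᴴ)).trace =
      (σ * (β + z • (1 : Matrix J J ℂ))).trace)
    (hα0 : (ρA * α).trace = 0) (hβ0 : (ρB * β).trace = 0) :
    (αᴴ * ρA * α).trace.re + (βᴴ * ρB * β).trace.re + ‖z‖ ^ 2 ≤ (Zᴴ * ρC * Z).trace.re := by
  have cyc : ∀ X : Matrix (I × J) (I × J) ℂ,
      (X * (Vᴴ * (Z ⊗ₖ (1 : Matrix D D ℂ)) * V)).trace =
        ((Z ⊗ₖ (1 : Matrix D D ℂ)) * (V * X * Vᴴ)).trace := by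
    intro X
    rw [← Matrix.mul_assoc, ← Matrix.mul_assoc, trace_mul_cycle, trace_mul_comm]
    simp only [Matrix.mul_assoc]
  exact (anova_L hA hB tA tB _ α β z (fun σ => by rw [cyc, hα]) (fun σ => by rw [cyc, hβ])
    hα0 hβ0).trans (dilation_L hV (hA.kronecker hB) ρC hC Z)

/-- ANOVA, `R` form (`Y ↦ tr Y ρ Yᴴ = tr Yᴴ Y ρ`). -/
theorem anova_dil_R {V : Matrix (K × D) (I × J) ℂ} (hV : Vᴴ * V = 1)
    {ρA : Matrix I I ℂ} {ρB : Matrix J J ℂ} (hA : ρA.PosSemidef) (hB : ρB.PosSemidef)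
    (tA : ρA.trace = 1) (tB : ρB.trace = 1) (ρC : Matrix K K ℂ)
    (hC : ∀ Y : Matrix K K ℂ,
      (Y * ρC).trace = ((Y ⊗ₖ (1 : Matrix D D ℂ)) * (V * (ρA ⊗ₖ ρB) * Vᴴ)).trace)
    (Z : Matrix K K ℂ) (α : Matrix I I ℂ) (β : Matrix J J ℂ) (z : ℂ)
    (hα : ∀ σ : Matrix I I ℂ, ((Z ⊗ₖ (1 : Matrix D D ℂ)) * (V * (σ ⊗ₖ ρB) * Vᴴ)).trace =
      (σ * (α + z • (1 : Matrix I I ℂ))).trace)
    (hβ : ∀ σ : Matrix J J ℂ, ((Z ⊗ₖ (1 : Matrix D D ℂ)) * (V * (ρA ⊗ₖ σ) * Vᴴ)).trace =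
      (σ * (β + z • (1 : Matrix J J ℂ))).trace)
    (hα0 : (ρA * α).trace = 0) (hβ0 : (ρB * β).trace = 0) :
    (α * ρA * αᴴ).trace.re + (β * ρB * βᴴ).trace.re + ‖z‖ ^ 2 ≤ (Z * ρC * Zᴴ).trace.re := by
  have st : ∀ X : Matrix (I × J) (I × J) ℂ,
      ((Zᴴ ⊗ₖ (1 : Matrix D D ℂ)) * (V * X * Vᴴ)).trace =
        star ((Z ⊗ₖ (1 : Matrix D D ℂ)) * (V * Xᴴ * Vᴴ)).trace := by
    intro X
    rw [← trace_conjTranspose, conjTranspose_mul, conjTranspose_kronecker, conjTranspose_one,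
      trace_mul_comm]
    simp only [conjTranspose_mul, conjTranspose_conjTranspose, Matrix.mul_assoc]
  have h := anova_dil_L hV hA hB tA tB ρC hC Zᴴ αᴴ βᴴ (star z)
    (fun σ => by
      rw [st, conjTranspose_kronecker, hB.1.eq, hα, ← trace_conjTranspose, conjTranspose_mul,
        conjTranspose_conjTranspose, trace_mul_comm, conjTranspose_add, conjTranspose_smul,
        conjTranspose_one])
    (fun σ => by
      rw [st, conjTranspose_kronecker, hA.1.eq, hβ, ← trace_conjTranspose, conjTranspose_mul,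
        conjTranspose_conjTranspose, trace_mul_comm, conjTranspose_add, conjTranspose_smul,
        conjTranspose_one])
    (by rw [← hA.1.eq, ← conjTranspose_mul, trace_conjTranspose, trace_mul_comm, hα0, star_zero])
    (by rw [← hB.1.eq, ← conjTranspose_mul, trace_conjTranspose, trace_mul_comm, hβ0, star_zero])
  simpa only [conjTranspose_conjTranspose, norm_star] using h

end

end Crest.Agent.R331
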