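import Crest.Agent.R331.Defs
import Crest.Agent.R331.AmpN
import Crest.Agent.R331.Anova

/-! Row 331: the beam splitter as a matrix; partial traces; intertwining; ANOVA. -/

set_option autoImplicit false
set_option linter.unusedSectionVars false

open Matrix Kronecker Crest.Quantum Crest.MathPhysics.Bosonic
open scoped ComplexOrder

namespace Crest.Agent.R331.BSm
open Crest.Agent.R331.EP

section generic
variable {A B C D : Type} [Fintype A] [DecidableEq A] [Fintype B] [DecidableEq B]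
  [Fintype C] [DecidableEq C] [Fintype D] [DecidableEq D]

lemma kron_one_mul_apply {E : Type} (X : Mat C) (V : Matrix (C × D) E ℂ) (p : C) (q : D) (y : E) :
    ((X ⊗ₖ (1 : Mat D)) * V) (p, q) y = ∑ p', X p p' * V (p', q) y := by
  simp [Matrix.mul_apply, Fintype.sum_prod_type, one_apply]

lemma one_kron_mul_apply {E : Type} (X : Mat D) (V : Matrix (C × D) E ℂ) (p : C) (q : D) (y : E) :
    (((1 : Mat C) ⊗ₖ X) * V) (p, q) y = ∑ q', X q q' * V (p, q') y := by
  simp [Matrix.mul_apply, Fintype.sum_prod_type, one_apply, ite_mul, Finset.sum_ite_eq]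

lemma mul_kron_one_apply {E : Type} (X : Mat A) (V : Matrix E (A × B) ℂ) (x : E) (k : A) (l : B) :
    (V * (X ⊗ₖ (1 : Mat B))) x (k, l) = ∑ k', V x (k', l) * X k' k := by
  simp [Matrix.mul_apply, Fintype.sum_prod_type, one_apply]

lemma mul_one_kron_apply {E : Type} (X : Mat B) (V : Matrix E (A × B) ℂ) (x : E) (k : A) (l : B) :
    (V * ((1 : Mat A) ⊗ₖ X)) x (k, l) = ∑ l', V x (k, l') * X l' l := by
  simp [Matrix.mul_apply, Fintype.sum_prod_type, one_apply, ite_mul, Finset.sum_ite_eq']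

lemma tr_ptrace (X : Matrix (C × D) (C × D) ℂ) (Z : Mat C) :
    (Z * (Matrix.of fun p p' => ∑ q, X (p, q) (p', q) : Mat C)).trace =
      ((Z ⊗ₖ (1 : Mat D)) * X).trace := by
  simp only [trace, diag_apply, Fintype.sum_prod_type, kron_one_mul_apply]
  simp only [Matrix.mul_apply, of_apply, Finset.mul_sum]
  exact Finset.sum_congr rfl fun p _ => Finset.sum_comm

theorem tr_out_kron (V : Matrix (C × D) (A × B) ℂ) (ρ1 : Mat A) (ρ2 : Mat B) (Z : Mat C) :
    (Z * out V ρ1 ρ2).trace = ((Z ⊗ₖ (1 : Mat D)) * (V * (ρ1 ⊗ₖ ρ2) * Vᴴ)).trace :=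
  tr_ptrace _ Z

theorem tr_cnd_kron (V : Matrix (C × D) (A × B) ℂ) (σ : Mat A) (ρ2 : Mat B) (Z : Mat C) :
    (σ * cnd V ρ2 Z).trace = ((σ ⊗ₖ ρ2) * (Vᴴ * (Z ⊗ₖ (1 : Mat D)) * V)).trace := by
  generalize hW : Vᴴ * (Z ⊗ₖ (1 : Mat D)) * V = W
  have : cnd V ρ2 Z = Matrix.of fun k k' => ∑ l, ∑ l', ρ2 l l' * W (k, l') (k', l) := by
    rw [← hW]; rfl
  rw [this]
  simp only [trace, diag_apply, Matrix.mul_apply, of_apply, Fintype.sum_prod_type,
    kroneckerMap_apply, Finset.mul_sum]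
  refine Finset.sum_congr rfl fun k _ => ?_
  rw [Finset.sum_comm]
  refine Finset.sum_congr rfl fun l _ => Finset.sum_congr rfl fun k' _ =>
    Finset.sum_congr rfl fun l' _ => by ring

/-- duality of `out` and `cnd` -/
theorem tr_out (V : Matrix (C × D) (A × B) ℂ) (ρ1 : Mat A) (ρ2 : Mat B) (Z : Mat C) :
    (Z * out V ρ1 ρ2).trace = (ρ1 * cnd V ρ2 Z).trace := by
  rw [tr_out_kron, tr_cnd_kron, ← Matrix.mul_assoc, trace_mul_cycle, trace_mul_comm (ρ1 ⊗ₖ ρ2)]
  simp only [Matrix.mul_assoc]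

theorem tr_out' (V : Matrix (C × D) (A × B) ℂ) (ρ1 : Mat A) (ρ2 : Mat B) (Z : Mat C) :
    (Z * out V ρ1 ρ2).trace = (cnd V ρ2 Z * ρ1).trace := by
  rw [tr_out, trace_mul_comm]

lemma swp_mul_kron (V : Matrix (C × D) (A × B) ℂ) (X : Mat A) (Y : Mat B) :
    swp V * (Y ⊗ₖ X) = swp (V * (X ⊗ₖ Y)) := by
  ext x ⟨l, k⟩
  simp only [swp, Matrix.mul_apply, submatrix_apply, id, Prod.swap, Fintype.sum_prod_type,
    kroneckerMap_apply]
  rw [Finset.sum_comm]
  refine Finset.sum_congr rfl fun _ _ => Finset.sum_congr rfl fun _ _ => by ring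

lemma swp_mul_swp_adj (V W : Matrix (C × D) (A × B) ℂ) : swp V * (swp W)ᴴ = V * Wᴴ := by
  ext x y
  simp only [swp, Matrix.mul_apply, submatrix_apply, id, Prod.swap, Fintype.sum_prod_type,
    conjTranspose_apply]
  rw [Finset.sum_comm]

lemma mul_swp (X : Matrix (C × D) (C × D) ℂ) (V : Matrix (C × D) (A × B) ℂ) :
    X * swp V = swp (X * V) := by
  ext x y
  simp only [swp, Matrix.mul_apply, submatrix_apply, id]

lemma swp_add (V W : Matrix (C × D) (A × B) ℂ) : swp (V + W) = swp V + swp W := rfl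

lemma swp_swp (V : Matrix (C × D) (A × B) ℂ) : swp (swp V) = V := by
  ext x y; simp [swp]

theorem out_swp (V : Matrix (C × D) (A × B) ℂ) (ρ1 : Mat A) (ρ2 : Mat B) :
    out (swp V) ρ2 ρ1 = out V ρ1 ρ2 := by
  unfold out
  rw [swp_mul_kron, swp_mul_swp_adj]

theorem swp_iso {V : Matrix (C × D) (A × B) ℂ} (hV : Vᴴ * V = 1) : (swp V)ᴴ * swp V = 1 := by
  ext x y
  have := congrFun (congrFun hV x.swap) y.swap
  simp only [swp, Matrix.mul_apply, submatrix_apply, id, conjTranspose_apply, one_apply,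
    Prod.swap_inj] at this ⊢
  exact this

lemma eq_of_forall_trace {X Y : Mat A} (h : ∀ σ : Mat A, (σ * X).trace = (σ * Y).trace) :
    X = Y := by
  ext i j
  have := h (Matrix.single j i 1)
  simpa [Matrix.trace_single_mul] using this

theorem cnd_one {V : Matrix (C × D) (A × B) ℂ} (hV : Vᴴ * V = 1) {ρ2 : Mat B}
    (t2 : ρ2.trace = 1) : cnd V ρ2 1 = 1 := by
  apply eq_of_forall_trace
  intro σ
  rw [tr_cnd_kron, one_kronecker_one, Matrix.mul_one, hV, Matrix.mul_one, trace_kronecker, t2,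
    Matrix.mul_one, mul_one]

theorem cnd_adj (V : Matrix (C × D) (A × B) ℂ) {ρ2 : Mat B} (h2 : ρ2.IsHermitian) (Z : Mat C) :
    cnd V ρ2 Zᴴ = (cnd V ρ2 Z)ᴴ := by
  apply eq_of_forall_trace
  intro σ
  have e : (σ * (cnd V ρ2 Z)ᴴ).trace = star (σᴴ * cnd V ρ2 Z).trace := by
    rw [← trace_conjTranspose, conjTranspose_mul, conjTranspose_conjTranspose, trace_mul_comm]
  rw [e, tr_cnd_kron, tr_cnd_kron, ← trace_conjTranspose, trace_mul_comm]
  simp only [conjTranspose_mul, conjTranspose_kronecker, conjTranspose_conjTranspose,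
    conjTranspose_one, h2.eq, Matrix.mul_assoc]

theorem cnd_herm (V : Matrix (C × D) (A × B) ℂ) {ρ2 : Mat B} (h2 : ρ2.IsHermitian) {Z : Mat C}
    (hZ : Z.IsHermitian) : (cnd V ρ2 Z).IsHermitian := by
  rw [IsHermitian, ← cnd_adj V h2, hZ.eq]

theorem out_trace {V : Matrix (C × D) (A × B) ℂ} (hV : Vᴴ * V = 1) (ρ1 : Mat A) (ρ2 : Mat B) :
    (out V ρ1 ρ2).trace = ρ1.trace * ρ2.trace := by
  have := tr_out_kron V ρ1 ρ2 1
  rw [Matrix.one_mul, one_kronecker_one, Matrix.one_mul, trace_mul_cycle, hV, Matrix.one_mul,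
    trace_kronecker] at this
  exact this

theorem out_psd (V : Matrix (C × D) (A × B) ℂ) {ρ1 : Mat A} {ρ2 : Mat B} (h1 : ρ1.PosSemidef)
    (h2 : ρ2.PosSemidef) : (out V ρ1 ρ2).PosSemidef := by
  have hX : (V * (ρ1 ⊗ₖ ρ2) * Vᴴ).PosSemidef := (h1.kronecker h2).mul_mul_conjTranspose_same V
  have : out V ρ1 ρ2 = ∑ q : D, (V * (ρ1 ⊗ₖ ρ2) * Vᴴ).submatrix (fun p => (p, q)) (fun p => (p, q)) := by
    ext p p'
    simp [out, Matrix.sum_apply]
  rw [this]
  exact Matrix.posSemidef_sum _ fun q _ => hX.submatrix _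

theorem out_density {V : Matrix (C × D) (A × B) ℂ} (hV : Vᴴ * V = 1) {ρ1 : Mat A} {ρ2 : Mat B}
    (h1 : IsDensity ρ1) (h2 : IsDensity ρ2) : IsDensity (out V ρ1 ρ2) :=
  ⟨out_psd V h1.1 h2.1, by rw [out_trace hV, h1.2, h2.2, mul_one]⟩

theorem out_add_left (V : Matrix (C × D) (A × B) ℂ) (ρ σ : Mat A) (ρ2 : Mat B) :
    out V (ρ + σ) ρ2 = out V ρ ρ2 + out V σ ρ2 := by
  ext p p'
  simp [out, Matrix.add_kronecker, Matrix.mul_add, Matrix.add_mul, Finset.sum_add_distrib]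

theorem out_smul_left (V : Matrix (C × D) (A × B) ℂ) (c : ℂ) (ρ : Mat A) (ρ2 : Mat B) :
    out V (c • ρ) ρ2 = c • out V ρ ρ2 := by
  ext p p'
  simp [out, Matrix.smul_kronecker, Finset.mul_sum]

/-- `out` as a linear map in the first input -/
noncomputable def outL (V : Matrix (C × D) (A × B) ℂ) (ρ2 : Mat B) : Mat A →ₗ[ℂ] Mat C where
  toFun ρ := out V ρ ρ2
  map_add' ρ σ := out_add_left V ρ σ ρ2
  map_smul' c ρ := out_smul_left V c ρ ρ2

lemma cen_add_smul {ρ : Mat A} (x : Mat A) : cen ρ x + (ρ * x).trace • (1 : Mat A) = x := by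
  simp [cen]

lemma tr_cen {ρ : Mat A} (t : ρ.trace = 1) (x : Mat A) : (ρ * cen ρ x).trace = 0 := by
  simp [cen, Matrix.mul_sub, t]

/-- ANOVA, `L` form -/
theorem anova_cnd_L {V : Matrix (C × D) (A × B) ℂ} (hV : Vᴴ * V = 1) {ρ1 : Mat A} {ρ2 : Mat B}
    (h1 : IsDensity ρ1) (h2 : IsDensity ρ2) (Z : Mat C) :
    ((cen ρ1 (cnd V ρ2 Z))ᴴ * ρ1 * cen ρ1 (cnd V ρ2 Z)).trace.re +
      ((cen ρ2 (cnd (swp V) ρ1 Z))ᴴ * ρ2 * cen ρ2 (cnd (swp V) ρ1 Z)).trace.re +
      ‖(out V ρ1 ρ2 * Z).trace‖ ^ 2 ≤ (Zᴴ * out V ρ1 ρ2 * Z).trace.re := by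
  have z1 : (out V ρ1 ρ2 * Z).trace = (ρ1 * cnd V ρ2 Z).trace := by
    rw [trace_mul_comm, tr_out]
  have z2 : (out V ρ1 ρ2 * Z).trace = (ρ2 * cnd (swp V) ρ1 Z).trace := by
    rw [trace_mul_comm, ← out_swp, tr_out]
  refine anova_dil_L hV h1.1 h2.1 h1.2 h2.2 _ (tr_out_kron V ρ1 ρ2) Z _ _ _ (fun σ => ?_)
    (fun σ => ?_) (tr_cen h1.2 _) (tr_cen h2.2 _)
  · rw [z1, cen_add_smul, ← tr_out_kron, tr_out]
  · rw [z2, cen_add_smul, ← tr_out_kron, ← out_swp, tr_out]

/-- ANOVA, `R` form -/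
theorem anova_cnd_R {V : Matrix (C × D) (A × B) ℂ} (hV : Vᴴ * V = 1) {ρ1 : Mat A} {ρ2 : Mat B}
    (h1 : IsDensity ρ1) (h2 : IsDensity ρ2) (Z : Mat C) :
    (cen ρ1 (cnd V ρ2 Z) * ρ1 * (cen ρ1 (cnd V ρ2 Z))ᴴ).trace.re +
      (cen ρ2 (cnd (swp V) ρ1 Z) * ρ2 * (cen ρ2 (cnd (swp V) ρ1 Z))ᴴ).trace.re +
      ‖(out V ρ1 ρ2 * Z).trace‖ ^ 2 ≤ (Z * out V ρ1 ρ2 * Zᴴ).trace.re := by
  have z1 : (out V ρ1 ρ2 * Z).trace = (ρ1 * cnd V ρ2 Z).trace := by
    rw [trace_mul_comm, tr_out]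
  have z2 : (out V ρ1 ρ2 * Z).trace = (ρ2 * cnd (swp V) ρ1 Z).trace := by
    rw [trace_mul_comm, ← out_swp, tr_out]
  refine anova_dil_R hV h1.1 h2.1 h1.2 h2.2 _ (tr_out_kron V ρ1 ρ2) Z _ _ _ (fun σ => ?_)
    (fun σ => ?_) (tr_cen h1.2 _) (tr_cen h2.2 _)
  · rw [z1, cen_add_smul, ← tr_out_kron, tr_out]
  · rw [z2, cen_add_smul, ← tr_out_kron, ← out_swp, tr_out]

/-- if `(c ⊗ 1) V = V (e a ⊗ 1 + f 1 ⊗ b)` then `E c = e a + f ⟨b⟩` -/
theorem cnd_of_itw {V : Matrix (C × D) (A × B) ℂ} (hV : Vᴴ * V = 1) {ρ2 : Mat B}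
    (t2 : ρ2.trace = 1) (c : Mat C) (a : Mat A) (b : Mat B) (e f : ℂ)
    (h : (c ⊗ₖ (1 : Mat D)) * V = e • (V * (a ⊗ₖ (1 : Mat B))) + f • (V * ((1 : Mat A) ⊗ₖ b))) :
    cnd V ρ2 c = e • a + (f * (ρ2 * b).trace) • (1 : Mat A) := by
  apply eq_of_forall_trace
  intro σ
  rw [tr_cnd_kron, Matrix.mul_assoc, h]
  simp only [Matrix.mul_add, Matrix.mul_smul, ← Matrix.mul_assoc, hV, Matrix.one_mul,
    ← mul_kronecker_mul, trace_add, trace_smul, trace_kronecker, Matrix.mul_one, t2, smul_eq_mul]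
  ring

end generic

section concrete
variable {n : ℕ}

/-- the occupation tuple of a box index -/
def val {K : ℕ} (k : Ix n K) : Occ n := fun j => (k j : ℕ)

@[simp] lemma val_apply {K : ℕ} (k : Ix n K) (j : Fin n) : val k j = (k j : ℕ) := rfl

lemma val_inj {K : ℕ} {k l : Ix n K} : val k = val l ↔ k = l := by
  simp only [funext_iff, val_apply, Fin.val_inj]

lemma VV_apply (K : ℕ) (η : ℝ) (p q : Ix n (2 * K)) (k l : Ix n K) :
    VV n K η (p, q) (k, l) = (ampOcc η (val k) (val l) (val p) (val q) : ℂ) := rfl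

theorem VV_iso (K : ℕ) {η : ℝ} (hη : η ∈ Set.Icc (0 : ℝ) 1) :
    (VV n K η)ᴴ * VV n K η = 1 := by
  ext ⟨k, l⟩ ⟨k', l'⟩
  have := congrArg (fun x : ℝ => (x : ℂ)) (bsAmpN_orth hη k l k' l')
  simp only [Matrix.mul_apply, conjTranspose_apply, Fintype.sum_prod_type, VV, of_apply, one_apply,
    Prod.mk.injEq, Complex.star_def, Complex.conj_ofReal]
  push_cast at this
  rw [this]
  split_ifs <;> simp

theorem out_VV (K : ℕ) (η : ℝ) (ρA ρB : Mat (Ix n K)) :
    out (VV n K η) ρA ρB = bsOutput η ρA ρB := by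
  ext p p'
  simp only [out, bsOutput, of_apply, Matrix.mul_apply, conjTranspose_apply, VV,
    Fintype.sum_prod_type, kroneckerMap_apply, Complex.star_def, Complex.conj_ofReal,
    Finset.sum_mul]
  refine Finset.sum_congr rfl fun q _ => ?_
  calc _ = ∑ k' : Ix n K, ∑ k : Ix n K, ∑ l' : Ix n K, ∑ l : Ix n K,
        (bsAmpN η k l p q : ℂ) * (ρA k k' * ρB l l') * (bsAmpN η k' l' p' q : ℂ) :=
        Finset.sum_congr rfl fun k' _ => Finset.sum_comm
    _ = ∑ k : Ix n K, ∑ k' : Ix n K, ∑ l : Ix n K, ∑ l' : Ix n K,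
        (bsAmpN η k l p q : ℂ) * (ρA k k' * ρB l l') * (bsAmpN η k' l' p' q : ℂ) := by
        rw [Finset.sum_comm]
        exact Finset.sum_congr rfl fun k _ => Finset.sum_congr rfl fun k' _ => Finset.sum_comm
    _ = _ := by
        refine Finset.sum_congr rfl fun k _ => ?_
        rw [Finset.sum_comm]
        exact Finset.sum_congr rfl fun l _ => Finset.sum_congr rfl fun k' _ =>
          Finset.sum_congr rfl fun l' _ => by ring

lemma low_apply (K : ℕ) (i : Fin n) (k l : Ix n K) :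
    low n K i k l = if val l = up i (val k) then ((√((k i : ℝ) + 1) : ℝ) : ℂ) else 0 := by
  have hiff : ((∀ j, j ≠ i → k j = l j) ∧ (l i : ℕ) = k i + 1) ↔ val l = up i (val k) := by
    constructor
    · rintro ⟨h1, h2⟩
      funext j
      by_cases hj : j = i
      · subst hj; simpa using h2
      · rw [up_ne _ hj, val_apply, val_apply, h1 j hj]
    · intro h
      refine ⟨fun j hj => ?_, by simpa using congrFun h i⟩
      have := congrFun h j
      rw [up_ne _ hj] at this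
      exact Fin.ext this.symm
  simp only [low, of_apply]
  by_cases h : val l = up i (val k)
  · rw [if_pos (hiff.2 h), if_pos h, (hiff.2 h).2]; push_cast; rfl
  · rw [if_neg (fun h' => h (hiff.1 h')), if_neg h]

lemma low_adj_apply (K : ℕ) (i : Fin n) (k l : Ix n K) :
    (low n K i)ᴴ k l = low n K i l k := by
  rw [conjTranspose_apply, low_apply]
  split_ifs <;> simp

lemma sum_low_left (K : ℕ) (i : Fin n) (p : Ix n K) (f : Occ n → ℂ) :
    ∑ p', low n K i p p' * f (val p') =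
      if (p i : ℕ) < K then ((√((p i : ℝ) + 1) : ℝ) : ℂ) * f (up i (val p)) else 0 := by
  split_ifs with h
  · have hv : val (Function.update p i ⟨p i + 1, by omega⟩ : Ix n K) = up i (val p) := by
      funext j
      by_cases hj : j = i
      · subst hj; simp
      · rw [up_ne _ hj]; simp [hj]
    rw [Finset.sum_eq_single (Function.update p i ⟨p i + 1, by omega⟩)]
    · rw [low_apply, if_pos hv, hv]
    · intro p' _ hp'
      rw [low_apply, if_neg (fun h' => hp' (val_inj.1 (h'.trans hv.symm))), zero_mul]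
    · simp
  · apply Finset.sum_eq_zero
    intro p' _
    rw [low_apply, if_neg, zero_mul]
    intro h'
    have := congrFun h' i
    have h2 := (p' i).2
    simp at this
    omega

lemma sum_low_right (K : ℕ) (i : Fin n) (k : Ix n K) (f : Occ n → ℂ) :
    ∑ k', f (val k') * low n K i k' k = ((√(k i : ℝ) : ℝ) : ℂ) * f (dn i (val k)) := by
  by_cases h : (k i : ℕ) = 0
  · rw [h]
    simp only [Nat.cast_zero, Real.sqrt_zero, Complex.ofReal_zero, zero_mul]
    apply Finset.sum_eq_zero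
    intro k' _
    rw [low_apply, if_neg, mul_zero]
    intro h'
    have := congrFun h' i
    simp at this
    omega
  · have hlt := (k i).2
    have hv : val (Function.update k i ⟨k i - 1, by omega⟩ : Ix n K) = dn i (val k) := by
      funext j
      by_cases hj : j = i
      · subst hj; simp
      · rw [dn_ne _ hj]; simp [hj]
    have hud : ∀ m : Occ n, val k = up i m ↔ m = dn i (val k) := by
      intro m
      constructor
      · intro h'
        funext j
        by_cases hj : j = i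
        · subst hj; rw [dn_self, h', up_self]; omega
        · rw [dn_ne _ hj, h', up_ne _ hj]
      · rintro rfl
        funext j
        by_cases hj : j = i
        · subst hj; rw [up_self, dn_self, val_apply]; omega
        · rw [up_ne _ hj, dn_ne _ hj]
    rw [Finset.sum_eq_single (Function.update k i ⟨k i - 1, by omega⟩)]
    · rw [low_apply, if_pos ((hud _).2 hv), hv, mul_comm]
      congr 3
      simp only [Function.update_self]
      rw [Nat.cast_sub (by omega)]; simp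
    · intro k' _ hk'
      rw [low_apply, if_neg (fun h' => hk' (val_inj.1 (((hud _).1 h').trans hv.symm))), mul_zero]
    · simp

lemma amp_dn_k_zero (K : ℕ) (η : ℝ) (i : Fin n) (k l : Ix n K) (p q : Occ n)
    (h : 2 * K ≤ p i + q i) :
    √(k i : ℝ) * ampOcc η (dn i (val k)) (val l) p q = 0 := by
  by_cases h0 : (k i : ℕ) = 0
  · simp [h0]
  · rw [ampOcc_of_ne, mul_zero]
    intro h'
    have := congrFun h' i
    have h1 := (k i).2
    have h2 := (l i).2
    simp at this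
    omega

lemma amp_dn_l_zero (K : ℕ) (η : ℝ) (i : Fin n) (k l : Ix n K) (p q : Occ n)
    (h : 2 * K ≤ p i + q i) :
    √(l i : ℝ) * ampOcc η (val k) (dn i (val l)) p q = 0 := by
  by_cases h0 : (l i : ℕ) = 0
  · simp [h0]
  · rw [ampOcc_of_ne, mul_zero]
    intro h'
    have := congrFun h' i
    have h1 := (k i).2
    have h2 := (l i).2
    simp at this
    omega

lemma VV_mul_a (K : ℕ) (η : ℝ) (i : Fin n) (p q : Ix n (2 * K)) (k l : Ix n K) :
    (VV n K η * (low n K i ⊗ₖ (1 : Mat (Ix n K)))) (p, q) (k, l) =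
      ((√(k i : ℝ) * ampOcc η (dn i (val k)) (val l) (val p) (val q) : ℝ) : ℂ) := by
  rw [mul_kron_one_apply]
  simp only [VV_apply]
  rw [sum_low_right K i k (fun m => (ampOcc η m (val l) (val p) (val q) : ℂ))]
  push_cast; rfl

lemma VV_mul_b (K : ℕ) (η : ℝ) (i : Fin n) (p q : Ix n (2 * K)) (k l : Ix n K) :
    (VV n K η * ((1 : Mat (Ix n K)) ⊗ₖ low n K i)) (p, q) (k, l) =
      ((√(l i : ℝ) * ampOcc η (val k) (dn i (val l)) (val p) (val q) : ℝ) : ℂ) := by
  rw [mul_one_kron_apply]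
  simp only [VV_apply]
  rw [sum_low_right K i l (fun m => (ampOcc η (val k) m (val p) (val q) : ℂ))]
  push_cast; rfl

/-- `c V = V (√η a + √(1-η) b)` -/
theorem c_mul_VV (K : ℕ) (η : ℝ) (i : Fin n) :
    (low n (2 * K) i ⊗ₖ (1 : Mat (Ix n (2 * K)))) * VV n K η =
      ((√η : ℝ) : ℂ) • (VV n K η * (low n K i ⊗ₖ (1 : Mat (Ix n K)))) +
        ((√(1 - η) : ℝ) : ℂ) • (VV n K η * ((1 : Mat (Ix n K)) ⊗ₖ low n K i)) := by
  ext ⟨p, q⟩ ⟨k, l⟩
  rw [kron_one_mul_apply, Matrix.add_apply, Matrix.smul_apply, Matrix.smul_apply, VV_mul_a, VV_mul_b]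
  simp only [VV_apply]
  rw [sum_low_left (2 * K) i p (fun m => (ampOcc η (val k) (val l) m (val q) : ℂ))]
  split_ifs with h
  · have := ampOcc_up_p η i (val k) (val l) (val p) (val q)
    simp only [val_apply] at this
    simp only [smul_eq_mul]
    exact_mod_cast this
  · rw [amp_dn_k_zero K η i k l _ _ (by simp; omega), amp_dn_l_zero K η i k l _ _ (by simp; omega)]
    simp

/-- `d V = V (-√(1-η) a + √η b)` -/
theorem d_mul_VV (K : ℕ) (η : ℝ) (i : Fin n) :
    ((1 : Mat (Ix n (2 * K))) ⊗ₖ low n (2 * K) i) * VV n K η =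
      ((-√(1 - η) : ℝ) : ℂ) • (VV n K η * (low n K i ⊗ₖ (1 : Mat (Ix n K)))) +
        ((√η : ℝ) : ℂ) • (VV n K η * ((1 : Mat (Ix n K)) ⊗ₖ low n K i)) := by
  ext ⟨p, q⟩ ⟨k, l⟩
  rw [one_kron_mul_apply, Matrix.add_apply, Matrix.smul_apply, Matrix.smul_apply, VV_mul_a, VV_mul_b]
  simp only [VV_apply]
  rw [sum_low_left (2 * K) i q (fun m => (ampOcc η (val k) (val l) (val p) m : ℂ))]
  split_ifs with h
  · have := ampOcc_up_q η i (val k) (val l) (val p) (val q)
    simp only [val_apply] at this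
    simp only [smul_eq_mul]
    rw [← neg_mul] at this
    exact_mod_cast this
  · rw [amp_dn_k_zero K η i k l _ _ (by simp; omega), amp_dn_l_zero K η i k l _ _ (by simp; omega)]
    simp

theorem cnd_low_A (K : ℕ) {η : ℝ} (hη : η ∈ Set.Icc (0 : ℝ) 1) (i : Fin n) {ρB : Mat (Ix n K)}
    (tB : ρB.trace = 1) :
    cnd (VV n K η) ρB (low n (2 * K) i) = ((√η : ℝ) : ℂ) • low n K i +
      (((√(1 - η) : ℝ) : ℂ) * (ρB * low n K i).trace) • (1 : Mat (Ix n K)) :=
  cnd_of_itw (VV_iso K hη) tB _ _ _ _ _ (c_mul_VV K η i)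

theorem cnd_low_B (K : ℕ) {η : ℝ} (hη : η ∈ Set.Icc (0 : ℝ) 1) (i : Fin n) {ρA : Mat (Ix n K)}
    (tA : ρA.trace = 1) :
    cnd (swp (VV n K η)) ρA (low n (2 * K) i) = ((√(1 - η) : ℝ) : ℂ) • low n K i +
      (((√η : ℝ) : ℂ) * (ρA * low n K i).trace) • (1 : Mat (Ix n K)) := by
  apply cnd_of_itw (swp_iso (VV_iso K hη)) tA
  rw [mul_swp, c_mul_VV, swp_mul_kron, swp_mul_kron, add_comm]
  rfl

/-- the untruncated `a† ` on the output box -/
noncomputable def GA (n K : ℕ) (η : ℝ) (i : Fin n) :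
    Matrix (Ix n (2 * K) × Ix n (2 * K)) (Ix n K × Ix n K) ℂ :=
  Matrix.of fun pq kl => ((√((kl.1 i : ℝ) + 1) *
    ampOcc η (up i (val kl.1)) (val kl.2) (val pq.1) (val pq.2) : ℝ) : ℂ)

/-- the untruncated `b† ` on the output box (inputs exchanged) -/
noncomputable def GB (n K : ℕ) (η : ℝ) (i : Fin n) :
    Matrix (Ix n (2 * K) × Ix n (2 * K)) (Ix n K × Ix n K) ℂ :=
  Matrix.of fun pq lk => ((√((lk.1 i : ℝ) + 1) *
    ampOcc η (val lk.2) (up i (val lk.1)) (val pq.1) (val pq.2) : ℝ) : ℂ)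

lemma cadj_mul_VV (K : ℕ) (η : ℝ) (i : Fin n) (p q : Ix n (2 * K)) (k l : Ix n K) :
    (((low n (2 * K) i)ᴴ ⊗ₖ (1 : Mat (Ix n (2 * K)))) * VV n K η) (p, q) (k, l) =
      ((√(p i : ℝ) * ampOcc η (val k) (val l) (dn i (val p)) (val q) : ℝ) : ℂ) := by
  rw [kron_one_mul_apply]
  simp only [VV_apply, low_adj_apply, mul_comm (low n (2 * K) i _ _)]
  rw [sum_low_right (2 * K) i p (fun m => (ampOcc η (val k) (val l) m (val q) : ℂ))]
  push_cast; rfl

lemma dadj_mul_VV (K : ℕ) (η : ℝ) (i : Fin n) (p q : Ix n (2 * K)) (k l : Ix n K) :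
    (((1 : Mat (Ix n (2 * K))) ⊗ₖ (low n (2 * K) i)ᴴ) * VV n K η) (p, q) (k, l) =
      ((√(q i : ℝ) * ampOcc η (val k) (val l) (val p) (dn i (val q)) : ℝ) : ℂ) := by
  rw [one_kron_mul_apply]
  simp only [VV_apply, low_adj_apply, mul_comm (low n (2 * K) i _ _)]
  rw [sum_low_right (2 * K) i q (fun m => (ampOcc η (val k) (val l) (val p) m : ℂ))]
  push_cast; rfl

lemma top_adj (K : ℕ) (i : Fin n) : (top n K i)ᴴ = top n K i := by
  simp only [top, dg, diagonal_conjTranspose]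
  congr 1
  funext k
  simp

lemma top_mul_top (K : ℕ) (i : Fin n) : top n K i * top n K i = top n K i := by
  simp only [top, dg, diagonal_mul_diagonal]
  congr 1
  funext k
  split_ifs <;> simp

lemma low_adj_mul_top (K : ℕ) (i : Fin n) : (low n K i)ᴴ * top n K i = 0 := by
  ext k l
  rw [top, dg, mul_diagonal, low_adj_apply, low_apply]
  by_cases h : (l i : ℕ) = K
  · rw [if_neg, zero_mul, Matrix.zero_apply]
    intro h'
    have := congrFun h' i
    have h2 := (k i).2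
    simp at this
    omega
  · simp [h]

lemma mul_top_kron_apply {E B : Type} [Fintype B] [DecidableEq B] (K : ℕ) (i : Fin n)
    (G : Matrix E (Ix n K × B) ℂ) (x : E) (k : Ix n K) (l : B) :
    (G * (top n K i ⊗ₖ (1 : Mat B))) x (k, l) = if (k i : ℕ) = K then G x (k, l) else 0 := by
  rw [mul_kron_one_apply, Finset.sum_eq_single k]
  · simp only [top, dg, diagonal_apply_eq]
    split_ifs <;> simp
  · intro k' _ h
    simp [top, dg, diagonal_apply_ne _ h]
  · simp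

theorem itw_A (K : ℕ) {η : ℝ} (hη : η ∈ Set.Icc (0 : ℝ) 1) (i : Fin n) :
    Itw (VV n K η) (low n (2 * K) i) (low n K i) (top n K i) (√η) (GA n K η i) := by
  have hs : ((√η : ℝ) : ℂ) * ((√η : ℝ) : ℂ) + ((√(1 - η) : ℝ) : ℂ) * ((√(1 - η) : ℝ) : ℂ) = 1 := by
    exact_mod_cast sqrt_eta_sq hη
  refine ⟨⟨((-√(1 - η) : ℝ) : ℂ) • low n (2 * K) i, ?_, ?_⟩, top_adj K i, top_mul_top K i,
    low_adj_mul_top K i⟩
  · rw [Matrix.add_mul, kronecker_smul, Matrix.smul_mul, Matrix.smul_mul, c_mul_VV, d_mul_VV]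
    simp only [smul_add, smul_smul]
    push_cast
    match_scalars
    · linear_combination hs
    · ring
  · ext ⟨p, q⟩ ⟨k, l⟩
    rw [kronecker_smul, conjTranspose_add, conjTranspose_smul, conjTranspose_smul,
      conjTranspose_kronecker, conjTranspose_kronecker, conjTranspose_one, Matrix.add_mul,
      Matrix.smul_mul, Matrix.smul_mul, Matrix.add_apply, Matrix.smul_apply, Matrix.smul_apply, cadj_mul_VV, dadj_mul_VV,
      Matrix.add_apply, mul_top_kron_apply, mul_kron_one_apply]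
    simp only [VV_apply, low_adj_apply, mul_comm _ (low n K i _ _)]
    rw [sum_low_left K i k (fun m => (ampOcc η m (val l) (val p) (val q) : ℂ))]
    have h := ampOcc_up_k η i (val k) (val l) (val p) (val q)
    simp only [val_apply] at h
    have h' := congrArg (fun x : ℝ => (x : ℂ)) h
    have hk := (k i).2
    simp only [GA, of_apply, Complex.star_def, Complex.conj_ofReal, smul_eq_mul]
    push_cast at h' ⊢
    by_cases hk' : (k i : ℕ) = K
    · rw [if_neg (by omega), if_pos hk']; linear_combination -h'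
    · rw [if_pos (by omega), if_neg hk']; linear_combination -h'

theorem itw_B (K : ℕ) {η : ℝ} (hη : η ∈ Set.Icc (0 : ℝ) 1) (i : Fin n) :
    Itw (swp (VV n K η)) (low n (2 * K) i) (low n K i) (top n K i) (√(1 - η)) (GB n K η i) := by
  have hs : ((√η : ℝ) : ℂ) * ((√η : ℝ) : ℂ) + ((√(1 - η) : ℝ) : ℂ) * ((√(1 - η) : ℝ) : ℂ) = 1 := by
    exact_mod_cast sqrt_eta_sq hη
  refine ⟨⟨((√η : ℝ) : ℂ) • low n (2 * K) i, ?_, ?_⟩, top_adj K i, top_mul_top K i,
    low_adj_mul_top K i⟩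
  · rw [mul_swp, swp_mul_kron]
    congr 1
    rw [Matrix.add_mul, kronecker_smul, Matrix.smul_mul, Matrix.smul_mul, c_mul_VV, d_mul_VV]
    simp only [smul_add, smul_smul]
    push_cast
    match_scalars
    · ring
    · linear_combination hs
  · ext ⟨p, q⟩ ⟨l, k⟩
    rw [mul_swp, Matrix.add_apply, mul_top_kron_apply, mul_kron_one_apply]
    simp only [swp, submatrix_apply, id, Prod.swap]
    rw [kronecker_smul, conjTranspose_add, conjTranspose_smul, conjTranspose_smul,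
      conjTranspose_kronecker, conjTranspose_kronecker, conjTranspose_one, Matrix.add_mul,
      Matrix.smul_mul, Matrix.smul_mul, Matrix.add_apply, Matrix.smul_apply, Matrix.smul_apply, cadj_mul_VV, dadj_mul_VV]
    simp only [VV_apply, low_adj_apply, mul_comm _ (low n K i _ _)]
    rw [sum_low_left K i l (fun m => (ampOcc η (val k) m (val p) (val q) : ℂ))]
    have h := ampOcc_up_l η i (val k) (val l) (val p) (val q)
    simp only [val_apply] at h
    have h' := congrArg (fun x : ℝ => (x : ℂ)) h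
    have hk := (l i).2
    simp only [GB, of_apply, Complex.star_def, Complex.conj_ofReal, smul_eq_mul]
    push_cast at h' ⊢
    by_cases hk' : (l i : ℕ) = K
    · rw [if_neg (by omega), if_pos hk']; linear_combination -h'
    · rw [if_pos (by omega), if_neg hk']; linear_combination -h'

lemma sqrt_succ_le {K : ℕ} (m : Fin (K + 1)) : √((m : ℝ) + 1) ≤ √((K : ℝ) + 1) := by
  apply Real.sqrt_le_sqrt
  have : (m : ℕ) ≤ K := Nat.lt_succ_iff.1 m.2
  have : ((m : ℕ) : ℝ) ≤ K := by exact_mod_cast this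
  linarith

theorem norm_GA_le (K : ℕ) {η : ℝ} (hη : η ∈ Set.Icc (0 : ℝ) 1) (i : Fin n) (x) (y) :
    ‖GA n K η i x y‖ ≤ √((K : ℝ) + 1) := by
  rw [GA, of_apply, Complex.norm_real, Real.norm_eq_abs, abs_mul, abs_of_nonneg (Real.sqrt_nonneg _)]
  exact (mul_le_of_le_one_right (Real.sqrt_nonneg _) (abs_ampOcc_le_one hη _ _ _ _)).trans
    (sqrt_succ_le _)

theorem norm_GB_le (K : ℕ) {η : ℝ} (hη : η ∈ Set.Icc (0 : ℝ) 1) (i : Fin n) (x) (y) :
    ‖GB n K η i x y‖ ≤ √((K : ℝ) + 1) := by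
  rw [GB, of_apply, Complex.norm_real, Real.norm_eq_abs, abs_mul, abs_of_nonneg (Real.sqrt_nonneg _)]
  exact (mul_le_of_le_one_right (Real.sqrt_nonneg _) (abs_ampOcc_le_one hη _ _ _ _)).trans
    (sqrt_succ_le _)

end concrete

end Crest.Agent.R331.BSm
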