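import Crest.Agent.R331.Fr

set_option autoImplicit false

open Matrix Kronecker Crest.Quantum Crest.MathPhysics.Bosonic
open scoped ComplexOrder

namespace Crest.Agent.R331.EP

theorem card_Ix (n K : ℕ) : Fintype.card (Ix n K) = (K + 1) ^ n := by
  simp

/-- `l = k + e_i` -/
def BoxR {n K : ℕ} (i : Fin n) (k l : Ix n K) : Prop :=
  (∀ j, j ≠ i → k j = l j) ∧ (l i : ℕ) = k i + 1

theorem box_low_apply {n K : ℕ} (i : Fin n) (k l : Ix n K) [Decidable (BoxR i k l)] :
    low n K i k l = if BoxR i k l then ((√((l i : ℕ) : ℝ) : ℝ) : ℂ) else 0 := by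
  unfold low
  rw [Matrix.of_apply]
  by_cases h : BoxR i k l
  · rw [if_pos h, if_pos (show (∀ j, j ≠ i → k j = l j) ∧ (l i : ℕ) = k i + 1 from h)]
  · rw [if_neg h, if_neg (show ¬ ((∀ j, j ≠ i → k j = l j) ∧ (l i : ℕ) = k i + 1) from h)]

theorem box_low_pos {n K : ℕ} {i : Fin n} {k l : Ix n K} (h : BoxR i k l) :
    low n K i k l = ((√((l i : ℕ) : ℝ) : ℝ) : ℂ) := by
  classical
  rw [box_low_apply, if_pos h]

theorem box_low_neg {n K : ℕ} {i : Fin n} {k l : Ix n K} (h : ¬ BoxR i k l) :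
    low n K i k l = 0 := by
  classical
  rw [box_low_apply, if_neg h]

theorem BoxR.left_unique {n K : ℕ} {i : Fin n} {k k' l : Ix n K} (h : BoxR i k l)
    (h' : BoxR i k' l) : k = k' := by
  funext j
  by_cases hj : j = i
  · subst hj
    have h1 := h.2
    have h2 := h'.2
    exact Fin.ext (by omega)
  · rw [h.1 j hj, h'.1 j hj]

theorem BoxR.right_unique {n K : ℕ} {i : Fin n} {k l l' : Ix n K} (h : BoxR i k l)
    (h' : BoxR i k l') : l = l' := by
  funext j
  by_cases hj : j = i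
  · subst hj
    have h1 := h.2
    have h2 := h'.2
    exact Fin.ext (by omega)
  · rw [← h.1 j hj, ← h'.1 j hj]

theorem box_exists_left {n K : ℕ} (i : Fin n) (l : Ix n K) (h : (l i : ℕ) ≠ 0) :
    ∃ k, BoxR i k l := by
  refine ⟨Function.update l i ⟨(l i : ℕ) - 1, by have := (l i).2; omega⟩, fun j hj => ?_, ?_⟩
  · rw [Function.update_of_ne hj]
  · rw [Function.update_self]
    show (l i : ℕ) = (l i : ℕ) - 1 + 1
    omega

theorem box_exists_right {n K : ℕ} (i : Fin n) (k : Ix n K) (h : (k i : ℕ) < K) :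
    ∃ l, BoxR i k l := by
  refine ⟨Function.update k i ⟨(k i : ℕ) + 1, by omega⟩, fun j hj => ?_, ?_⟩
  · rw [Function.update_of_ne hj]
  · rw [Function.update_self]

theorem box_sq (m : ℕ) : ((√(m : ℝ) : ℝ) : ℂ) * ((√(m : ℝ) : ℝ) : ℂ) = (m : ℂ) := by
  rw [← Complex.ofReal_mul, Real.mul_self_sqrt (Nat.cast_nonneg _), Complex.ofReal_natCast]

theorem box_low_dg_low (n K : ℕ) (i : Fin n) (f : ℕ → ℝ) :
    (low n K i)ᴴ * (dg n K i f * low n K i) = dg n K i fun m => m * f (m - 1) := by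
  ext l l'
  rw [Matrix.mul_apply]
  simp only [dg, diagonal_mul, conjTranspose_apply]
  by_cases hl : l = l'
  · subst hl
    rw [diagonal_apply_eq]
    by_cases h0 : (l i : ℕ) = 0
    · rw [Finset.sum_eq_zero]
      · simp [h0]
      · intro k _
        rw [box_low_neg (fun h => by have := h.2; omega)]
        simp
    · obtain ⟨k, hk⟩ := box_exists_left i l h0
      rw [Finset.sum_eq_single k]
      · rw [box_low_pos hk, Complex.star_def, Complex.conj_ofReal, mul_left_comm, box_sq]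
        have : (l i : ℕ) - 1 = k i := by have := hk.2; omega
        rw [this]
        push_cast
        ring
      · intro k' _ hk'
        rw [box_low_neg (fun h => hk' (h.left_unique hk))]
        simp
      · simp
  · rw [diagonal_apply_ne _ hl]
    refine Finset.sum_eq_zero fun k _ => ?_
    by_cases h : BoxR i k l
    · rw [box_low_neg (k := k) (l := l') (fun h' => hl (h.right_unique h'))]
      simp
    · rw [box_low_neg h]
      simp

theorem box_low_lowH (n K : ℕ) (i : Fin n) :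
    low n K i * (low n K i)ᴴ = dg n K i fun m => if m < K then m + 1 else 0 := by
  ext k k'
  rw [Matrix.mul_apply]
  simp only [dg, conjTranspose_apply]
  by_cases hk : k = k'
  · subst hk
    rw [diagonal_apply_eq]
    by_cases h0 : (k i : ℕ) < K
    · obtain ⟨l, hl⟩ := box_exists_right i k h0
      rw [Finset.sum_eq_single l]
      · rw [box_low_pos hl, Complex.star_def, Complex.conj_ofReal, box_sq, if_pos h0, hl.2]
        push_cast
        ring
      · intro l' _ hl'
        rw [box_low_neg (fun h => hl' (h.right_unique hl))]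
        simp
      · simp
    · rw [Finset.sum_eq_zero]
      · simp [h0]
      · intro l _
        rw [box_low_neg (fun h => by have := h.2; have := (l i).2; omega)]
        simp
  · rw [diagonal_apply_ne _ hk]
    refine Finset.sum_eq_zero fun l _ => ?_
    by_cases h : BoxR i k l
    · rw [box_low_neg (k := k') (l := l) (fun h' => hk (h.left_unique h'))]
      simp
    · rw [box_low_neg h]
      simp

theorem box_dg_mul (n K : ℕ) (i : Fin n) (f g : ℕ → ℝ) :
    dg n K i f * dg n K i g = dg n K i fun m => f m * g m := by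
  simp only [dg, diagonal_mul_diagonal]
  congr 1
  funext k
  push_cast
  rfl

theorem box_dg_herm (n K : ℕ) (i : Fin n) (f : ℕ → ℝ) : (dg n K i f)ᴴ = dg n K i f := by
  simp only [dg, diagonal_conjTranspose]
  congr 1
  funext k
  simp

theorem box_tr_diag {ι : Type} [Fintype ι] [DecidableEq ι] (d : ι → ℝ) (ρ : Mat ι) :
    (ρ * diagonal fun k => (d k : ℂ)).trace.re = ∑ k, d k * (ρ k k).re := by
  rw [Matrix.trace, Complex.re_sum]
  refine Finset.sum_congr rfl fun k _ => ?_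
  rw [diag_apply, mul_diagonal, mul_comm, Complex.re_ofReal_mul]

theorem box_tr_dg {n K : ℕ} (i : Fin n) (f : ℕ → ℝ) (ρ : Mat (Ix n K)) :
    (ρ * dg n K i f).trace.re = ∑ k, f (k i) * (ρ k k).re :=
  box_tr_diag (fun k : Ix n K => f (k i)) ρ

theorem box_diag_nonneg {ι : Type} [Fintype ι] {ρ : Mat ι} (h : IsDensity ρ) (k : ι) :
    0 ≤ (ρ k k).re := (Complex.nonneg_iff.1 (h.1.diag_nonneg (i := k))).1

theorem box_diag_sum {ι : Type} [Fintype ι] {ρ : Mat ι} (h : IsDensity ρ) :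
    ∑ k, (ρ k k).re = 1 := by
  have := congrArg Complex.re h.2
  rwa [Matrix.trace, Complex.re_sum, Complex.one_re] at this

theorem box_avg_le {ι : Type} [Fintype ι] {ρ : Mat ι} (h : IsDensity ρ) (d : ι → ℝ) {c : ℝ}
    (hd : ∀ k, ρ k k ≠ 0 → d k ≤ c) : ∑ k, d k * (ρ k k).re ≤ c := by
  calc ∑ k, d k * (ρ k k).re ≤ ∑ k, c * (ρ k k).re := by
        refine Finset.sum_le_sum fun k _ => ?_
        by_cases h0 : ρ k k = 0
        · simp [h0]
        · exact mul_le_mul_of_nonneg_right (hd k h0) (box_diag_nonneg h k)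
    _ = c := by rw [← Finset.mul_sum, box_diag_sum h, mul_one]

theorem box_WW (n K : ℕ) (ε cw γ : ℝ) :
    WW n K ε cw γ = diagonal fun k : Ix n K => ((∑ i, W1 ε cw γ (k i) : ℝ) : ℂ) := by
  ext k l
  rw [WW, Matrix.sum_apply]
  by_cases h : k = l
  · subst h
    simp only [dg, diagonal_apply_eq]
    push_cast
    rfl
  · simp only [dg, diagonal_apply_ne _ h]
    simp

theorem box_tr_WW {n K : ℕ} (ε cw γ : ℝ) (ρ : Mat (Ix n K)) :
    (ρ * WW n K ε cw γ).trace.re = ∑ k, (∑ i, W1 ε cw γ (k i)) * (ρ k k).re := by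
  rw [box_WW]
  exact box_tr_diag (fun k : Ix n K => ∑ i, W1 ε cw γ (k i)) ρ

theorem box_w0_nonneg {γ : ℝ} (hγ : 0 < γ) (k : ℕ) : 0 ≤ w0 γ k := by
  unfold w0
  positivity

theorem box_W1_mono {ε cw γ : ℝ} (hε : 0 ≤ ε) (hcw : 0 ≤ cw) (hγ : 0 < γ) {a b : ℕ} (h : a ≤ b) :
    W1 ε cw γ a ≤ W1 ε cw γ b := by
  unfold W1
  refine add_le_add (mul_le_mul_of_nonneg_left (by exact_mod_cast h) hε)
    (mul_le_mul_of_nonneg_left ?_ hcw)
  exact Finset.sum_le_sum_of_subset_of_nonneg (Finset.range_mono h)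
    fun j _ _ => box_w0_nonneg hγ j

theorem box_W1_nonneg {ε cw γ : ℝ} (hε : 0 ≤ ε) (hcw : 0 ≤ cw) (hγ : 0 < γ) (a : ℕ) :
    0 ≤ W1 ε cw γ a := by
  have := box_W1_mono hε hcw hγ (Nat.zero_le a)
  simpa [W1] using this

theorem fr_low (n K : ℕ) (i : Fin n) : fr (low n K i) ≤ (K + 1 : ℝ) ^ (n + 1) := by
  have h := fr_le_of_entry (low n K i) (K + 1 : ℝ) (by positivity) fun k l => by
    by_cases hr : BoxR i k l
    · rw [box_low_pos hr, Complex.norm_real, Real.norm_of_nonneg (Real.sqrt_nonneg _)]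
      have h1 : ((l i : ℕ) : ℝ) ≤ K := by
        have := (l i).2
        exact_mod_cast (by omega : (l i : ℕ) ≤ K)
      have h2 : (0 : ℝ) ≤ K := Nat.cast_nonneg _
      exact Real.sqrt_le_iff.2 ⟨by positivity, by nlinarith⟩
    · rw [box_low_neg hr, norm_zero]
      positivity
  rw [Real.mul_self_sqrt (Nat.cast_nonneg _), card_Ix] at h
  rw [pow_succ]
  exact_mod_cast h

theorem top_herm (n K : ℕ) (i : Fin n) : (top n K i)ᴴ = top n K i := box_dg_herm _ _ _ _

theorem top_top (n K : ℕ) (i : Fin n) : top n K i * top n K i = top n K i := by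
  unfold top
  rw [box_dg_mul]
  congr 1
  funext m
  split_ifs <;> simp

theorem low_top (n K : ℕ) (i : Fin n) : (low n K i)ᴴ * top n K i = 0 := by
  ext l k
  simp only [top, dg, mul_diagonal, conjTranspose_apply, Matrix.zero_apply]
  by_cases h : (k i : ℕ) = K
  · rw [box_low_neg (fun h' => by have := h'.2; have := (l i).2; omega)]
    simp
  · simp [h]

theorem low_num (n K : ℕ) (i : Fin n) : (low n K i)ᴴ * low n K i = dg n K i fun k => k := by
  have h := box_low_dg_low n K i fun _ => 1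
  have e : dg n K i (fun _ => 1) = 1 := by simp [dg]
  rw [e, Matrix.one_mul] at h
  simpa using h

theorem WW_herm (n K : ℕ) (ε cw γ : ℝ) : (WW n K ε cw γ)ᴴ = WW n K ε cw γ := by
  rw [WW, conjTranspose_sum]
  exact Finset.sum_congr rfl fun i _ => box_dg_herm _ _ _ _

theorem low_W (n K : ℕ) (ε cw γ : ℝ) (i : Fin n) :
    low n K i * WW n K ε cw γ - WW n K ε cw γ * low n K i =
      (ε : ℂ) • low n K i + (cw : ℂ) • (dg n K i (w0 γ) * low n K i) := by
  ext k l
  rw [box_WW]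
  simp only [Matrix.sub_apply, Matrix.add_apply, Matrix.smul_apply, mul_diagonal, diagonal_mul, dg,
    smul_eq_mul]
  by_cases h : BoxR i k l
  · have e : (∑ j, W1 ε cw γ (l j)) = (∑ j, W1 ε cw γ (k j)) + (ε + cw * w0 γ (k i)) := by
      rw [← Finset.add_sum_erase _ _ (Finset.mem_univ i),
        ← Finset.add_sum_erase _ _ (Finset.mem_univ i)]
      have e1 : ∑ j ∈ Finset.univ.erase i, W1 ε cw γ (l j) =
          ∑ j ∈ Finset.univ.erase i, W1 ε cw γ (k j) :=
        Finset.sum_congr rfl fun j hj => by rw [h.1 j (Finset.ne_of_mem_erase hj)]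
      rw [e1, h.2]
      simp only [W1, Finset.sum_range_succ]
      push_cast
      ring
    rw [e]
    push_cast
    ring
  · rw [box_low_neg h]
    simp

/-- `a* f a = γ^(k-1) 1_{k ≥ 1}`, `f a a* = γ^k 1_{k < K}` -/
theorem drift {n K : ℕ} (i : Fin n) {ρ : Mat (Ix n K)} (h : IsDensity ρ) {N γ : ℝ} (hN : 0 < N)
    (hγ : 0 < γ) (hγ' : γ ≤ (N + 1) / N) :
    -((dg n K i (w0 γ) * low n K i * MM N ρ (low n K i)).trace).re ≤ N := by
  have e1 : (dg n K i (w0 γ) * low n K i * (ρ * (low n K i)ᴴ)).trace =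
      (ρ * dg n K i fun m => m * w0 γ (m - 1)).trace := by
    rw [← box_low_dg_low, trace_mul_comm, Matrix.mul_assoc]
  have e2 : (dg n K i (w0 γ) * low n K i * ((low n K i)ᴴ * ρ)).trace =
      (ρ * dg n K i fun m => w0 γ m * if m < K then (m : ℝ) + 1 else 0).trace := by
    rw [← box_dg_mul, ← box_low_lowH, trace_mul_comm ρ]
    simp only [Matrix.mul_assoc]
  rw [MM, Matrix.mul_sub, Matrix.mul_smul, Matrix.mul_smul, trace_sub, trace_smul, trace_smul, e1,
    e2, smul_eq_mul, smul_eq_mul, Complex.sub_re, Complex.re_ofReal_mul, Complex.re_ofReal_mul,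
    box_tr_dg, box_tr_dg, neg_sub, Finset.mul_sum, Finset.mul_sum, ← Finset.sum_sub_distrib]
  have key : ∀ m : ℕ, N * (w0 γ m * if m < K then (m : ℝ) + 1 else 0) -
      (N + 1) * (m * w0 γ (m - 1)) ≤ N := by
    intro m
    have h1 : (w0 γ m * if m < K then (m : ℝ) + 1 else 0) ≤ γ ^ m := by
      split_ifs
      · rw [w0, div_mul_cancel₀ _ (by positivity)]
      · rw [mul_zero]
        positivity
    have h2 := mul_le_mul_of_nonneg_left h1 hN.le
    rcases m with _ | m
    · simp only [pow_zero, Nat.cast_zero, zero_mul, mul_zero, sub_zero, mul_one] at h2 ⊢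
      exact h2
    · have h3 : ((m + 1 : ℕ) : ℝ) * w0 γ (m + 1 - 1) = γ ^ m := by
        rw [Nat.add_sub_cancel, w0]
        push_cast
        field_simp
      rw [h3]
      have h4 : γ * N ≤ N + 1 := (le_div_iff₀ hN).1 hγ'
      have h5 : 0 < γ ^ m := pow_pos hγ m
      rw [pow_succ] at h2
      nlinarith
  refine le_trans (le_of_eq ?_) (box_avg_le h (fun k => N * (w0 γ (k i) *
    if (k i : ℕ) < K then ((k i : ℕ) : ℝ) + 1 else 0) -
      (N + 1) * ((k i : ℕ) * w0 γ (k i - 1))) fun k _ => key _)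
  exact Finset.sum_congr rfl fun k _ => by ring

theorem En_eq {n K : ℕ} (ρ : Mat (Ix n K)) :
    ∑ i, (ρ * ((low n K i)ᴴ * low n K i)).trace.re = En ρ := by
  simp only [low_num, box_tr_dg]
  rw [Finset.sum_comm, En]
  refine Finset.sum_congr rfl fun k _ => ?_
  rw [← Finset.sum_mul]
  push_cast
  rfl

theorem En_nonneg {n K : ℕ} {ρ : Mat (Ix n K)} (h : IsDensity ρ) : 0 ≤ En ρ :=
  Finset.sum_nonneg fun k _ => mul_nonneg (Nat.cast_nonneg _) (box_diag_nonneg h k)

theorem En_mixd {n K : ℕ} (ρ : Mat (Ix n K)) {δ : ℝ} (h0 : 0 ≤ δ) :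
    (1 - δ) * En ρ ≤ En (mixd δ ρ) := by
  rw [En, En, Finset.mul_sum]
  refine Finset.sum_le_sum fun k _ => ?_
  have e : (mixd δ ρ k k).re = (1 - δ) * (ρ k k).re + δ / Fintype.card (Ix n K) := by
    rw [mixd, Matrix.add_apply, Matrix.smul_apply, Matrix.smul_apply, Matrix.one_apply_eq,
      smul_eq_mul, smul_eq_mul, mul_one, Complex.add_re, Complex.re_ofReal_mul, Complex.ofReal_re]
  rw [e]
  have h1 : (0 : ℝ) ≤ ((∑ j, (k j : ℕ) : ℕ) : ℝ) * (δ / Fintype.card (Ix n K)) := by positivity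
  nlinarith

theorem En_le {n K K0 : ℕ} {ρ : Mat (Ix n K)} (h : IsDensity ρ) (hs : Supp K0 ρ) :
    En ρ ≤ n * K0 := by
  refine box_avg_le h _ fun k hk => ?_
  have : ∑ j, (k j : ℕ) ≤ n * K0 := by
    calc ∑ j, (k j : ℕ) ≤ ∑ _j : Fin n, K0 := Finset.sum_le_sum fun j _ => (hs k k hk).1 j
      _ = n * K0 := by simp
  exact_mod_cast this

theorem WW_ge {n K : ℕ} {ρ : Mat (Ix n K)} (h : IsDensity ρ) {ε cw γ : ℝ} (hcw : 0 ≤ cw)
    (hγ : 0 < γ) : ε * En ρ ≤ (ρ * WW n K ε cw γ).trace.re := by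
  rw [box_tr_WW, En, Finset.mul_sum]
  refine Finset.sum_le_sum fun k _ => ?_
  rw [← mul_assoc]
  refine mul_le_mul_of_nonneg_right ?_ (box_diag_nonneg h k)
  push_cast
  rw [Finset.mul_sum]
  refine Finset.sum_le_sum fun j _ => ?_
  exact le_add_of_nonneg_right
    (mul_nonneg hcw (Finset.sum_nonneg fun j _ => box_w0_nonneg hγ j))

theorem WW_ge_top {n K : ℕ} (hK : 1 ≤ K) {ρ : Mat (Ix n K)} (h : IsDensity ρ) {ε cw γ : ℝ}
    (hε : 0 ≤ ε) (hcw : 0 ≤ cw) (hγ : 0 < γ) (i : Fin n) :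
    cw * w0 γ (K - 1) * (top n K i * ρ).trace.re ≤ (ρ * WW n K ε cw γ).trace.re := by
  rw [box_tr_WW, trace_mul_comm, top, box_tr_dg, Finset.mul_sum]
  refine Finset.sum_le_sum fun k _ => ?_
  rw [← mul_assoc]
  refine mul_le_mul_of_nonneg_right ?_ (box_diag_nonneg h k)
  refine le_trans ?_ (Finset.single_le_sum (f := fun j => W1 ε cw γ (k j))
    (fun j _ => box_W1_nonneg hε hcw hγ _) (Finset.mem_univ i))
  split_ifs with hk
  · rw [mul_one, hk, W1]
    refine le_add_of_nonneg_of_le (by positivity) (mul_le_mul_of_nonneg_left ?_ hcw)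
    exact Finset.single_le_sum (f := fun j => w0 γ j) (fun j _ => box_w0_nonneg hγ j)
      (Finset.mem_range.2 (by omega))
  · rw [mul_zero]
    exact box_W1_nonneg hε hcw hγ _

theorem WW_le {n K K0 : ℕ} {ρ : Mat (Ix n K)} (h : IsDensity ρ) (hs : Supp K0 ρ) {ε cw γ : ℝ}
    (hε : 0 ≤ ε) (hcw : 0 ≤ cw) (hγ : 0 < γ) :
    (ρ * WW n K ε cw γ).trace.re ≤ n * W1 ε cw γ K0 := by
  rw [box_tr_WW]
  refine box_avg_le h _ fun k hk => ?_
  calc ∑ j, W1 ε cw γ (k j) ≤ ∑ _j : Fin n, W1 ε cw γ K0 :=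
        Finset.sum_le_sum fun j _ => box_W1_mono hε hcw hγ ((hs k k hk).1 j)
    _ = n * W1 ε cw γ K0 := by simp

theorem exists_vac (n K : ℕ) : ∃ ρ : Mat (Ix n K), IsDensity ρ ∧ Supp 0 ρ := by
  refine ⟨diagonal fun k => if k = 0 then 1 else 0, ⟨?_, ?_⟩, ?_⟩
  · refine PosSemidef.diagonal fun k => ?_
    show (0 : ℂ) ≤ if k = 0 then 1 else 0
    split_ifs <;> simp
  · simp
  · intro k l hkl
    by_cases h : k = l
    · subst h
      rw [diagonal_apply_eq] at hkl
      have : k = 0 := by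
        by_contra h
        exact hkl (if_neg h)
      subst this
      simp
    · exact absurd (diagonal_apply_ne _ h) hkl

end Crest.Agent.R331.EP
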