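import Crest.Agent.R331.Fr
import Crest.Agent.R331.Box
import Crest.Agent.R331.BSm

set_option autoImplicit false

open Matrix Kronecker Crest.Quantum Crest.MathPhysics.Bosonic
open scoped ComplexOrder

namespace Crest.Agent.R331.EP

theorem fr_G_le {n K : ℕ} (G : Matrix (Ix n (2 * K) × Ix n (2 * K)) (Ix n K × Ix n K) ℂ)
    (h : ∀ x y, ‖G x y‖ ≤ √((K : ℝ) + 1)) : fr G ≤ 3 * (2 * K + 1 : ℝ) ^ (3 * n + 1) := by
  have h1 := fr_le_of_entry G _ (Real.sqrt_nonneg _) h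
  simp only [Fintype.card_prod, card_Ix, Nat.cast_mul, Nat.cast_pow, Nat.cast_add, Nat.cast_one,
    Nat.cast_ofNat] at h1
  rw [Real.sqrt_mul_self (by positivity), Real.sqrt_mul_self (by positivity)] at h1
  have hK : (0 : ℝ) ≤ K := Nat.cast_nonneg K
  have h2 : √((K : ℝ) + 1) ≤ 2 * K + 1 := by
    rw [Real.sqrt_le_left (by positivity)]; nlinarith
  have h3 : ((K : ℝ) + 1) ^ n ≤ (2 * K + 1) ^ n := pow_le_pow_left₀ (by positivity) (by linarith) n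
  have h4 : (1 : ℝ) ≤ (2 * K + 1) ^ n := one_le_pow₀ (by linarith)
  calc fr G ≤ (2 * K + 1 : ℝ) ^ n * (2 * K + 1) ^ n * (2 * K + 1) := by
        refine h1.trans ?_
        gcongr
    _ ≤ (2 * K + 1 : ℝ) ^ n * ((2 * K + 1 : ℝ) ^ n * (2 * K + 1) ^ n * (2 * K + 1)) :=
        le_mul_of_one_le_left (by positivity) h4
    _ = (2 * K + 1 : ℝ) ^ (3 * n + 1) := by ring
    _ ≤ _ := by
        have : (0 : ℝ) ≤ (2 * K + 1 : ℝ) ^ (3 * n + 1) := by positivity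
        linarith

theorem bsOutput_eq {n K : ℕ} (η : ℝ) (ρA ρB : Mat (Ix n K)) :
    bsOutput η ρA ρB = out (VV n K η) ρA ρB := by
  exact (BSm.out_VV K η ρA ρB).symm

theorem VV_iso (n K : ℕ) {η : ℝ} (hη : η ∈ Set.Icc (0 : ℝ) 1) : (VV n K η)ᴴ * VV n K η = 1 := by
  exact BSm.VV_iso K hη

/-- `c = √η a + √(1-η) b` -/
theorem VV_c (n K : ℕ) {η : ℝ} (hη : η ∈ Set.Icc (0 : ℝ) 1) (i : Fin n) :
    (low n (2 * K) i ⊗ₖ (1 : Mat (Ix n (2 * K)))) * VV n K η =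
      VV n K η * (((√η : ℝ) : ℂ) • (low n K i ⊗ₖ (1 : Mat (Ix n K))) +
        ((√(1 - η) : ℝ) : ℂ) • ((1 : Mat (Ix n K)) ⊗ₖ low n K i)) := by
  have _ := hη
  rw [BSm.c_mul_VV, Matrix.mul_add, Matrix.mul_smul, Matrix.mul_smul]

/-- `a = √η c - √(1-η) d`; take `d := -√(1-η) • low n (2K) i`, `G := ã* V - V (a* ⊗ 1)` -/
theorem VV_itwA (n K : ℕ) {η : ℝ} (hη : η ∈ Set.Icc (0 : ℝ) 1) (i : Fin n) :
    ∃ G, Itw (VV n K η) (low n (2 * K) i) (low n K i) (top n K i) (√η) G ∧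
      fr G ≤ 3 * (2 * K + 1 : ℝ) ^ (3 * n + 1) := by
  exact ⟨_, BSm.itw_A K hη i, fr_G_le _ (BSm.norm_GA_le K hη i)⟩

/-- `b = √(1-η) c + √η d` -/
theorem VV_itwB (n K : ℕ) {η : ℝ} (hη : η ∈ Set.Icc (0 : ℝ) 1) (i : Fin n) :
    ∃ G, Itw (swp (VV n K η)) (low n (2 * K) i) (low n K i) (top n K i) (√(1 - η)) G ∧
      fr G ≤ 3 * (2 * K + 1 : ℝ) ^ (3 * n + 1) := by
  exact ⟨_, BSm.itw_B K hη i, fr_G_le _ (BSm.norm_GB_le K hη i)⟩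

end Crest.Agent.R331.EP
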