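import Mathlib

/-!
# Row 331: the scalar functions of the bootstrap

`shc s = sinh s / s`, `piF s = (s / sinh s)^2`, `gam s = s coth s`; `aF` is `gam - 1` as a function
of `p = piF s`, and `dF = - aF'`.
-/

set_option autoImplicit false

namespace Crest.Agent.R331.Bt

open Real Set MeasureTheory

/-- `sinh s / s`, extended by `1`. -/
noncomputable def shc (s : ℝ) : ℝ := if s = 0 then 1 else Real.sinh s / s

/-- `(s / sinh s)^2`. -/
noncomputable def piF (s : ℝ) : ℝ := (shc s ^ 2)⁻¹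

/-- `s coth s`. -/
noncomputable def gam (s : ℝ) : ℝ := Real.cosh s / shc s

theorem shc_zero : shc 0 = 1 := by simp [shc]

theorem shc_of_ne {s : ℝ} (h : s ≠ 0) : shc s = Real.sinh s / s := by simp [shc, h]

theorem mul_shc (s : ℝ) : s * shc s = Real.sinh s := by
  by_cases h : s = 0
  · simp [h]
  · rw [shc_of_ne h]; field_simp

theorem shc_neg (s : ℝ) : shc (-s) = shc s := by
  by_cases h : s = 0
  · simp [h]
  · rw [shc_of_ne h, shc_of_ne (neg_ne_zero.2 h), Real.sinh_neg, neg_div_neg_eq]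

theorem shc_abs (s : ℝ) : shc |s| = shc s := by
  rcases abs_choice s with h | h <;> rw [h]
  exact shc_neg s

theorem one_le_shc (s : ℝ) : 1 ≤ shc s := by
  rw [← shc_abs]
  rcases (abs_nonneg s).eq_or_lt with h | h
  · rw [← h, shc_zero]
  · rw [shc_of_ne h.ne', le_div_iff₀ h, one_mul]
    exact Real.self_le_sinh_iff.2 h.le

theorem shc_pos (s : ℝ) : 0 < shc s := lt_of_lt_of_le one_pos (one_le_shc s)

theorem continuous_shc : Continuous shc := by
  have e : shc = dslope Real.sinh 0 := by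
    funext s
    by_cases h : s = 0
    · rw [h, shc_zero, dslope_same, Real.deriv_sinh, Real.cosh_zero]
    · rw [shc_of_ne h, dslope_of_ne _ h, slope_def_field]; simp
  rw [e, continuous_iff_continuousAt]
  intro s
  by_cases h : s = 0
  · rw [h, continuousAt_dslope_same]; exact Real.differentiableAt_sinh
  · rw [continuousAt_dslope_of_ne h]; exact Real.continuous_sinh.continuousAt

/-- A function vanishing at `0` with nonnegative derivative on `[0,∞)` is nonnegative there. -/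
theorem nonneg_of_deriv {F F' : ℝ → ℝ} (hF : ∀ x, HasDerivAt F (F' x) x) (h0 : F 0 = 0)
    (hp : ∀ x, 0 ≤ x → 0 ≤ F' x) {u : ℝ} (hu : 0 ≤ u) : 0 ≤ F u := by
  have hm : MonotoneOn F (Ici 0) := by
    refine monotoneOn_of_deriv_nonneg (convex_Ici 0)
      (fun x _ => (hF x).continuousAt.continuousWithinAt)
      (fun x _ => (hF x).differentiableAt.differentiableWithinAt) fun x hx => ?_
    rw [(hF x).deriv]
    rw [interior_Ici] at hx
    exact hp x (le_of_lt hx)
  have := hm (mem_Ici.2 le_rfl) (mem_Ici.2 hu) hu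
  rwa [h0] at this

theorem sinh_lt_mul_cosh {s : ℝ} (hs : 0 < s) : Real.sinh s < s * Real.cosh s := by
  have hF : ∀ x, HasDerivAt (fun x => x * Real.cosh x - Real.sinh x) (x * Real.sinh x) x := by
    intro x
    have := ((hasDerivAt_id' x).mul (Real.hasDerivAt_cosh x)).sub (Real.hasDerivAt_sinh x)
    exact HasDerivAt.congr_deriv this (by ring)
  have hm : StrictMonoOn (fun x => x * Real.cosh x - Real.sinh x) (Ici 0) := by
    refine strictMonoOn_of_deriv_pos (convex_Ici 0)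
      (fun x _ => (hF x).continuousAt.continuousWithinAt) fun x hx => ?_
    rw [(hF x).deriv]
    rw [interior_Ici] at hx
    exact mul_pos hx (Real.sinh_pos_iff.2 hx)
  have := hm (mem_Ici.2 le_rfl) (mem_Ici.2 hs.le) hs
  simp only [zero_mul, Real.sinh_zero, sub_zero] at this
  linarith

theorem sinh_le_mul_cosh {s : ℝ} (hs : 0 ≤ s) : Real.sinh s ≤ s * Real.cosh s := by
  rcases hs.eq_or_lt with h | h
  · rw [← h]; simp
  · exact (sinh_lt_mul_cosh h).le

theorem wilker {u : ℝ} (hu : 0 ≤ u) : 0 ≤ u * Real.sinh u + u ^ 2 - 4 * Real.cosh u + 4 := by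
  have h2 : ∀ x, 0 ≤ x → 0 ≤ x * Real.sinh x - 2 * Real.cosh x + 2 := by
    intro x hx
    refine nonneg_of_deriv (F := fun x => x * Real.sinh x - 2 * Real.cosh x + 2)
      (F' := fun x => x * Real.cosh x - Real.sinh x) (fun y => ?_) (by simp)
      (fun y hy => sub_nonneg.2 (sinh_le_mul_cosh hy)) hx
    have := (((hasDerivAt_id' y).mul (Real.hasDerivAt_sinh y)).sub
      ((Real.hasDerivAt_cosh y).const_mul 2)).add_const 2
    exact HasDerivAt.congr_deriv this (by ring)
  have h1 : ∀ x, 0 ≤ x → 0 ≤ x * Real.cosh x - 3 * Real.sinh x + 2 * x := by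
    intro x hx
    refine nonneg_of_deriv (F := fun x => x * Real.cosh x - 3 * Real.sinh x + 2 * x)
      (F' := fun x => x * Real.sinh x - 2 * Real.cosh x + 2) (fun y => ?_) (by simp) h2 hx
    have := (((hasDerivAt_id' y).mul (Real.hasDerivAt_cosh y)).sub
      ((Real.hasDerivAt_sinh y).const_mul 3)).add ((hasDerivAt_id' y).const_mul 2)
    exact HasDerivAt.congr_deriv this (by ring)
  refine nonneg_of_deriv (F := fun x => x * Real.sinh x + x ^ 2 - 4 * Real.cosh x + 4)
    (F' := fun x => x * Real.cosh x - 3 * Real.sinh x + 2 * x) (fun y => ?_) (by simp) h1 hu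
  have := ((((hasDerivAt_id' y).mul (Real.hasDerivAt_sinh y)).add (hasDerivAt_pow 2 y)).sub
    ((Real.hasDerivAt_cosh y).const_mul 4)).add_const 4
  exact HasDerivAt.congr_deriv this (by simp; ring)

theorem piF_pos (s : ℝ) : 0 < piF s := by
  have := shc_pos s
  unfold piF; positivity

theorem piF_le_one (s : ℝ) : piF s ≤ 1 := by
  unfold piF
  exact inv_le_one_of_one_le₀ (one_le_pow₀ (one_le_shc s))

theorem piF_zero : piF 0 = 1 := by simp [piF, shc_zero]

theorem gam_zero : gam 0 = 1 := by simp [gam, shc_zero]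

theorem piF_abs (s : ℝ) : piF |s| = piF s := by simp [piF, shc_abs]

theorem gam_abs (s : ℝ) : gam |s| = gam s := by simp [gam, shc_abs]

theorem gam_sq_sub_piF (s : ℝ) : gam s ^ 2 - piF s = s ^ 2 := by
  have h := shc_pos s
  have e := mul_shc s
  have c := Real.cosh_sq s
  unfold gam piF
  field_simp
  rw [c, ← e]; ring

theorem continuous_gam : Continuous gam :=
  Real.continuous_cosh.div continuous_shc fun s => (shc_pos s).ne'

theorem continuous_piF : Continuous piF :=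
  (continuous_shc.pow 2).inv₀ fun s => (pow_pos (shc_pos s) 2).ne'

theorem one_lt_gam {s : ℝ} (hs : 0 < s) : 1 < gam s := by
  unfold gam
  rw [lt_div_iff₀ (shc_pos s), one_mul, shc_of_ne hs.ne', div_lt_iff₀ hs, mul_comm]
  exact sinh_lt_mul_cosh hs

theorem two_le_gam_add_piF (s : ℝ) : 2 ≤ gam s + piF s := by
  rw [← gam_abs, ← piF_abs]
  rcases (abs_nonneg s).eq_or_lt with h | h
  · rw [← h, gam_zero, piF_zero]; norm_num
  · set u := |s|
    have w := wilker (u := 2 * u) (by positivity)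
    rw [Real.sinh_two_mul, Real.cosh_two_mul, Real.cosh_sq] at w
    have hs := Real.sinh_pos_iff.2 h
    unfold gam piF
    rw [shc_of_ne h.ne']
    have e : Real.cosh u / (Real.sinh u / u) + ((Real.sinh u / u) ^ 2)⁻¹ - 2
        = (u * Real.sinh u * Real.cosh u + u ^ 2 - 2 * Real.sinh u ^ 2) / Real.sinh u ^ 2 := by
      field_simp
    have : 0 ≤ (u * Real.sinh u * Real.cosh u + u ^ 2 - 2 * Real.sinh u ^ 2) / Real.sinh u ^ 2 := by
      apply div_nonneg _ (by positivity)
      nlinarith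
    linarith

theorem hasDerivAt_shc {s : ℝ} (hs : s ≠ 0) : HasDerivAt shc (shc s * (gam s - 1) / s) s := by
  have h := (Real.hasDerivAt_sinh s).div (hasDerivAt_id' s) hs
  have e : shc =ᶠ[nhds s] fun x => Real.sinh x / x :=
    (eventually_ne_nhds hs).mono fun x hx => shc_of_ne hx
  refine HasDerivAt.congr_of_eventuallyEq ?_ e
  refine HasDerivAt.congr_deriv h ?_
  have := shc_pos s
  unfold gam
  rw [← mul_shc s]; field_simp

theorem hasDerivAt_piF {s : ℝ} (hs : s ≠ 0) :
    HasDerivAt piF (-(2 * piF s * (gam s - 1) / s)) s := by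
  have hp := shc_pos s
  have h := ((hasDerivAt_shc hs).pow 2).inv (pow_pos hp 2).ne'
  refine HasDerivAt.congr_deriv h ?_
  unfold piF
  simp only [Pi.pow_apply]
  field_simp
  norm_num
  ring

theorem hasDerivAt_gam {s : ℝ} (hs : s ≠ 0) : HasDerivAt gam ((gam s - piF s) / s) s := by
  have hp := shc_pos s
  have h := (Real.hasDerivAt_cosh s).div (hasDerivAt_shc hs) hp.ne'
  refine HasDerivAt.congr_deriv h ?_
  have e := gam_sq_sub_piF s
  have e2 : piF s = gam s ^ 2 - s ^ 2 := by linarith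
  have e3 : Real.cosh s = gam s * shc s := by unfold gam; field_simp
  rw [e2, e3, ← mul_shc s]
  field_simp
  ring

theorem piF_strictAntiOn : StrictAntiOn piF (Ici 0) := by
  refine strictAntiOn_of_deriv_neg (convex_Ici 0) continuous_piF.continuousOn fun x hx => ?_
  rw [interior_Ici] at hx
  have hx' : 0 < x := hx
  rw [(hasDerivAt_piF hx'.ne').deriv]
  have := piF_pos x
  have := sub_pos.2 (one_lt_gam hx')
  have : 0 < 2 * piF x * (gam x - 1) / x := by positivity
  linarith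

theorem exists_piF {p : ℝ} (h0 : 0 < p) (h1 : p ≤ 1) : ∃ s ∈ Ici (0 : ℝ), piF s = p := by
  set u : ℝ := 1 / p with hu
  have hup : 0 < u := by positivity
  have hb : piF (2 * u) ≤ p := by
    have h2 : u ≤ shc (2 * u) := by
      rw [shc_of_ne (by positivity), le_div_iff₀ (by positivity), Real.sinh_two_mul]
      have a1 : u ≤ Real.sinh u := Real.self_le_sinh_iff.2 hup.le
      have a2 : Real.sinh u ≤ Real.cosh u := (Real.sinh_lt_cosh u).le
      nlinarith
    have h3 : u ≤ shc (2 * u) ^ 2 := by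
      have := one_le_shc (2 * u)
      nlinarith
    unfold piF
    calc (shc (2 * u) ^ 2)⁻¹ ≤ u⁻¹ := inv_anti₀ hup h3
      _ = p := by rw [hu]; simp
  have := intermediate_value_Icc' (a := 0) (b := 2 * u) (by positivity) continuous_piF.continuousOn
  obtain ⟨s, hs, e⟩ := this (show p ∈ Icc (piF (2 * u)) (piF 0) from ⟨hb, by rw [piF_zero]; exact h1⟩)
  exact ⟨s, hs.1, e⟩

/-- The inverse of `piF` on `[0,∞)`. -/
noncomputable def sOf (p : ℝ) : ℝ := Function.invFunOn piF (Ici 0) p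

theorem piF_sOf {p : ℝ} (h0 : 0 < p) (h1 : p ≤ 1) : piF (sOf p) = p :=
  Function.invFunOn_eq (exists_piF h0 h1)

theorem sOf_nonneg {p : ℝ} (h0 : 0 < p) (h1 : p ≤ 1) : 0 ≤ sOf p :=
  Function.invFunOn_mem (exists_piF h0 h1)

theorem sOf_piF (s : ℝ) : sOf (piF s) = |s| := by
  rw [← piF_abs]
  exact piF_strictAntiOn.injOn.leftInvOn_invFunOn (mem_Ici.2 (abs_nonneg s))

theorem sOf_one : sOf 1 = 0 := by
  rw [← piF_zero, sOf_piF, abs_zero]

theorem sOf_pos {p : ℝ} (h0 : 0 < p) (h1 : p < 1) : 0 < sOf p := by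
  refine lt_of_le_of_ne (sOf_nonneg h0 h1.le) fun h => ?_
  have := piF_sOf h0 h1.le
  rw [← h, piF_zero] at this
  linarith

theorem piF_lt_one {s : ℝ} (hs : s ≠ 0) : piF s < 1 := by
  rw [← piF_abs, ← piF_zero]
  exact piF_strictAntiOn (mem_Ici.2 le_rfl) (mem_Ici.2 (abs_nonneg s)) (abs_pos.2 hs)

theorem neg_sOf_monotoneOn : MonotoneOn (fun p => -sOf p) (Ioc 0 1) := by
  intro p hp q hq hpq
  simp only [neg_le_neg_iff]
  by_contra h
  rw [not_le] at h
  have := piF_strictAntiOn (mem_Ici.2 (sOf_nonneg hp.1 hp.2)) (mem_Ici.2 (sOf_nonneg hq.1 hq.2)) h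
  rw [piF_sOf hp.1 hp.2, piF_sOf hq.1 hq.2] at this
  linarith

theorem image_neg_sOf : Iic (0 : ℝ) ⊆ (fun p => -sOf p) '' Ioc 0 1 := by
  intro x hx
  refine ⟨piF x, ⟨piF_pos x, piF_le_one x⟩, ?_⟩
  simp only [sOf_piF]
  rw [abs_of_nonpos hx, neg_neg]

theorem continuousAt_sOf {p : ℝ} (h0 : 0 < p) (h1 : p < 1) : ContinuousAt sOf p := by
  have : ContinuousAt (fun p => -sOf p) p := by
    refine continuousAt_of_monotoneOn_of_image_mem_nhds neg_sOf_monotoneOn
      (Ioc_mem_nhds h0 h1) (Filter.mem_of_superset (Iic_mem_nhds ?_) image_neg_sOf)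
    have := sOf_pos h0 h1
    simpa using this
  have h2 : ContinuousAt (fun p => -(-sOf p)) p := this.neg
  simpa only [neg_neg] using h2

theorem continuousOn_sOf : ContinuousOn sOf (Ioc 0 1) := by
  intro p hp
  rcases hp.2.eq_or_lt with h | h
  · have : ContinuousWithinAt (fun p => -sOf p) (Iic p) p := by
      refine continuousWithinAt_left_of_monotoneOn_of_image_mem_nhdsWithin neg_sOf_monotoneOn
        ?_ (Filter.mem_of_superset ?_ image_neg_sOf)
      · rw [h]; exact Ioc_mem_nhdsLE one_pos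
      · rw [h]; simp only [sOf_one, neg_zero]; exact self_mem_nhdsWithin
    have h3 : ContinuousWithinAt (fun p => -(-sOf p)) (Iic p) p := this.neg
    have h2 : ContinuousWithinAt sOf (Iic p) p := by simpa only [neg_neg] using h3
    exact h2.mono fun x hx => by rw [h]; exact hx.2
  · exact (continuousAt_sOf hp.1 h).continuousWithinAt

/-- `aF (piF s) = s coth s - 1`. -/
noncomputable def aF (p : ℝ) : ℝ := gam (sOf p) - 1

/-- `q1 p = (1 - p) / aF p`, extended by `1`. -/
noncomputable def q1 (p : ℝ) : ℝ := if p = 1 then 1 else (1 - p) / aF p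

/-- `dF = - aF'`. -/
noncomputable def dF (p : ℝ) : ℝ := (1 + q1 p) / (2 * p)

theorem aF_piF (s : ℝ) : aF (piF s) = gam s - 1 := by
  unfold aF; rw [sOf_piF, gam_abs]

theorem aF_one : aF 1 = 0 := by unfold aF; rw [sOf_one, gam_zero, sub_self]

theorem aF_pos {p : ℝ} (h0 : 0 < p) (h1 : p < 1) : 0 < aF p :=
  sub_pos.2 (one_lt_gam (sOf_pos h0 h1))

theorem q1_one : q1 1 = 1 := by simp [q1]

theorem q1_of_lt {p : ℝ} (h1 : p < 1) : q1 p = (1 - p) / aF p := by simp [q1, h1.ne]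

theorem q1_pos {p : ℝ} (h0 : 0 < p) (h1 : p ≤ 1) : 0 < q1 p := by
  rcases h1.eq_or_lt with h | h
  · rw [h, q1_one]; exact one_pos
  · rw [q1_of_lt h]; exact div_pos (sub_pos.2 h) (aF_pos h0 h)

theorem q1_le_one {p : ℝ} (h0 : 0 < p) (h1 : p ≤ 1) : q1 p ≤ 1 := by
  rcases h1.eq_or_lt with h | h
  · rw [h, q1_one]
  · rw [q1_of_lt h, div_le_one (aF_pos h0 h)]
    have := two_le_gam_add_piF (sOf p)
    rw [piF_sOf h0 h1] at this
    unfold aF; linarith

theorem dF_pos {p : ℝ} (h0 : 0 < p) (h1 : p ≤ 1) : 0 < dF p := by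
  have := q1_pos h0 h1
  unfold dF; positivity

theorem continuousOn_aF : ContinuousOn aF (Ioc 0 1) :=
  (continuous_gam.comp_continuousOn continuousOn_sOf).sub continuousOn_const

theorem hasDerivAt_aF {p : ℝ} (h0 : 0 < p) (h1 : p < 1) : HasDerivAt aF (-dF p) p := by
  have hs := sOf_pos h0 h1
  have ha := aF_pos h0 h1
  have hpi := piF_sOf h0 h1.le
  have hg : gam (sOf p) - 1 = aF p := rfl
  have hne : -(2 * piF (sOf p) * (gam (sOf p) - 1) / sOf p) ≠ 0 := by
    rw [hpi, hg]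
    have : 0 < 2 * p * aF p / sOf p := by positivity
    linarith
  have hinv : HasDerivAt sOf (-(2 * piF (sOf p) * (gam (sOf p) - 1) / sOf p))⁻¹ p := by
    refine HasDerivAt.of_local_left_inverse (continuousAt_sOf h0 h1) (hasDerivAt_piF hs.ne') hne ?_
    exact Filter.mem_of_superset (Ioo_mem_nhds h0 h1) fun x hx => piF_sOf hx.1 hx.2.le
  have h := ((hasDerivAt_gam hs.ne').comp p hinv).sub_const 1
  refine HasDerivAt.congr_deriv h ?_
  rw [hpi, hg]
  have e : gam (sOf p) = aF p + 1 := by linarith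
  rw [e]
  unfold dF
  rw [q1_of_lt h1]
  field_simp
  ring

theorem seg_mem {p p₀ τ : ℝ} (h0 : 0 < p) (h1 : p ≤ 1) (k0 : 0 < p₀) (k1 : p₀ ≤ 1)
    (hτ : τ ∈ Icc (0 : ℝ) 1) : τ * p + (1 - τ) * p₀ ∈ Ioc (0 : ℝ) 1 := by
  obtain ⟨a, b⟩ := hτ
  constructor
  · rcases a.eq_or_lt with h | h
    · rw [← h]; simpa using k0
    · have := mul_pos h h0
      have := mul_nonneg (sub_nonneg.2 b) k0.le
      linarith
  · nlinarith

theorem dF_seg_aux {p p₀ : ℝ} (h0 : 0 < p) (h1 : p ≤ 1) (k0 : 0 < p₀) (k1 : p₀ ≤ 1)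
    (hne : p ≠ p₀) :
    ContinuousOn (fun τ => aF (τ * p + (1 - τ) * p₀) / (p₀ - p)) (Icc 0 1) ∧
    ∀ τ ∈ Ioo (0 : ℝ) 1, HasDerivAt (fun τ => aF (τ * p + (1 - τ) * p₀) / (p₀ - p))
      (dF (τ * p + (1 - τ) * p₀)) τ := by
  constructor
  · refine ContinuousOn.div_const ?_ _
    exact continuousOn_aF.comp (by fun_prop) fun τ hτ => seg_mem h0 h1 k0 k1 hτ
  · intro τ hτ
    have hm := seg_mem h0 h1 k0 k1 (Ioo_subset_Icc_self hτ)
    have hlt : τ * p + (1 - τ) * p₀ < 1 := by
      obtain ⟨a, b⟩ := hτ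
      rcases lt_or_gt_of_ne hne with h | h
      · have : p < 1 := lt_of_lt_of_le h k1
        nlinarith
      · have : p₀ < 1 := lt_of_lt_of_le h h1
        nlinarith
    have hl : HasDerivAt (fun τ : ℝ => τ * p + (1 - τ) * p₀) (p - p₀) τ := by
      have := ((hasDerivAt_id' τ).mul_const p).add
        (((hasDerivAt_id' τ).const_sub 1).mul_const p₀)
      exact HasDerivAt.congr_deriv this (by ring)
    have h := ((hasDerivAt_aF hm.1 hlt).comp τ hl).div_const (p₀ - p)
    refine HasDerivAt.congr_deriv h ?_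
    have : p₀ - p ≠ 0 := sub_ne_zero.2 hne.symm
    field_simp
    ring

theorem dF_seg_integrable {p p₀ : ℝ} (h0 : 0 < p) (h1 : p ≤ 1) (k0 : 0 < p₀) (k1 : p₀ ≤ 1) :
    IntervalIntegrable (fun τ => dF (τ * p + (1 - τ) * p₀)) volume 0 1 := by
  by_cases hne : p = p₀
  · have : (fun τ => dF (τ * p + (1 - τ) * p₀)) = fun _ => dF p₀ := by
      funext τ; rw [hne]; congr 1; ring
    rw [this]; exact intervalIntegrable_const
  · obtain ⟨c, d⟩ := dF_seg_aux h0 h1 k0 k1 hne
    rw [intervalIntegrable_iff_integrableOn_Ioc_of_le zero_le_one]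
    refine intervalIntegral.integrableOn_deriv_of_nonneg c d fun τ hτ => ?_
    have hm := seg_mem h0 h1 k0 k1 (Ioo_subset_Icc_self hτ)
    exact (dF_pos hm.1 hm.2).le

theorem dF_seg_integral {p p₀ : ℝ} (h0 : 0 < p) (h1 : p ≤ 1) (k0 : 0 < p₀) (k1 : p₀ ≤ 1)
    (hne : p ≠ p₀) :
    ∫ τ in (0 : ℝ)..1, dF (τ * p + (1 - τ) * p₀) = (aF p - aF p₀) / (p₀ - p) := by
  obtain ⟨c, d⟩ := dF_seg_aux h0 h1 k0 k1 hne
  rw [intervalIntegral.integral_eq_sub_of_hasDerivAt_of_le zero_le_one c d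
    (dF_seg_integrable h0 h1 k0 k1)]
  simp only [one_mul, sub_self, zero_mul, add_zero, sub_zero, zero_add]
  ring

theorem dF_seg_integral_self (p : ℝ) :
    ∫ τ in (0 : ℝ)..1, dF (τ * p + (1 - τ) * p) = dF p := by
  have : (fun τ => dF (τ * p + (1 - τ) * p)) = fun _ => dF p := by
    funext τ; congr 1; ring
  rw [this]; simp

theorem inv_q1_eq {p : ℝ} (h0 : 0 < p) (h1 : p ≤ 1) :
    (q1 p)⁻¹ = ∫ τ in (0 : ℝ)..1, dF (τ * p + (1 - τ) * 1) := by
  rcases h1.eq_or_lt with h | h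
  · rw [h, dF_seg_integral_self, q1_one]; unfold dF; rw [q1_one]; norm_num
  · rw [dF_seg_integral h0 h1 one_pos le_rfl h.ne, aF_one, sub_zero, q1_of_lt h, inv_div]

theorem dF_seg_integral_pos {p p₀ : ℝ} (h0 : 0 < p) (h1 : p ≤ 1) (k0 : 0 < p₀) (k1 : p₀ ≤ 1) :
    0 < ∫ τ in (0 : ℝ)..1, dF (τ * p + (1 - τ) * p₀) := by
  refine intervalIntegral.intervalIntegral_pos_of_pos_on (dF_seg_integrable h0 h1 k0 k1)
    (fun τ hτ => ?_) one_pos
  have hm := seg_mem h0 h1 k0 k1 (Ioo_subset_Icc_self hτ)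
  exact dF_pos hm.1 hm.2

end Crest.Agent.R331.Bt
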