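import Crest.Agent.R331.BootContr
import Crest.Agent.R331.BootScalar

/-!
# Row 331: the bootstrap, the form `Q` and the pencil identity
-/

set_option autoImplicit false

namespace Crest.Agent.R331.Bt

open Matrix Set MeasureTheory

/-- Logarithmic mean. -/
noncomputable def LM (x y : ℝ) : ℝ := if x = y then x else (x - y) / (Real.log x - Real.log y)

theorem LM_self (x : ℝ) : LM x x = x := by simp [LM]

theorem LM_of_ne {x y : ℝ} (h : x ≠ y) : LM x y = (x - y) / (Real.log x - Real.log y) := by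
  simp [LM, h]

theorem log_sub_ne {x y : ℝ} (hx : 0 < x) (hy : 0 < y) (h : x ≠ y) :
    Real.log x - Real.log y ≠ 0 := fun e =>
  h (Real.log_injOn_pos (mem_Ioi.2 hx) (mem_Ioi.2 hy) (sub_eq_zero.1 e))

theorem LM_mul_log {x y : ℝ} (hx : 0 < x) (hy : 0 < y) :
    LM x y * (Real.log x - Real.log y) = x - y := by
  by_cases h : x = y
  · simp [h]
  · rw [LM_of_ne h, div_mul_cancel₀ _ (log_sub_ne hx hy h)]

theorem LM_comm (x y : ℝ) : LM x y = LM y x := by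
  by_cases h : x = y
  · rw [h]
  · rw [LM_of_ne h, LM_of_ne (Ne.symm h), ← neg_sub y x, ← neg_sub (Real.log y), neg_div_neg_eq]

theorem LM_pos {x y : ℝ} (hx : 0 < x) (hy : 0 < y) : 0 < LM x y := by
  rcases lt_trichotomy x y with h | h | h
  · rw [LM_of_ne h.ne]
    exact div_pos_of_neg_of_neg (sub_neg.2 h) (sub_neg.2 (Real.log_lt_log hx h))
  · rw [h, LM_self]; exact hy
  · rw [LM_of_ne h.ne']
    exact div_pos (sub_pos.2 h) (sub_pos.2 (Real.log_lt_log hy h))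

theorem LM_mul {c x y : ℝ} (hc : 0 < c) (hx : 0 < x) (hy : 0 < y) :
    LM (c * x) (c * y) = c * LM x y := by
  by_cases h : x = y
  · rw [h, LM_self, LM_self]
  · have h' : c * x ≠ c * y := fun e => h (mul_left_cancel₀ hc.ne' e)
    rw [LM_of_ne h, LM_of_ne h', Real.log_mul hc.ne' hx.ne', Real.log_mul hc.ne' hy.ne']
    have := log_sub_ne hx hy h
    have e : Real.log c + Real.log x - (Real.log c + Real.log y) = Real.log x - Real.log y := by ring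
    rw [e]; field_simp

theorem LM_inv {x y : ℝ} (hx : 0 < x) (hy : 0 < y) : LM x⁻¹ y⁻¹ = LM x y / (x * y) := by
  have e1 : x⁻¹ = (x * y)⁻¹ * y := by field_simp
  have e2 : y⁻¹ = (x * y)⁻¹ * x := by field_simp
  calc LM x⁻¹ y⁻¹ = LM ((x * y)⁻¹ * y) ((x * y)⁻¹ * x) := by rw [← e1, ← e2]
    _ = (x * y)⁻¹ * LM y x := LM_mul (by positivity) hy hx
    _ = LM x y / (x * y) := by rw [LM_comm y x]; field_simp

theorem seg_pos {x y τ : ℝ} (hx : 0 < x) (hy : 0 < y) (hτ : τ ∈ Icc (0 : ℝ) 1) :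
    0 < τ * x + (1 - τ) * y := by
  obtain ⟨a, b⟩ := hτ
  rcases a.eq_or_lt with h | h
  · rw [← h]; simpa using hy
  · have := mul_pos h hx
    have := mul_nonneg (sub_nonneg.2 b) hy.le
    linarith

theorem inv_seg_integrable {x y : ℝ} (hx : 0 < x) (hy : 0 < y) :
    IntervalIntegrable (fun τ : ℝ => (τ * x + (1 - τ) * y)⁻¹) volume 0 1 := by
  refine ContinuousOn.intervalIntegrable ?_
  rw [uIcc_of_le zero_le_one]
  exact ContinuousOn.inv₀ (by fun_prop) fun τ hτ => (seg_pos hx hy hτ).ne'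

theorem inv_LM_eq {x y : ℝ} (hx : 0 < x) (hy : 0 < y) :
    (LM x y)⁻¹ = ∫ τ in (0 : ℝ)..1, (τ * x + (1 - τ) * y)⁻¹ := by
  by_cases h : x = y
  · have : (fun τ : ℝ => (τ * x + (1 - τ) * y)⁻¹) = fun _ => y⁻¹ := by
      funext τ; rw [h]; congr 1; ring
    rw [this, h, LM_self]; simp
  · have hd : ∀ τ ∈ uIcc (0 : ℝ) 1, HasDerivAt (fun τ => Real.log (τ * x + (1 - τ) * y) / (x - y))
        (τ * x + (1 - τ) * y)⁻¹ τ := by
      intro τ hτ
      rw [uIcc_of_le zero_le_one] at hτ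
      have hp := seg_pos hx hy hτ
      have hl : HasDerivAt (fun τ : ℝ => τ * x + (1 - τ) * y) (x - y) τ := by
        have := ((hasDerivAt_id' τ).mul_const x).add
          (((hasDerivAt_id' τ).const_sub 1).mul_const y)
        exact HasDerivAt.congr_deriv this (by ring)
      refine HasDerivAt.congr_deriv ((hl.log hp.ne').div_const (x - y)) ?_
      have : x - y ≠ 0 := sub_ne_zero.2 h
      field_simp
    rw [intervalIntegral.integral_eq_sub_of_hasDerivAt hd (inv_seg_integrable hx hy), LM_of_ne h,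
      inv_div]
    simp only [one_mul, sub_self, zero_mul, add_zero, sub_zero, zero_add]
    ring

/-- Hyperbolic parametrisation of a pair by `t = LM x y` and `s = (log x - log y)/2`. -/
theorem LM_param {x y : ℝ} (hx : 0 < x) (hy : 0 < y) :
    x = LM x y * (gam ((Real.log x - Real.log y) / 2) + (Real.log x - Real.log y) / 2) ∧
    y = LM x y * (gam ((Real.log x - Real.log y) / 2) - (Real.log x - Real.log y) / 2) := by
  set s := (Real.log x - Real.log y) / 2 with hs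
  have h1 : LM x y * (2 * s) = x - y := by
    rw [← LM_mul_log hx hy, hs]; ring
  suffices h2 : LM x y * (2 * gam s) = x + y by
    constructor <;> linarith
  by_cases h : x = y
  · have : s = 0 := by rw [hs, h]; simp
    rw [this, gam_zero, h, LM_self]; ring
  · have hs0 : s ≠ 0 := div_ne_zero (log_sub_ne hx hy h) two_ne_zero
    have hsh : Real.sinh s ≠ 0 := Real.sinh_ne_zero.2 hs0
    have hE : Real.exp s ^ 2 * y = x := by
      rw [← Real.exp_nat_mul, hs]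
      have : ((2 : ℕ) : ℝ) * ((Real.log x - Real.log y) / 2) = Real.log x - Real.log y := by
        push_cast; ring
      rw [this, Real.exp_sub, Real.exp_log hx, Real.exp_log hy]; field_simp
    have key : (x - y) * Real.cosh s = (x + y) * Real.sinh s := by
      rw [Real.cosh_eq, Real.sinh_eq, Real.exp_neg, ← hE]
      have := Real.exp_pos s
      field_simp
    have e : gam s = s * Real.cosh s / Real.sinh s := by
      unfold gam; rw [shc_of_ne hs0]; field_simp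
    rw [e]
    have : LM x y * (2 * (s * Real.cosh s / Real.sinh s))
        = LM x y * (2 * s) * Real.cosh s / Real.sinh s := by ring
    rw [this, h1, key]; field_simp

theorem mul_div_LM_sq {x y : ℝ} (hx : 0 < x) (hy : 0 < y) :
    x * y / LM x y = LM x y * piF ((Real.log x - Real.log y) / 2) := by
  obtain ⟨a, b⟩ := LM_param hx hy
  have ht := LM_pos hx hy
  have e := gam_sq_sub_piF ((Real.log x - Real.log y) / 2)
  set s := (Real.log x - Real.log y) / 2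
  set t := LM x y
  have : x * y = t ^ 2 * piF s := by
    calc x * y = t * (gam s + s) * (t * (gam s - s)) := by rw [← a, ← b]
      _ = t ^ 2 * (gam s ^ 2 - s ^ 2) := by ring
      _ = t ^ 2 * piF s := by rw [← e]; ring
  rw [this]; field_simp

theorem mul_div_LM_le {x y : ℝ} (hx : 0 < x) (hy : 0 < y) : x * y / LM x y ≤ LM x y := by
  rw [mul_div_LM_sq hx hy]
  exact mul_le_of_le_one_right (LM_pos hx hy).le (piF_le_one _)

section Contr

variable {ι κ : Type*} [Fintype ι] [Fintype κ] {T : Matrix κ ι ℂ}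

theorem Contr.LM {x y : ι → ℝ} {x' y' : κ → ℝ} {c : ℝ} (hc : 0 < c)
    (hx : ∀ i, 0 < x i) (hy : ∀ i, 0 < y i) (hx' : ∀ j, 0 < x' j) (hy' : ∀ j, 0 < y' j)
    (h₁ : Contr T x x' c) (h₂ : Contr T y y' c) :
    Contr T (fun i => LM (x i) (y i)) (fun j => LM (x' j) (y' j)) c :=
  Contr.parallel (f := fun i τ => τ * x i + (1 - τ) * y i)
    (g := fun j τ => τ * x' j + (1 - τ) * y' j) hc
    (fun _ hτ => h₁.convex h₂ hτ.1 hτ.2)
    (fun _ hτ i => seg_pos (hx i) (hy i) hτ) (fun _ hτ j => seg_pos (hx' j) (hy' j) hτ)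
    (fun i => inv_seg_integrable (hx i) (hy i)) (fun j => inv_seg_integrable (hx' j) (hy' j))
    (fun i => LM_pos (hx i) (hy i)) (fun j => LM_pos (hx' j) (hy' j))
    (fun i => inv_LM_eq (hx i) (hy i)) (fun j => inv_LM_eq (hx' j) (hy' j))

/-- The dual logarithmic mean contracts. -/
theorem Contr.dualLM {x y : ι → ℝ} {x' y' : κ → ℝ} {c : ℝ} (hc : 0 < c)
    (hx : ∀ i, 0 < x i) (hy : ∀ i, 0 < y i) (hx' : ∀ j, 0 < x' j) (hy' : ∀ j, 0 < y' j)
    (h₁ : Contr T x x' c) (h₂ : Contr T y y' c) :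
    Contr T (fun i => x i * y i / Bt.LM (x i) (y i))
      (fun j => x' j * y' j / Bt.LM (x' j) (y' j)) c := by
  refine Contr.of_dual ?_ hc
    (fun i => div_pos (mul_pos (hx i) (hy i)) (LM_pos (hx i) (hy i)))
    (fun j => div_pos (mul_pos (hx' j) (hy' j)) (LM_pos (hx' j) (hy' j)))
  have := Contr.LM hc (fun j => inv_pos.2 (hx' j)) (fun j => inv_pos.2 (hy' j))
    (fun i => inv_pos.2 (hx i)) (fun i => inv_pos.2 (hy i)) (h₁.dual hc hx hx') (h₂.dual hc hy hy')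
  refine this.congr (fun j => ?_) (fun i => ?_)
  · rw [LM_inv (hx' j) (hy' j), inv_div]
  · rw [LM_inv (hx i) (hy i), inv_div]

end Contr

/-- `DD P t = t / dF (P / t)`. -/
noncomputable def DD (P t : ℝ) : ℝ := t / dF (P / t)

theorem ratio_mem {P t : ℝ} (hP : 0 < P) (h : P ≤ t) : 0 < P / t ∧ P / t ≤ 1 :=
  ⟨div_pos hP (hP.trans_le h), (div_le_one (hP.trans_le h)).2 h⟩

theorem DD_eq {P t : ℝ} (hP : 0 < P) (h : P ≤ t) : DD P t = 2 * P / (1 + q1 (P / t)) := by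
  have ht := hP.trans_le h
  obtain ⟨a, b⟩ := ratio_mem hP h
  have := q1_pos a b
  unfold DD dF
  field_simp

theorem DD_pos {P t : ℝ} (hP : 0 < P) (h : P ≤ t) : 0 < DD P t := by
  obtain ⟨a, b⟩ := ratio_mem hP h
  exact div_pos (hP.trans_le h) (dF_pos a b)

theorem le_DD {P t : ℝ} (hP : 0 < P) (h : P ≤ t) : P ≤ DD P t := by
  obtain ⟨a, b⟩ := ratio_mem hP h
  have h1 := q1_pos a b
  have h2 := q1_le_one a b
  rw [DD_eq hP h, le_div_iff₀ (by linarith)]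
  nlinarith

theorem DD_le {P t : ℝ} (hP : 0 < P) (h : P ≤ t) : DD P t ≤ 2 * P := by
  obtain ⟨a, b⟩ := ratio_mem hP h
  have h1 := q1_pos a b
  rw [DD_eq hP h, div_le_iff₀ (by linarith)]
  nlinarith

theorem seg_le {P P₀ t τ : ℝ} (h : P ≤ t) (h₀ : P₀ ≤ t) (hτ : τ ∈ Icc (0 : ℝ) 1) :
    τ * P + (1 - τ) * P₀ ≤ t := by
  obtain ⟨a, b⟩ := hτ
  nlinarith

theorem inv_DD_seg {P P₀ t : ℝ} (ht : 0 < t) (τ : ℝ) :
    (DD (τ * P + (1 - τ) * P₀) t)⁻¹ = dF (τ * (P / t) + (1 - τ) * (P₀ / t)) / t := by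
  unfold DD
  rw [inv_div]
  congr 2
  field_simp

theorem inv_DD_seg_integrable {P P₀ t : ℝ} (hP : 0 < P) (h : P ≤ t) (hP₀ : 0 < P₀)
    (h₀ : P₀ ≤ t) :
    IntervalIntegrable (fun τ => (DD (τ * P + (1 - τ) * P₀) t)⁻¹) volume 0 1 := by
  have ht := hP.trans_le h
  obtain ⟨a, b⟩ := ratio_mem hP h
  obtain ⟨a₀, b₀⟩ := ratio_mem hP₀ h₀
  simp only [inv_DD_seg ht]
  exact (dF_seg_integrable a b a₀ b₀).div_const t

/-- The form `Q` as a function of `P`, `P₀`, `t`. -/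
noncomputable def QF (P P₀ t : ℝ) : ℝ :=
  t / ∫ τ in (0 : ℝ)..1, dF (τ * (P / t) + (1 - τ) * (P₀ / t))

theorem QF_pos {P P₀ t : ℝ} (hP : 0 < P) (h : P ≤ t) (hP₀ : 0 < P₀) (h₀ : P₀ ≤ t) :
    0 < QF P P₀ t := by
  obtain ⟨a, b⟩ := ratio_mem hP h
  obtain ⟨a₀, b₀⟩ := ratio_mem hP₀ h₀
  exact div_pos (hP.trans_le h) (dF_seg_integral_pos a b a₀ b₀)

theorem inv_QF {P P₀ t : ℝ} (ht : 0 < t) :
    (QF P P₀ t)⁻¹ = ∫ τ in (0 : ℝ)..1, (DD (τ * P + (1 - τ) * P₀) t)⁻¹ := by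
  simp only [inv_DD_seg ht]
  rw [intervalIntegral.integral_div, QF, inv_div]

theorem QF_self_right {P t : ℝ} (hP : 0 < P) (h : P ≤ t) : QF P t t = t * q1 (P / t) := by
  have ht := hP.trans_le h
  obtain ⟨a, b⟩ := ratio_mem hP h
  unfold QF
  rw [div_self ht.ne', ← inv_q1_eq a b, div_inv_eq_mul]

/-- The statement bootstrapped: `DD` contracts with factor `k` in every system. -/
def Boot (k : ℝ) : Prop :=
  ∀ (ι κ : Type) [Fintype ι] [Fintype κ] (T : Matrix κ ι ℂ) (P t : ι → ℝ) (P' t' : κ → ℝ),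
    (∀ i, 0 < P i) → (∀ i, P i ≤ t i) → (∀ j, 0 < P' j) → (∀ j, P' j ≤ t' j) →
    Contr T P P' 1 → Contr T t t' 1 →
    Contr T (fun i => DD (P i) (t i)) (fun j => DD (P' j) (t' j)) k

theorem boot_two : Boot 2 := by
  intro ι κ _ _ T P t P' t' h1 h2 h3 h4 hP _
  refine (hP.smul (r := 2) (by norm_num)).mono (fun i => ?_) fun j => DD_le (h3 j) (h4 j)
  have := le_DD (h1 i) (h2 i)
  linarith

theorem Boot.QF {k : ℝ} (hk : 0 < k) (hB : Boot k) {ι κ : Type} [Fintype ι] [Fintype κ]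
    {T : Matrix κ ι ℂ} {P P₀ t : ι → ℝ} {P' P₀' t' : κ → ℝ}
    (h1 : ∀ i, 0 < P i) (h2 : ∀ i, P i ≤ t i) (k1 : ∀ i, 0 < P₀ i) (k2 : ∀ i, P₀ i ≤ t i)
    (h3 : ∀ j, 0 < P' j) (h4 : ∀ j, P' j ≤ t' j) (k3 : ∀ j, 0 < P₀' j) (k4 : ∀ j, P₀' j ≤ t' j)
    (hP : Contr T P P' 1) (hP₀ : Contr T P₀ P₀' 1) (ht : Contr T t t' 1) :
    Contr T (fun i => QF (P i) (P₀ i) (t i)) (fun j => QF (P' j) (P₀' j) (t' j)) k :=
  Contr.parallel (f := fun i τ => DD (τ * P i + (1 - τ) * P₀ i) (t i))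
    (g := fun j τ => DD (τ * P' j + (1 - τ) * P₀' j) (t' j)) hk
    (fun _ hτ => hB ι κ T _ t _ t' (fun i => seg_pos (h1 i) (k1 i) hτ)
      (fun i => seg_le (h2 i) (k2 i) hτ) (fun j => seg_pos (h3 j) (k3 j) hτ)
      (fun j => seg_le (h4 j) (k4 j) hτ) (hP.convex hP₀ hτ.1 hτ.2) ht)
    (fun _ hτ i => DD_pos (seg_pos (h1 i) (k1 i) hτ) (seg_le (h2 i) (k2 i) hτ))
    (fun _ hτ j => DD_pos (seg_pos (h3 j) (k3 j) hτ) (seg_le (h4 j) (k4 j) hτ))
    (fun i => inv_DD_seg_integrable (h1 i) (h2 i) (k1 i) (k2 i))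
    (fun j => inv_DD_seg_integrable (h3 j) (h4 j) (k3 j) (k4 j))
    (fun i => QF_pos (h1 i) (h2 i) (k1 i) (k2 i)) (fun j => QF_pos (h3 j) (h4 j) (k3 j) (k4 j))
    (fun i => inv_QF ((h1 i).trans_le (h2 i))) (fun j => inv_QF ((h3 j).trans_le (h4 j)))

theorem boot_step {k : ℝ} (hk : 1 ≤ k) (hB : Boot k) : Boot ((1 + k) / 2) := by
  have hk0 : 0 < k := by linarith
  -- `t + t q1` contracts with the better factor, in every system
  have A : ∀ (ι κ : Type) [Fintype ι] [Fintype κ] (T : Matrix κ ι ℂ) (P t : ι → ℝ)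
      (P' t' : κ → ℝ), (∀ i, 0 < P i) → (∀ i, P i ≤ t i) → (∀ j, 0 < P' j) → (∀ j, P' j ≤ t' j) →
      Contr T P P' 1 → Contr T t t' 1 →
      Contr T (fun i => t i * (1 + q1 (P i / t i))) (fun j => t' j * (1 + q1 (P' j / t' j)))
        ((1 + k) / 2) := by
    intro ι κ _ _ T P t P' t' h1 h2 h3 h4 hP ht
    have hQ := hB.QF hk0 h1 h2 (fun i => (h1 i).trans_le (h2 i)) (fun i => le_rfl) h3 h4
      (fun j => (h3 j).trans_le (h4 j)) (fun j => le_rfl) hP ht ht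
    refine (ht.add' hQ).mono (fun i => ?_) fun j => ?_
    · rw [QF_self_right (h1 i) (h2 i)]
      obtain ⟨a, b⟩ := ratio_mem (h1 i) (h2 i)
      have hq := q1_le_one a b
      have hti := (h1 i).trans_le (h2 i)
      have : 0 ≤ t i * ((k - 1) * (1 - q1 (P i / t i))) :=
        mul_nonneg hti.le (mul_nonneg (by linarith) (by linarith))
      nlinarith
    · rw [QF_self_right (h3 j) (h4 j)]; linarith
  intro ι κ _ _ T P t P' t' h1 h2 h3 h4 hP ht
  have t1 : ∀ i, 0 < t i := fun i => (h1 i).trans_le (h2 i)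
  have t3 : ∀ j, 0 < t' j := fun j => (h3 j).trans_le (h4 j)
  have B := A κ ι Tᴴ (fun j => (t' j)⁻¹) (fun j => (P' j)⁻¹) (fun i => (t i)⁻¹) (fun i => (P i)⁻¹)
    (fun j => inv_pos.2 (t3 j)) (fun j => inv_anti₀ (h3 j) (h4 j))
    (fun i => inv_pos.2 (t1 i)) (fun i => inv_anti₀ (h1 i) (h2 i))
    (ht.dual one_pos t1 t3) (hP.dual one_pos h1 h3)
  refine Contr.of_dual ?_ (by linarith) (fun i => DD_pos (h1 i) (h2 i))
    (fun j => DD_pos (h3 j) (h4 j))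
  have e : ∀ {P t : ℝ}, 0 < P → P ≤ t → 1 / 2 * (P⁻¹ * (1 + q1 (t⁻¹ / P⁻¹))) = (DD P t)⁻¹ := by
    intro P t hP h
    have ht := hP.trans_le h
    have : t⁻¹ / P⁻¹ = P / t := by field_simp
    rw [this, DD_eq hP h, inv_div]
    field_simp
  exact (B.smul (r := 1 / 2) (by norm_num)).congr (fun j => e (h3 j) (h4 j))
    (fun i => e (h1 i) (h2 i))

theorem boot_pow (n : ℕ) : Boot (1 + (1 / 2) ^ n) := by
  induction n with
  | zero => have : (1 : ℝ) + (1 / 2) ^ 0 = 2 := by norm_num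
            rw [this]; exact boot_two
  | succ n ih =>
    have h := boot_step (le_add_of_nonneg_right (by positivity)) ih
    have e : (1 + (1 + (1 / 2 : ℝ) ^ n)) / 2 = 1 + (1 / 2) ^ (n + 1) := by ring
    rwa [e] at h

theorem boot_one : Boot 1 := by
  intro ι κ _ _ T P t P' t' h1 h2 h3 h4 hP ht
  refine Contr.of_forall_gt fun ε hε => ?_
  obtain ⟨n, hn⟩ := exists_pow_lt_of_lt_one hε (by norm_num : (1 / 2 : ℝ) < 1)
  refine (boot_pow n ι κ T P t P' t' h1 h2 h3 h4 hP ht).mono (fun i => ?_) fun j => le_rfl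
  exact mul_le_mul_of_nonneg_right (by linarith) (DD_pos (h1 i) (h2 i)).le

/-- The form `Q` of the pencil, for two pairs with the same logarithmic mean. -/
noncomputable def QQ (x y x₀ y₀ : ℝ) : ℝ := QF (x * y / LM x y) (x₀ * y₀ / LM x y) (LM x y)

/-- The form `J` of the pencil. -/
noncomputable def JJ (x y x₀ y₀ : ℝ) : ℝ := LM (y₀ * x) (x₀ * y) / LM x y

theorem QQ_pos {x y x₀ y₀ : ℝ} (hx : 0 < x) (hy : 0 < y) (hx₀ : 0 < x₀) (hy₀ : 0 < y₀)
    (h : LM x₀ y₀ = LM x y) : 0 < QQ x y x₀ y₀ := by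
  have ht := LM_pos hx hy
  refine QF_pos (by positivity) (mul_div_LM_le hx hy) (by positivity) ?_
  rw [← h]; exact mul_div_LM_le hx₀ hy₀

theorem JJ_pos {x y x₀ y₀ : ℝ} (hx : 0 < x) (hy : 0 < y) (hx₀ : 0 < x₀) (hy₀ : 0 < y₀) :
    0 < JJ x y x₀ y₀ :=
  div_pos (LM_pos (by positivity) (by positivity)) (LM_pos hx hy)

/-- **(Q)**: the form `Q` contracts. -/
theorem QQ_contr {ι κ : Type} [Fintype ι] [Fintype κ] {T : Matrix κ ι ℂ}
    {x y x₀ y₀ : ι → ℝ} {x' y' x₀' y₀' : κ → ℝ}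
    (hx : ∀ i, 0 < x i) (hy : ∀ i, 0 < y i) (hx₀ : ∀ i, 0 < x₀ i) (hy₀ : ∀ i, 0 < y₀ i)
    (h : ∀ i, LM (x₀ i) (y₀ i) = LM (x i) (y i))
    (hx' : ∀ j, 0 < x' j) (hy' : ∀ j, 0 < y' j) (hx₀' : ∀ j, 0 < x₀' j) (hy₀' : ∀ j, 0 < y₀' j)
    (h' : ∀ j, LM (x₀' j) (y₀' j) = LM (x' j) (y' j))
    (cx : Contr T x x' 1) (cy : Contr T y y' 1) (cx₀ : Contr T x₀ x₀' 1) (cy₀ : Contr T y₀ y₀' 1) :
    Contr T (fun i => QQ (x i) (y i) (x₀ i) (y₀ i)) (fun j => QQ (x' j) (y' j) (x₀' j) (y₀' j)) 1 := by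
  have c0 := Contr.dualLM one_pos hx₀ hy₀ hx₀' hy₀' cx₀ cy₀
  simp only [h, h'] at c0
  refine boot_one.QF one_pos
    (fun i => div_pos (mul_pos (hx i) (hy i)) (LM_pos (hx i) (hy i)))
    (fun i => mul_div_LM_le (hx i) (hy i))
    (fun i => div_pos (mul_pos (hx₀ i) (hy₀ i)) (LM_pos (hx i) (hy i)))
    (fun i => by rw [← h i]; exact mul_div_LM_le (hx₀ i) (hy₀ i))
    (fun j => div_pos (mul_pos (hx' j) (hy' j)) (LM_pos (hx' j) (hy' j)))
    (fun j => mul_div_LM_le (hx' j) (hy' j))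
    (fun j => div_pos (mul_pos (hx₀' j) (hy₀' j)) (LM_pos (hx' j) (hy' j)))
    (fun j => by rw [← h' j]; exact mul_div_LM_le (hx₀' j) (hy₀' j))
    (Contr.dualLM one_pos hx hy hx' hy' cx cy) c0 (Contr.LM one_pos hx hy hx' hy' cx cy)

/-- The pencil identity: `J` is the Schur complement. -/
theorem pencil_identity {x y x₀ y₀ : ℝ} (hx : 0 < x) (hy : 0 < y) (hx₀ : 0 < x₀) (hy₀ : 0 < y₀)
    (h : LM x₀ y₀ = LM x y) :
    4 * JJ x y x₀ y₀ = (x + x₀) + (y + y₀)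
      - ((x + x₀) - (y + y₀)) ^ 2 / ((x + x₀) + (y + y₀) + 2 * QQ x y x₀ y₀) := by
  have hQ := QQ_pos hx hy hx₀ hy₀ h
  obtain ⟨ex, ey⟩ := LM_param hx hy
  obtain ⟨ex₀, ey₀⟩ := LM_param hx₀ hy₀
  have eP := mul_div_LM_sq hx hy
  have eP₀ := mul_div_LM_sq hx₀ hy₀
  rw [h] at ex₀ ey₀ eP₀
  have ht := LM_pos hx hy
  have hJ := LM_mul_log (mul_pos hy₀ hx) (mul_pos hx₀ hy)
  rw [Real.log_mul hy₀.ne' hx.ne', Real.log_mul hx₀.ne' hy.ne'] at hJ
  set s := (Real.log x - Real.log y) / 2 with hs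
  set s₀ := (Real.log x₀ - Real.log y₀) / 2 with hs₀
  have el : Real.log y₀ + Real.log x - (Real.log x₀ + Real.log y) = 2 * (s - s₀) := by
    rw [hs, hs₀]; ring
  rw [el] at hJ
  have eQ : QQ x y x₀ y₀ = LM x y / ∫ τ in (0 : ℝ)..1, dF (τ * piF s + (1 - τ) * piF s₀) := by
    unfold QQ QF
    rw [eP, eP₀, mul_div_cancel_left₀ _ ht.ne', mul_div_cancel_left₀ _ ht.ne']
  have g1 := gam_sq_sub_piF s
  have g0 := gam_sq_sub_piF s₀
  have eJ : JJ x y x₀ y₀ = LM (y₀ * x) (x₀ * y) / LM x y := rfl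
  set t := LM x y
  set Q := QQ x y x₀ y₀
  set J := JJ x y x₀ y₀
  have hD : 0 < (x + x₀) + (y + y₀) + 2 * Q := by positivity
  have eS : (x + x₀) + (y + y₀) = 2 * t * (gam s + gam s₀) := by linarith
  have eD : (x + x₀) - (y + y₀) = 2 * t * (s + s₀) := by linarith
  have eN : y₀ * x - x₀ * y = 2 * t ^ 2 * (gam s₀ * s - gam s * s₀) := by
    calc y₀ * x - x₀ * y
        = t * (gam s₀ - s₀) * (t * (gam s + s)) - t * (gam s₀ + s₀) * (t * (gam s - s)) := by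
          rw [← ex, ← ey, ← ex₀, ← ey₀]
      _ = _ := by ring
  have hJ' : J * (s - s₀) = t * (gam s₀ * s - gam s * s₀) := by
    rw [eJ, div_mul_eq_mul_div, div_eq_iff ht.ne']
    rw [eN] at hJ
    linarith
  suffices H : (2 * t * (gam s + gam s₀) - 4 * J) * (2 * t * (gam s + gam s₀) + 2 * Q)
      = (2 * t * (s + s₀)) ^ 2 by
    rw [eS] at hD
    rw [eD, eS, ← H, mul_div_assoc, div_self hD.ne']; ring
  by_cases c1 : s = s₀
  · -- equal pairs
    have hxx : x = x₀ := by rw [ex, ex₀, c1]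
    have hyy : y = y₀ := by rw [ey, ey₀, c1]
    have eJ2 : J = t * piF s₀ := by
      rw [eJ, ← eP₀, hxx, hyy, mul_comm y₀ x₀, LM_self]
    rw [c1, dF_seg_integral_self] at eQ
    rw [c1, eJ2, eQ]
    by_cases c0 : s₀ = 0
    · rw [c0, gam_zero, piF_zero]; ring
    · have hlt := piF_lt_one c0
      have hp := piF_pos s₀
      have ha := aF_pos hp hlt
      unfold dF
      rw [q1_of_lt hlt]
      rw [aF_piF] at ha ⊢
      have hden : gam s₀ - piF s₀ ≠ 0 := by linarith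
      have e2 : t / ((1 + (1 - piF s₀) / (gam s₀ - 1)) / (2 * piF s₀))
          = 2 * t * piF s₀ * (gam s₀ - 1) / (gam s₀ - piF s₀) := by
        have : 1 + (1 - piF s₀) / (gam s₀ - 1) = (gam s₀ - piF s₀) / (gam s₀ - 1) := by
          field_simp; ring
        rw [this]; field_simp
      rw [e2]
      have e3 : (2 * t * (s₀ + s₀)) ^ 2 = 16 * t ^ 2 * (gam s₀ ^ 2 - piF s₀) := by rw [g0]; ring
      rw [e3]; field_simp; ring
  · have hss : s - s₀ ≠ 0 := sub_ne_zero.2 c1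
    have eJ2 : J = t * (gam s₀ * s - gam s * s₀) / (s - s₀) := by rw [← hJ']; field_simp
    by_cases c2 : s = -s₀
    · have : gam s = gam s₀ := by rw [← gam_abs, c2, abs_neg, gam_abs]
      have e4 : J = t * gam s₀ := by
        rw [eJ2, this]; field_simp
      rw [e4, this, c2]; ring
    · have habs : |s| ≠ |s₀| := fun e => by
        rcases abs_eq_abs.1 e with e | e
        · exact c1 e
        · exact c2 e
      have hne : piF s ≠ piF s₀ := fun e => habs (by rw [← sOf_piF, e, sOf_piF])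
      have hI := dF_seg_integral_pos (piF_pos s) (piF_le_one s) (piF_pos s₀) (piF_le_one s₀)
      rw [dF_seg_integral (piF_pos s) (piF_le_one s) (piF_pos s₀) (piF_le_one s₀) hne, aF_piF,
        aF_piF] at eQ hI
      have hg : gam s - gam s₀ ≠ 0 := by
        intro e
        have : gam s - 1 - (gam s₀ - 1) = 0 := by linarith
        rw [this, zero_div] at hI
        exact lt_irrefl _ hI
      have e5 : piF s₀ - piF s = gam s₀ ^ 2 - s₀ ^ 2 - gam s ^ 2 + s ^ 2 := by linarith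
      have e6 : Q = t * (gam s₀ ^ 2 - s₀ ^ 2 - gam s ^ 2 + s ^ 2) / (gam s - gam s₀) := by
        rw [eQ, ← e5]
        have : gam s - 1 - (gam s₀ - 1) = gam s - gam s₀ := by ring
        rw [this]
        have : piF s₀ - piF s ≠ 0 := sub_ne_zero.2 hne.symm
        field_simp
      rw [eJ2, e6]
      field_simp
      ring

/-- The pencil evaluated at `(z, w)`. -/
noncomputable def pencil (x y x₀ y₀ : ℝ) (z w : ℂ) : ℝ :=
  (x + x₀) * ‖z + w‖ ^ 2 + (y + y₀) * ‖z - w‖ ^ 2 + 2 * QQ x y x₀ y₀ * ‖w‖ ^ 2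

/-- The optimal ratio `w / z` of the pencil. -/
noncomputable def wopt (x y x₀ y₀ : ℝ) : ℝ :=
  -((x + x₀) - (y + y₀)) / ((x + x₀) + (y + y₀) + 2 * QQ x y x₀ y₀)

/-- Completing the square in the pencil. -/
theorem pencil_eq {x y x₀ y₀ : ℝ} (hx : 0 < x) (hy : 0 < y) (hx₀ : 0 < x₀) (hy₀ : 0 < y₀)
    (h : LM x₀ y₀ = LM x y) (z w : ℂ) :
    pencil x y x₀ y₀ z w = 4 * JJ x y x₀ y₀ * ‖z‖ ^ 2
      + ((x + x₀) + (y + y₀) + 2 * QQ x y x₀ y₀) * ‖w - (wopt x y x₀ y₀ : ℂ) * z‖ ^ 2 := by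
  have hQ := QQ_pos hx hy hx₀ hy₀ h
  rw [pencil_identity hx hy hx₀ hy₀ h]
  unfold pencil wopt
  set Q := QQ x y x₀ y₀
  have hD : 0 < (x + x₀) + (y + y₀) + 2 * Q := by positivity
  simp only [Complex.sq_norm, Complex.normSq_apply, Complex.add_re, Complex.add_im, Complex.sub_re,
    Complex.sub_im, Complex.mul_re, Complex.mul_im, Complex.ofReal_re, Complex.ofReal_im]
  field_simp
  ring

theorem le_pencil {x y x₀ y₀ : ℝ} (hx : 0 < x) (hy : 0 < y) (hx₀ : 0 < x₀) (hy₀ : 0 < y₀)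
    (h : LM x₀ y₀ = LM x y) (z w : ℂ) :
    4 * JJ x y x₀ y₀ * ‖z‖ ^ 2 ≤ pencil x y x₀ y₀ z w := by
  have hQ := QQ_pos hx hy hx₀ hy₀ h
  rw [pencil_eq hx hy hx₀ hy₀ h]
  have : 0 ≤ ((x + x₀) + (y + y₀) + 2 * QQ x y x₀ y₀) * ‖w - (wopt x y x₀ y₀ : ℂ) * z‖ ^ 2 := by
    positivity
  linarith

theorem pencil_opt {x y x₀ y₀ : ℝ} (hx : 0 < x) (hy : 0 < y) (hx₀ : 0 < x₀) (hy₀ : 0 < y₀)
    (h : LM x₀ y₀ = LM x y) (z : ℂ) :
    pencil x y x₀ y₀ z ((wopt x y x₀ y₀ : ℂ) * z) = 4 * JJ x y x₀ y₀ * ‖z‖ ^ 2 := by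
  rw [pencil_eq hx hy hx₀ hy₀ h]; simp

/-- **(*) with slack**: if `x` and `y` contract with factor `c ≤ 1` (and `x₀`, `y₀` with factor `1`)
then `J` contracts, with the slack `(1 - c) (x |z + w|² + y |z - w|²) / 4` at the optimal `w`. -/
theorem JJ_slack {ι κ : Type} [Fintype ι] [Fintype κ] {T : Matrix κ ι ℂ}
    {x y x₀ y₀ : ι → ℝ} {x' y' x₀' y₀' : κ → ℝ} {c : ℝ} (hc : c ≤ 1)
    (hx : ∀ i, 0 < x i) (hy : ∀ i, 0 < y i) (hx₀ : ∀ i, 0 < x₀ i) (hy₀ : ∀ i, 0 < y₀ i)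
    (h : ∀ i, LM (x₀ i) (y₀ i) = LM (x i) (y i))
    (hx' : ∀ j, 0 < x' j) (hy' : ∀ j, 0 < y' j) (hx₀' : ∀ j, 0 < x₀' j) (hy₀' : ∀ j, 0 < y₀' j)
    (h' : ∀ j, LM (x₀' j) (y₀' j) = LM (x' j) (y' j))
    (cx : Contr T x x' c) (cy : Contr T y y' c) (cx₀ : Contr T x₀ x₀' 1) (cy₀ : Contr T y₀ y₀' 1)
    (z : ι → ℂ) :
    4 * ∑ j, JJ (x' j) (y' j) (x₀' j) (y₀' j) * ‖(T *ᵥ z) j‖ ^ 2
      + (1 - c) * ∑ i, (x i * (1 + wopt (x i) (y i) (x₀ i) (y₀ i)) ^ 2
          + y i * (1 - wopt (x i) (y i) (x₀ i) (y₀ i)) ^ 2) * ‖z i‖ ^ 2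
      ≤ 4 * ∑ i, JJ (x i) (y i) (x₀ i) (y₀ i) * ‖z i‖ ^ 2 := by
  have cx1 : Contr T x x' 1 :=
    cx.mono (fun i => mul_le_mul_of_nonneg_right hc (hx i).le) fun _ => le_rfl
  have cy1 : Contr T y y' 1 :=
    cy.mono (fun i => mul_le_mul_of_nonneg_right hc (hy i).le) fun _ => le_rfl
  have cQ := QQ_contr hx hy hx₀ hy₀ h hx' hy' hx₀' hy₀' h' cx1 cy1 cx₀ cy₀
  set w : ι → ℂ := fun i => (wopt (x i) (y i) (x₀ i) (y₀ i) : ℂ) * z i with hw
  have a1 := cx (z + w)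
  have a2 := cx₀ (z + w)
  have a3 := cy (z - w)
  have a4 := cy₀ (z - w)
  have a5 := cQ w
  rw [mulVec_add] at a1 a2
  rw [mulVec_sub] at a3 a4
  simp only [Pi.add_apply, Pi.sub_apply, one_mul] at a1 a2 a3 a4 a5
  have b1 : 4 * ∑ j, JJ (x' j) (y' j) (x₀' j) (y₀' j) * ‖(T *ᵥ z) j‖ ^ 2
      ≤ ∑ j, x' j * ‖(T *ᵥ z) j + (T *ᵥ w) j‖ ^ 2 + ∑ j, x₀' j * ‖(T *ᵥ z) j + (T *ᵥ w) j‖ ^ 2
        + ∑ j, y' j * ‖(T *ᵥ z) j - (T *ᵥ w) j‖ ^ 2 + ∑ j, y₀' j * ‖(T *ᵥ z) j - (T *ᵥ w) j‖ ^ 2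
        + 2 * ∑ j, QQ (x' j) (y' j) (x₀' j) (y₀' j) * ‖(T *ᵥ w) j‖ ^ 2 := by
    simp only [Finset.mul_sum, ← Finset.sum_add_distrib]
    refine Finset.sum_le_sum fun j _ => ?_
    have := le_pencil (hx' j) (hy' j) (hx₀' j) (hy₀' j) (h' j) ((T *ᵥ z) j) ((T *ᵥ w) j)
    unfold pencil at this
    linarith
  have b2 : 4 * ∑ i, JJ (x i) (y i) (x₀ i) (y₀ i) * ‖z i‖ ^ 2
      = ∑ i, x i * ‖z i + w i‖ ^ 2 + ∑ i, x₀ i * ‖z i + w i‖ ^ 2
        + ∑ i, y i * ‖z i - w i‖ ^ 2 + ∑ i, y₀ i * ‖z i - w i‖ ^ 2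
        + 2 * ∑ i, QQ (x i) (y i) (x₀ i) (y₀ i) * ‖w i‖ ^ 2 := by
    simp only [Finset.mul_sum, ← Finset.sum_add_distrib]
    refine Finset.sum_congr rfl fun i _ => ?_
    have := pencil_opt (hx i) (hy i) (hx₀ i) (hy₀ i) (h i) (z i)
    unfold pencil at this
    simp only [hw]
    linarith
  have b3 : ∑ i, (x i * (1 + wopt (x i) (y i) (x₀ i) (y₀ i)) ^ 2
          + y i * (1 - wopt (x i) (y i) (x₀ i) (y₀ i)) ^ 2) * ‖z i‖ ^ 2
      = ∑ i, x i * ‖z i + w i‖ ^ 2 + ∑ i, y i * ‖z i - w i‖ ^ 2 := by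
    simp only [← Finset.sum_add_distrib]
    refine Finset.sum_congr rfl fun i _ => ?_
    have e1 : z i + w i = ((1 + wopt (x i) (y i) (x₀ i) (y₀ i) : ℝ) : ℂ) * z i := by
      simp only [hw]; push_cast; ring
    have e2 : z i - w i = ((1 - wopt (x i) (y i) (x₀ i) (y₀ i) : ℝ) : ℂ) * z i := by
      simp only [hw]; push_cast; ring
    rw [e1, e2, norm_mul, norm_mul, mul_pow, mul_pow, Complex.norm_real, Complex.norm_real,
      Real.norm_eq_abs, Real.norm_eq_abs, sq_abs, sq_abs]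
    ring
  rw [b2, b3]
  linarith

/-- **(*)**: the form `J` contracts. -/
theorem JJ_contr {ι κ : Type} [Fintype ι] [Fintype κ] {T : Matrix κ ι ℂ}
    {x y x₀ y₀ : ι → ℝ} {x' y' x₀' y₀' : κ → ℝ}
    (hx : ∀ i, 0 < x i) (hy : ∀ i, 0 < y i) (hx₀ : ∀ i, 0 < x₀ i) (hy₀ : ∀ i, 0 < y₀ i)
    (h : ∀ i, LM (x₀ i) (y₀ i) = LM (x i) (y i))
    (hx' : ∀ j, 0 < x' j) (hy' : ∀ j, 0 < y' j) (hx₀' : ∀ j, 0 < x₀' j) (hy₀' : ∀ j, 0 < y₀' j)
    (h' : ∀ j, LM (x₀' j) (y₀' j) = LM (x' j) (y' j))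
    (cx : Contr T x x' 1) (cy : Contr T y y' 1) (cx₀ : Contr T x₀ x₀' 1) (cy₀ : Contr T y₀ y₀' 1) :
    Contr T (fun i => JJ (x i) (y i) (x₀ i) (y₀ i)) (fun j => JJ (x' j) (y' j) (x₀' j) (y₀' j)) 1 := by
  intro z
  have := JJ_slack le_rfl hx hy hx₀ hy₀ h hx' hy' hx₀' hy₀' h' cx cy cx₀ cy₀ z
  linarith

/-- The thermal pair `x₀ = (N+1) b t`, `y₀ = N b t`, `b = log (1 + 1/N)`, has logarithmic mean `t`. -/
theorem LM_thermal {N t : ℝ} (hN : 0 < N) (ht : 0 < t) :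
    LM ((N + 1) * Real.log (1 + 1 / N) * t) (N * Real.log (1 + 1 / N) * t) = t := by
  have hb : 0 < Real.log (1 + 1 / N) := Real.log_pos (by have : 0 < 1 / N := by positivity
                                                         linarith)
  have e : Real.log (N + 1) - Real.log N = Real.log (1 + 1 / N) := by
    rw [← Real.log_div (by positivity) hN.ne']; congr 1; field_simp
  rw [mul_assoc, mul_assoc, mul_comm (N + 1), mul_comm N, LM_mul (by positivity) (by positivity) hN,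
    LM_of_ne (by linarith), e, add_sub_cancel_left]
  generalize Real.log (1 + 1 / N) = b at hb
  field_simp

/-- For the thermal pair, `JJ = b * LM (N x) ((N+1) y)`. -/
theorem JJ_thermal {N x y : ℝ} (hN : 0 < N) (hx : 0 < x) (hy : 0 < y) :
    JJ x y ((N + 1) * Real.log (1 + 1 / N) * LM x y) (N * Real.log (1 + 1 / N) * LM x y)
      = Real.log (1 + 1 / N) * LM (N * x) ((N + 1) * y) := by
  have hb : 0 < Real.log (1 + 1 / N) := Real.log_pos (by have : 0 < 1 / N := by positivity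
                                                         linarith)
  have ht := LM_pos hx hy
  unfold JJ
  have e1 : N * Real.log (1 + 1 / N) * LM x y * x = (Real.log (1 + 1 / N) * LM x y) * (N * x) := by
    ring
  have e2 : (N + 1) * Real.log (1 + 1 / N) * LM x y * y
      = (Real.log (1 + 1 / N) * LM x y) * ((N + 1) * y) := by ring
  rw [e1, e2, LM_mul (by positivity) (by positivity) (by positivity)]
  field_simp

end Crest.Agent.R331.Bt
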