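import Mathlib

/-!
# Row 331: abstract contraction calculus

`Contr T f g c` says that the diagonal form `g` pulled back by `T` is bounded by `c` times the
diagonal form `f`.  The class of contracting pairs is closed under sums, integrals, duality and
parallel integrals.
-/

set_option autoImplicit false

namespace Crest.Agent.R331.Bt

open Matrix MeasureTheory

/-- The form `g` on the target, pulled back along `T`, is at most `c` times the form `f`. -/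
def Contr {ι κ : Type*} [Fintype ι] [Fintype κ] (T : Matrix κ ι ℂ) (f : ι → ℝ) (g : κ → ℝ)
    (c : ℝ) : Prop :=
  ∀ z : ι → ℂ, ∑ j, g j * ‖(T *ᵥ z) j‖ ^ 2 ≤ c * ∑ i, f i * ‖z i‖ ^ 2

variable {ι κ : Type*} [Fintype ι] [Fintype κ] {T : Matrix κ ι ℂ}

theorem Contr.congr {f f' : ι → ℝ} {g g' : κ → ℝ} {c : ℝ} (h : Contr T f g c)
    (hf : ∀ i, f i = f' i) (hg : ∀ j, g j = g' j) : Contr T f' g' c := by
  have e1 : f = f' := funext hf
  have e2 : g = g' := funext hg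
  rw [← e1, ← e2]; exact h

/-- General comparison: shrink the target form, enlarge `c * f`. -/
theorem Contr.mono {f f' : ι → ℝ} {g g' : κ → ℝ} {c c' : ℝ} (h : Contr T f g c)
    (hf : ∀ i, c * f i ≤ c' * f' i) (hg : ∀ j, g' j ≤ g j) : Contr T f' g' c' := by
  intro z
  calc ∑ j, g' j * ‖(T *ᵥ z) j‖ ^ 2 ≤ ∑ j, g j * ‖(T *ᵥ z) j‖ ^ 2 :=
        Finset.sum_le_sum fun j _ => mul_le_mul_of_nonneg_right (hg j) (by positivity)
    _ ≤ c * ∑ i, f i * ‖z i‖ ^ 2 := h z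
    _ ≤ c' * ∑ i, f' i * ‖z i‖ ^ 2 := by
        rw [Finset.mul_sum, Finset.mul_sum]
        refine Finset.sum_le_sum fun i _ => ?_
        rw [← mul_assoc, ← mul_assoc]
        exact mul_le_mul_of_nonneg_right (hf i) (by positivity)

/-- Sum of two contracting pairs with different factors. -/
theorem Contr.add' {f₁ f₂ : ι → ℝ} {g₁ g₂ : κ → ℝ} {c₁ c₂ : ℝ} (h₁ : Contr T f₁ g₁ c₁)
    (h₂ : Contr T f₂ g₂ c₂) :
    Contr T (fun i => c₁ * f₁ i + c₂ * f₂ i) (fun j => g₁ j + g₂ j) 1 := by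
  intro z
  have a := h₁ z
  have b := h₂ z
  simp only [add_mul, Finset.sum_add_distrib, one_mul, mul_assoc, ← Finset.mul_sum]
  linarith

theorem Contr.add {f₁ f₂ : ι → ℝ} {g₁ g₂ : κ → ℝ} {c : ℝ} (h₁ : Contr T f₁ g₁ c)
    (h₂ : Contr T f₂ g₂ c) :
    Contr T (fun i => f₁ i + f₂ i) (fun j => g₁ j + g₂ j) c := by
  intro z
  have a := h₁ z
  have b := h₂ z
  simp only [add_mul, Finset.sum_add_distrib, mul_add]
  linarith

theorem Contr.smul {f : ι → ℝ} {g : κ → ℝ} {c r : ℝ} (h : Contr T f g c) (hr : 0 ≤ r) :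
    Contr T (fun i => r * f i) (fun j => r * g j) c := by
  intro z
  have a := mul_le_mul_of_nonneg_left (h z) hr
  simp only [mul_assoc, ← Finset.mul_sum]
  calc r * ∑ j, g j * ‖(T *ᵥ z) j‖ ^ 2 ≤ r * (c * ∑ i, f i * ‖z i‖ ^ 2) := a
    _ = _ := by ring

theorem Contr.convex {f₁ f₂ : ι → ℝ} {g₁ g₂ : κ → ℝ} {c τ : ℝ} (h₁ : Contr T f₁ g₁ c)
    (h₂ : Contr T f₂ g₂ c) (h0 : 0 ≤ τ) (h1 : τ ≤ 1) :
    Contr T (fun i => τ * f₁ i + (1 - τ) * f₂ i) (fun j => τ * g₁ j + (1 - τ) * g₂ j) c :=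
  (h₁.smul h0).add (h₂.smul (sub_nonneg.2 h1))

/-- Duality. -/
theorem Contr.dual {f : ι → ℝ} {g : κ → ℝ} {c : ℝ} (h : Contr T f g c) (hc : 0 < c)
    (hf : ∀ i, 0 < f i) (hg : ∀ j, 0 < g j) :
    Contr Tᴴ (fun j => (g j)⁻¹) (fun i => (f i)⁻¹) c := by
  intro w
  set v : ι → ℂ := Tᴴ *ᵥ w with hv
  set z : ι → ℂ := fun i => (((f i)⁻¹ : ℝ) : ℂ) * v i with hz
  set S : ℝ := ∑ i, (f i)⁻¹ * ‖v i‖ ^ 2 with hS
  have h1 : ∑ i, f i * ‖z i‖ ^ 2 = S := by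
    refine Finset.sum_congr rfl fun i _ => ?_
    have := hf i
    simp only [hz, norm_mul, Complex.norm_real, Real.norm_eq_abs, mul_pow, sq_abs]
    field_simp
  have h2 : (S : ℂ) = star v ⬝ᵥ z := by
    simp only [hS, dotProduct, hz, Pi.star_apply, Complex.ofReal_sum]
    refine Finset.sum_congr rfl fun i _ => ?_
    have e : star (v i) * v i = ((‖v i‖ ^ 2 : ℝ) : ℂ) := by
      rw [Complex.star_def, Complex.conj_mul']; push_cast; ring
    rw [mul_left_comm, e]; push_cast; ring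
  have h3 : star v ⬝ᵥ z = star w ⬝ᵥ (T *ᵥ z) := by
    rw [hv, star_mulVec, conjTranspose_conjTranspose, dotProduct_mulVec]
  have h4 : S ≤ ∑ j, ‖w j‖ * ‖(T *ᵥ z) j‖ := by
    have : S = (star w ⬝ᵥ (T *ᵥ z)).re := by rw [← h3, ← h2]; simp
    rw [this]
    refine (Complex.re_le_norm _).trans ?_
    simp only [dotProduct]
    refine (norm_sum_le _ _).trans (le_of_eq ?_)
    refine Finset.sum_congr rfl fun j _ => ?_
    simp
  have h5 : 2 * ∑ j, ‖w j‖ * ‖(T *ᵥ z) j‖ ≤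
      c * ∑ j, (g j)⁻¹ * ‖w j‖ ^ 2 + c⁻¹ * ∑ j, g j * ‖(T *ᵥ z) j‖ ^ 2 := by
    simp only [Finset.mul_sum, ← Finset.sum_add_distrib]
    refine Finset.sum_le_sum fun j _ => ?_
    have hgj := hg j
    have e : c * ((g j)⁻¹ * ‖w j‖ ^ 2) + c⁻¹ * (g j * ‖(T *ᵥ z) j‖ ^ 2)
        - 2 * (‖w j‖ * ‖(T *ᵥ z) j‖)
        = (c * ‖w j‖ - g j * ‖(T *ᵥ z) j‖) ^ 2 / (c * g j) := by
      field_simp; ring
    have : 0 ≤ (c * ‖w j‖ - g j * ‖(T *ᵥ z) j‖) ^ 2 / (c * g j) := by positivity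
    linarith
  have h6 : c⁻¹ * ∑ j, g j * ‖(T *ᵥ z) j‖ ^ 2 ≤ S := by
    have := h z
    rw [h1] at this
    calc c⁻¹ * ∑ j, g j * ‖(T *ᵥ z) j‖ ^ 2 ≤ c⁻¹ * (c * S) :=
          mul_le_mul_of_nonneg_left this (by positivity)
      _ = S := by field_simp
  linarith

/-- Duality, second direction. -/
theorem Contr.of_dual {f : ι → ℝ} {g : κ → ℝ} {c : ℝ}
    (h : Contr Tᴴ (fun j => (g j)⁻¹) (fun i => (f i)⁻¹) c) (hc : 0 < c)
    (hf : ∀ i, 0 < f i) (hg : ∀ j, 0 < g j) : Contr T f g c := by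
  have := h.dual hc (fun j => inv_pos.2 (hg j)) (fun i => inv_pos.2 (hf i))
  rw [conjTranspose_conjTranspose] at this
  exact this.congr (fun i => inv_inv _) (fun j => inv_inv _)

/-- Integrals of contracting pairs contract. -/
theorem Contr.integral {f : ι → ℝ → ℝ} {g : κ → ℝ → ℝ} {c : ℝ}
    (h : ∀ τ ∈ Set.Icc (0 : ℝ) 1, Contr T (fun i => f i τ) (fun j => g j τ) c)
    (hf : ∀ i, IntervalIntegrable (f i) volume 0 1)
    (hg : ∀ j, IntervalIntegrable (g j) volume 0 1) :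
    Contr T (fun i => ∫ τ in (0 : ℝ)..1, f i τ) (fun j => ∫ τ in (0 : ℝ)..1, g j τ) c := by
  intro z
  have e1 : ∑ j, (∫ τ in (0 : ℝ)..1, g j τ) * ‖(T *ᵥ z) j‖ ^ 2
      = ∫ τ in (0 : ℝ)..1, ∑ j, g j τ * ‖(T *ᵥ z) j‖ ^ 2 := by
    rw [intervalIntegral.integral_finsetSum fun j _ => (hg j).mul_const _]
    simp only [intervalIntegral.integral_mul_const]
  have e2 : c * ∑ i, (∫ τ in (0 : ℝ)..1, f i τ) * ‖z i‖ ^ 2
      = ∫ τ in (0 : ℝ)..1, c * ∑ i, f i τ * ‖z i‖ ^ 2 := by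
    rw [intervalIntegral.integral_const_mul,
      intervalIntegral.integral_finsetSum fun i _ => (hf i).mul_const _]
    simp only [intervalIntegral.integral_mul_const]
  rw [e1, e2]
  refine intervalIntegral.integral_mono_on zero_le_one ?_ ?_ fun τ hτ => h τ hτ z
  · have := IntervalIntegrable.sum (μ := volume) (a := 0) (b := 1) Finset.univ
      (f := fun j τ => g j τ * ‖(T *ᵥ z) j‖ ^ 2) fun j _ => (hg j).mul_const _
    refine (intervalIntegrable_congr ?_).1 this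
    intro τ _; simp
  · have := IntervalIntegrable.sum (μ := volume) (a := 0) (b := 1) Finset.univ
      (f := fun i τ => f i τ * ‖z i‖ ^ 2) fun i _ => (hf i).mul_const _
    refine IntervalIntegrable.const_mul ?_ c
    refine (intervalIntegrable_congr ?_).1 this
    intro τ _; simp

/-- Parallel integrals of contracting pairs contract. -/
theorem Contr.parallel {f : ι → ℝ → ℝ} {g : κ → ℝ → ℝ} {F : ι → ℝ} {G : κ → ℝ} {c : ℝ}
    (hc : 0 < c)
    (h : ∀ τ ∈ Set.Icc (0 : ℝ) 1, Contr T (fun i => f i τ) (fun j => g j τ) c)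
    (hfp : ∀ τ ∈ Set.Icc (0 : ℝ) 1, ∀ i, 0 < f i τ) (hgp : ∀ τ ∈ Set.Icc (0 : ℝ) 1, ∀ j, 0 < g j τ)
    (hf : ∀ i, IntervalIntegrable (fun τ => (f i τ)⁻¹) volume 0 1)
    (hg : ∀ j, IntervalIntegrable (fun τ => (g j τ)⁻¹) volume 0 1)
    (hF : ∀ i, 0 < F i) (hG : ∀ j, 0 < G j)
    (eF : ∀ i, (F i)⁻¹ = ∫ τ in (0 : ℝ)..1, (f i τ)⁻¹)
    (eG : ∀ j, (G j)⁻¹ = ∫ τ in (0 : ℝ)..1, (g j τ)⁻¹) : Contr T F G c := by
  refine Contr.of_dual ?_ hc hF hG
  have := Contr.integral (T := Tᴴ) (f := fun j τ => (g j τ)⁻¹) (g := fun i τ => (f i τ)⁻¹)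
    (c := c) (fun τ hτ => (h τ hτ).dual hc (hfp τ hτ) (hgp τ hτ)) hg hf
  exact this.congr (fun j => (eG j).symm) (fun i => (eF i).symm)

/-- Passing to the limit in the factor. -/
theorem Contr.of_forall_gt {f : ι → ℝ} {g : κ → ℝ} {c : ℝ}
    (h : ∀ ε > 0, Contr T f g (c + ε)) : Contr T f g c := by
  intro z
  have ht : Filter.Tendsto (fun ε : ℝ => (c + ε) * ∑ i, f i * ‖z i‖ ^ 2) (nhdsWithin 0 (Set.Ioi 0))
      (nhds ((c + 0) * ∑ i, f i * ‖z i‖ ^ 2)) := by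
    refine Filter.Tendsto.mono_left ?_ nhdsWithin_le_nhds
    exact (by fun_prop : Continuous fun ε : ℝ => (c + ε) * ∑ i, f i * ‖z i‖ ^ 2).tendsto 0
  rw [add_zero] at ht
  exact ge_of_tendsto ht (eventually_nhdsWithin_of_forall fun ε hε => h ε hε z)

end Crest.Agent.R331.Bt
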