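import Mathlib

/-!
Row 331, certificate part 1: the calculus of contracting diagonal forms.
`Contracts T f g k` says `∑ g |T z|² ≤ k ∑ f |z|²`.
-/

set_option autoImplicit false

namespace Crest.Agent.R331

open Matrix MeasureTheory
open scoped ComplexConjugate

/-- The diagonal form `g` of `T z` is at most `k` times the diagonal form `f` of `z`. -/
def Contracts {I J : Type} [Fintype I] [Fintype J] (T : Matrix J I ℂ) (f : I → ℝ) (g : J → ℝ)
    (k : ℝ) : Prop :=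
  ∀ z : I → ℂ, ∑ j, g j * ‖(T *ᵥ z) j‖ ^ 2 ≤ k * ∑ i, f i * ‖z i‖ ^ 2

variable {I J : Type} [Fintype I] [Fintype J] {T : Matrix J I ℂ}

theorem Contracts.congr {f f' : I → ℝ} {g g' : J → ℝ} {k : ℝ} (h : Contracts T f g k)
    (hf : ∀ i, f i = f' i) (hg : ∀ j, g j = g' j) : Contracts T f' g' k := by
  have e1 : f = f' := funext hf
  have e2 : g = g' := funext hg
  subst e1 e2
  exact h

theorem Contracts.mono {f f' : I → ℝ} {g g' : J → ℝ} {k k' : ℝ} (h : Contracts T f g k)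
    (hf : ∀ i, k * f i ≤ k' * f' i) (hg : ∀ j, g' j ≤ g j) : Contracts T f' g' k' := by
  intro z
  calc ∑ j, g' j * ‖(T *ᵥ z) j‖ ^ 2 ≤ ∑ j, g j * ‖(T *ᵥ z) j‖ ^ 2 :=
        Finset.sum_le_sum fun j _ => mul_le_mul_of_nonneg_right (hg j) (by positivity)
    _ ≤ k * ∑ i, f i * ‖z i‖ ^ 2 := h z
    _ = ∑ i, (k * f i) * ‖z i‖ ^ 2 := by rw [Finset.mul_sum]; simp only [mul_assoc]
    _ ≤ ∑ i, (k' * f' i) * ‖z i‖ ^ 2 :=
        Finset.sum_le_sum fun i _ => mul_le_mul_of_nonneg_right (hf i) (by positivity)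
    _ = k' * ∑ i, f' i * ‖z i‖ ^ 2 := by rw [Finset.mul_sum]; simp only [mul_assoc]

/-- Sum of two contracting forms with possibly different factors, factors absorbed in the source. -/
theorem Contracts.add' {f f' : I → ℝ} {g g' : J → ℝ} {k k' : ℝ} (h : Contracts T f g k)
    (h' : Contracts T f' g' k') :
    Contracts T (fun i => k * f i + k' * f' i) (fun j => g j + g' j) 1 := by
  intro z
  have e1 : ∑ j, (g j + g' j) * ‖(T *ᵥ z) j‖ ^ 2
      = ∑ j, g j * ‖(T *ᵥ z) j‖ ^ 2 + ∑ j, g' j * ‖(T *ᵥ z) j‖ ^ 2 := by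
    rw [← Finset.sum_add_distrib]; simp only [add_mul]
  have e2 : ∑ i, (k * f i + k' * f' i) * ‖z i‖ ^ 2
      = k * ∑ i, f i * ‖z i‖ ^ 2 + k' * ∑ i, f' i * ‖z i‖ ^ 2 := by
    rw [Finset.mul_sum, Finset.mul_sum, ← Finset.sum_add_distrib]
    exact Finset.sum_congr rfl fun i _ => by ring
  rw [e1, e2, one_mul]
  exact add_le_add (h z) (h' z)

theorem Contracts.add {f f' : I → ℝ} {g g' : J → ℝ} {k : ℝ} (h : Contracts T f g k)
    (h' : Contracts T f' g' k) :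
    Contracts T (fun i => f i + f' i) (fun j => g j + g' j) k :=
  (h.add' h').mono (fun i => le_of_eq (by ring)) (fun _ => le_rfl)

theorem Contracts.smul {f : I → ℝ} {g : J → ℝ} {k : ℝ} (h : Contracts T f g k) {c : ℝ}
    (hc : 0 ≤ c) : Contracts T (fun i => c * f i) (fun j => c * g j) k := by
  intro z
  have e1 : ∑ j, (c * g j) * ‖(T *ᵥ z) j‖ ^ 2 = c * ∑ j, g j * ‖(T *ᵥ z) j‖ ^ 2 := by
    rw [Finset.mul_sum]; simp only [mul_assoc]
  have e2 : ∑ i, (c * f i) * ‖z i‖ ^ 2 = c * ∑ i, f i * ‖z i‖ ^ 2 := by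
    rw [Finset.mul_sum]; simp only [mul_assoc]
  rw [e1, e2]
  have := mul_le_mul_of_nonneg_left (h z) hc
  linarith

theorem Contracts.comb {f f' : I → ℝ} {g g' : J → ℝ} {k : ℝ} (h : Contracts T f g k)
    (h' : Contracts T f' g' k) {c c' : ℝ} (hc : 0 ≤ c) (hc' : 0 ≤ c') :
    Contracts T (fun i => c * f i + c' * f' i) (fun j => c * g j + c' * g' j) k :=
  (h.smul hc).add (h'.smul hc')

/-- Duality: `f` contracts for `T` iff `1/f` contracts for the adjoint. -/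
theorem Contracts.dual {f : I → ℝ} {g : J → ℝ} {k : ℝ} (h : Contracts T f g k) (hk : 0 < k)
    (hf : ∀ i, 0 < f i) (hg : ∀ j, 0 < g j) :
    Contracts Tᴴ (fun j => (g j)⁻¹) (fun i => (f i)⁻¹) k := by
  intro w
  set v : I → ℂ := Tᴴ *ᵥ w with hv
  set z : I → ℂ := fun i => ((f i)⁻¹ : ℝ) * v i with hz
  set S : ℝ := ∑ i, (f i)⁻¹ * ‖v i‖ ^ 2 with hS
  have hS1 : ∑ i, f i * ‖z i‖ ^ 2 = S := by
    refine Finset.sum_congr rfl fun i _ => ?_
    have := hf i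
    simp only [hz, norm_mul, Complex.norm_real, Real.norm_eq_abs, abs_of_pos (inv_pos.2 this)]
    field_simp
  have hS2 : (S : ℂ) = ∑ j, conj ((T *ᵥ z) j) * w j := by
    have : ∑ j, conj ((T *ᵥ z) j) * w j = ∑ i, conj (z i) * v i := by
      simp only [hv, mulVec, dotProduct, conjTranspose_apply, map_sum, map_mul, Finset.sum_mul,
        Finset.mul_sum, RCLike.star_def]
      rw [Finset.sum_comm]
      exact Finset.sum_congr rfl fun i _ => Finset.sum_congr rfl fun j _ => by ring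
    rw [this, hS]
    push_cast
    refine Finset.sum_congr rfl fun i _ => ?_
    simp only [hz, map_mul, Complex.conj_ofReal]
    rw [mul_assoc, Complex.conj_mul']
    push_cast
    ring
  have hS3 : S ≤ ∑ j, ‖(T *ᵥ z) j‖ * ‖w j‖ := by
    calc S ≤ ‖(S : ℂ)‖ := by rw [Complex.norm_real]; exact le_abs_self S
      _ ≤ ∑ j, ‖conj ((T *ᵥ z) j) * w j‖ := by rw [hS2]; exact norm_sum_le _ _
      _ = ∑ j, ‖(T *ᵥ z) j‖ * ‖w j‖ := by simp only [norm_mul, Complex.norm_conj]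
  have hS4 : 2 * ∑ j, ‖(T *ᵥ z) j‖ * ‖w j‖
      ≤ k⁻¹ * ∑ j, g j * ‖(T *ᵥ z) j‖ ^ 2 + k * ∑ j, (g j)⁻¹ * ‖w j‖ ^ 2 := by
    rw [Finset.mul_sum, Finset.mul_sum, Finset.mul_sum, ← Finset.sum_add_distrib]
    refine Finset.sum_le_sum fun j _ => ?_
    have hgj := hg j
    set a := ‖(T *ᵥ z) j‖
    set b := ‖w j‖
    have hc : 0 < g j / k := div_pos hgj hk
    have key : 0 ≤ (g j / k)⁻¹ * (g j / k * a - b) ^ 2 := by positivity
    have e : (g j / k)⁻¹ * (g j / k * a - b) ^ 2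
        = k⁻¹ * (g j * a ^ 2) + k * ((g j)⁻¹ * b ^ 2) - 2 * (a * b) := by
      field_simp
      ring
    linarith
  have h5 : k⁻¹ * ∑ j, g j * ‖(T *ᵥ z) j‖ ^ 2 ≤ S := by
    have := h z
    rw [hS1] at this
    calc k⁻¹ * ∑ j, g j * ‖(T *ᵥ z) j‖ ^ 2 ≤ k⁻¹ * (k * S) :=
          mul_le_mul_of_nonneg_left this (inv_pos.2 hk).le
      _ = S := by field_simp
  linarith

theorem Contracts.of_dual {f : I → ℝ} {g : J → ℝ} {k : ℝ}
    (h : Contracts Tᴴ g f k) (hk : 0 < k) (hf : ∀ i, 0 < f i) (hg : ∀ j, 0 < g j) :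
    Contracts T (fun i => (f i)⁻¹) (fun j => (g j)⁻¹) k := by
  simpa only [conjTranspose_conjTranspose] using h.dual hk hg hf

/-- Integrals of contracting forms contract. -/
theorem Contracts.integral {f : ℝ → I → ℝ} {g : ℝ → J → ℝ} {k : ℝ}
    (h : ∀ τ ∈ Set.Icc (0 : ℝ) 1, Contracts T (f τ) (g τ) k)
    (hf : ∀ i, IntervalIntegrable (fun τ => f τ i) volume 0 1)
    (hg : ∀ j, IntervalIntegrable (fun τ => g τ j) volume 0 1) :
    Contracts T (fun i => ∫ τ in (0 : ℝ)..1, f τ i) (fun j => ∫ τ in (0 : ℝ)..1, g τ j) k := by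
  intro z
  have e1 : ∑ j, (∫ τ in (0 : ℝ)..1, g τ j) * ‖(T *ᵥ z) j‖ ^ 2
      = ∫ τ in (0 : ℝ)..1, ∑ j, g τ j * ‖(T *ᵥ z) j‖ ^ 2 := by
    rw [intervalIntegral.integral_finsetSum fun j _ => (hg j).mul_const _]
    exact Finset.sum_congr rfl fun j _ => (intervalIntegral.integral_mul_const _ _).symm
  have e2 : k * ∑ i, (∫ τ in (0 : ℝ)..1, f τ i) * ‖z i‖ ^ 2
      = ∫ τ in (0 : ℝ)..1, k * ∑ i, f τ i * ‖z i‖ ^ 2 := by
    rw [intervalIntegral.integral_const_mul,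
      intervalIntegral.integral_finsetSum fun i _ => (hf i).mul_const _]
    congr 1
    exact Finset.sum_congr rfl fun j _ => (intervalIntegral.integral_mul_const _ _).symm
  rw [e1, e2]
  refine intervalIntegral.integral_mono_on zero_le_one ?_ ?_ fun τ hτ => h τ hτ z
  · have := IntervalIntegrable.sum (μ := volume) (a := (0 : ℝ)) (b := 1) Finset.univ
      (f := fun j τ => g τ j * ‖(T *ᵥ z) j‖ ^ 2) fun j _ => (hg j).mul_const _
    refine this.congr fun τ _ => ?_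
    simp only [Finset.sum_apply]
  · have := IntervalIntegrable.sum (μ := volume) (a := (0 : ℝ)) (b := 1) Finset.univ
      (f := fun i τ => f τ i * ‖z i‖ ^ 2) fun i _ => (hf i).mul_const _
    refine (this.const_mul k).congr fun τ _ => ?_
    simp only [Finset.sum_apply]

theorem integral_pos_of_pos {φ : ℝ → ℝ} (hφ : IntervalIntegrable φ volume 0 1)
    (hp : ∀ τ ∈ Set.Icc (0 : ℝ) 1, 0 < φ τ) : 0 < ∫ τ in (0 : ℝ)..1, φ τ :=
  intervalIntegral.intervalIntegral_pos_of_pos_on hφ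
    (fun τ hτ => hp τ ⟨hτ.1.le, hτ.2.le⟩) zero_lt_one

/-- Parallel integrals of contracting forms contract. -/
theorem Contracts.parallel {f : ℝ → I → ℝ} {g : ℝ → J → ℝ} {k : ℝ} (hk : 0 < k)
    (h : ∀ τ ∈ Set.Icc (0 : ℝ) 1, Contracts T (f τ) (g τ) k)
    (hf0 : ∀ τ ∈ Set.Icc (0 : ℝ) 1, ∀ i, 0 < f τ i) (hg0 : ∀ τ ∈ Set.Icc (0 : ℝ) 1, ∀ j, 0 < g τ j)
    (hf : ∀ i, IntervalIntegrable (fun τ => (f τ i)⁻¹) volume 0 1)
    (hg : ∀ j, IntervalIntegrable (fun τ => (g τ j)⁻¹) volume 0 1) :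
    Contracts T (fun i => (∫ τ in (0 : ℝ)..1, (f τ i)⁻¹)⁻¹)
      (fun j => (∫ τ in (0 : ℝ)..1, (g τ j)⁻¹)⁻¹) k := by
  have h1 : Contracts Tᴴ (fun j => ∫ τ in (0 : ℝ)..1, (g τ j)⁻¹)
      (fun i => ∫ τ in (0 : ℝ)..1, (f τ i)⁻¹) k :=
    Contracts.integral (f := fun τ j => (g τ j)⁻¹) (g := fun τ i => (f τ i)⁻¹)
      (fun τ hτ => (h τ hτ).dual hk (hf0 τ hτ) (hg0 τ hτ)) hg hf
  exact h1.of_dual hk
    (fun i => integral_pos_of_pos (hf i) fun τ hτ => inv_pos.2 (hf0 τ hτ i))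
    (fun j => integral_pos_of_pos (hg j) fun τ hτ => inv_pos.2 (hg0 τ hτ j))

/-- A limit of factors. -/
theorem Contracts.of_forall_lt {f : I → ℝ} {g : J → ℝ} {k : ℝ}
    (h : ∀ k', k < k' → Contracts T f g k') : Contracts T f g k := by
  intro z
  have hc : ContinuousWithinAt (fun k' : ℝ => k' * ∑ i, f i * ‖z i‖ ^ 2) (Set.Ioi k) k :=
    (continuous_id.mul continuous_const).continuousWithinAt
  exact ge_of_tendsto hc (eventually_nhdsWithin_of_forall fun k' hk' => h k' hk' z)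

end Crest.Agent.R331
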