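import Crest.Agent.R331.CertScalar

/-!
Row 331: the logarithmic mean `LM x y = ∫₀¹ x^s y^(1-s) ds` and its closed forms.
-/

set_option autoImplicit false

namespace Crest.Agent.R331

open Set MeasureTheory

/-- The logarithmic mean. -/
noncomputable def LM (x y : ℝ) : ℝ := ∫ s in (0 : ℝ)..1, x ^ s * y ^ (1 - s)

theorem integral_exp_mul_eq (w : ℝ) :
    ∫ s in (0 : ℝ)..1, Real.exp (s * w) = Real.exp (w / 2) * shc (w / 2) := by
  by_cases hw : w = 0
  · subst hw; simp [shc_zero]
  · have hd : ∀ s ∈ uIcc (0 : ℝ) 1, HasDerivAt (fun s => Real.exp (s * w) / w)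
        (Real.exp (s * w)) s := by
      intro s _
      have := (((hasDerivAt_id s).mul_const w).exp).div_const w
      exact this.congr_deriv (by simp only [id]; field_simp)
    rw [intervalIntegral.integral_eq_sub_of_hasDerivAt hd
      (Continuous.intervalIntegrable (by fun_prop) _ _), shc_of_ne (by simpa using hw),
      Real.sinh_eq]
    have h1 : Real.exp w = Real.exp (w / 2) * Real.exp (w / 2) := by
      rw [← Real.exp_add]; congr 1; ring
    have h2 : Real.exp (w / 2) * Real.exp (-(w / 2)) = 1 := by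
      rw [← Real.exp_add]; simp
    simp only [one_mul, zero_mul, Real.exp_zero]
    rw [h1]
    field_simp
    linear_combination h2

/-- Half the logarithmic ratio. -/
noncomputable def hlr (x y : ℝ) : ℝ := (Real.log x - Real.log y) / 2

theorem eq_mul_exp_hlr {x y : ℝ} (hx : 0 < x) (hy : 0 < y) :
    x = y * (Real.exp (hlr x y) * Real.exp (hlr x y)) := by
  rw [← Real.exp_add, hlr, add_halves, Real.exp_sub, Real.exp_log hx, Real.exp_log hy]
  field_simp

theorem LM_eq {x y : ℝ} (hx : 0 < x) (hy : 0 < y) :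
    LM x y = y * Real.exp (hlr x y) * shc (hlr x y) := by
  have : (fun s : ℝ => x ^ s * y ^ (1 - s))
      = fun s => y * Real.exp (s * (Real.log x - Real.log y)) := by
    funext s
    rw [Real.rpow_def_of_pos hx, Real.rpow_def_of_pos hy, ← Real.exp_add]
    conv_rhs => rw [← Real.exp_log hy, ← Real.exp_add, Real.exp_log hy]
    congr 1
    ring
  rw [LM, this, intervalIntegral.integral_const_mul, integral_exp_mul_eq, mul_assoc]
  rfl

theorem LM_pos {x y : ℝ} (hx : 0 < x) (hy : 0 < y) : 0 < LM x y := by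
  rw [LM_eq hx hy]
  exact mul_pos (mul_pos hy (Real.exp_pos _)) (shc_pos _)

theorem LM_self {x : ℝ} (hx : 0 < x) : LM x x = x := by
  rw [LM_eq hx hx]; simp [hlr, shc_zero]

theorem LM_mul_log {x y : ℝ} (hx : 0 < x) (hy : 0 < y) :
    LM x y * (Real.log x - Real.log y) = x - y := by
  have e : Real.log x - Real.log y = 2 * hlr x y := by rw [hlr]; ring
  have hxe := eq_mul_exp_hlr hx hy
  rw [LM_eq hx hy, e]
  by_cases h : hlr x y = 0
  · rw [h] at hxe ⊢
    simp only [Real.exp_zero, mul_one] at hxe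
    simp [hxe]
  · rw [shc_of_ne h, Real.sinh_eq]
    have h2 : Real.exp (hlr x y) * Real.exp (-hlr x y) = 1 := by
      rw [← Real.exp_add]; simp
    field_simp
    linear_combination -hxe - y * h2

theorem LM_eq_div {x y : ℝ} (hx : 0 < x) (hy : 0 < y) (hxy : x ≠ y) :
    LM x y = (x - y) / (Real.log x - Real.log y) := by
  have hne : Real.log x - Real.log y ≠ 0 :=
    sub_ne_zero.2 fun h => hxy (Real.log_injOn_pos hx hy h)
  rw [eq_div_iff hne, LM_mul_log hx hy]

theorem LM_comm {x y : ℝ} (hx : 0 < x) (hy : 0 < y) : LM x y = LM y x := by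
  by_cases hxy : x = y
  · rw [hxy]
  · rw [LM_eq_div hx hy hxy, LM_eq_div hy hx (Ne.symm hxy), ← neg_sub y x,
      ← neg_sub (Real.log y) (Real.log x), neg_div_neg_eq]

theorem LM_mul_left {c x y : ℝ} (hc : 0 < c) (hx : 0 < x) (hy : 0 < y) :
    LM (c * x) (c * y) = c * LM x y := by
  have : hlr (c * x) (c * y) = hlr x y := by
    rw [hlr, hlr, Real.log_mul hc.ne' hx.ne', Real.log_mul hc.ne' hy.ne']; ring
  rw [LM_eq (mul_pos hc hx) (mul_pos hc hy), LM_eq hx hy, this]
  ring

theorem LM_inv {x y : ℝ} (hx : 0 < x) (hy : 0 < y) :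
    LM x⁻¹ y⁻¹ = LM x y / (x * y) := by
  have h := LM_mul_left (c := (x * y)⁻¹) (inv_pos.2 (mul_pos hx hy)) hy hx
  rw [show (x * y)⁻¹ * y = x⁻¹ by field_simp, show (x * y)⁻¹ * x = y⁻¹ by field_simp,
    LM_comm hy hx] at h
  rw [h]
  field_simp

theorem mul_div_LM_sq {x y : ℝ} (hx : 0 < x) (hy : 0 < y) :
    x * y / LM x y / LM x y = (shc (hlr x y))⁻¹ ^ 2 := by
  have hxe := eq_mul_exp_hlr hx hy
  have h1 := shc_pos (hlr x y)
  have h2 := Real.exp_pos (hlr x y)
  rw [LM_eq hx hy]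
  field_simp
  linear_combination hxe

theorem add_div_LM {x y : ℝ} (hx : 0 < x) (hy : 0 < y) :
    (x + y) / (2 * LM x y) - 1 = AF (hlr x y) := by
  have hxe := eq_mul_exp_hlr hx hy
  have h1 := shc_pos (hlr x y)
  have h2 := Real.exp_pos (hlr x y)
  have h3 : Real.exp (hlr x y) * Real.exp (-hlr x y) = 1 := by
    rw [← Real.exp_add]; simp
  rw [LM_eq hx hy, AF, Real.cosh_eq]
  congr 1
  field_simp
  linear_combination hxe - y * h3

theorem aF_LM {x y : ℝ} (hx : 0 < x) (hy : 0 < y) :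
    aF (x * y / LM x y / LM x y) = (x + y) / (2 * LM x y) - 1 := by
  rw [mul_div_LM_sq hx hy, aF_pi, add_div_LM hx hy]

theorem mul_div_LM_le {x y : ℝ} (hx : 0 < x) (hy : 0 < y) : x * y / LM x y ≤ LM x y := by
  have h := mul_div_LM_sq hx hy
  have h1 : (shc (hlr x y))⁻¹ ^ 2 ≤ 1 :=
    pow_le_one₀ (inv_pos.2 (shc_pos _)).le (inv_le_one_of_one_le₀ (one_le_shc _))
  rw [← h, div_le_one (LM_pos hx hy)] at h1
  exact h1

theorem AF_nonneg (s : ℝ) : 0 ≤ AF s := by
  rw [← AF_abs]
  rcases (abs_nonneg s).eq_or_lt with h | h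
  · rw [← h, AF_zero]
  · exact (AF_pos h).le

theorem LM_le_half {x y : ℝ} (hx : 0 < x) (hy : 0 < y) : LM x y ≤ (x + y) / 2 := by
  have h := AF_nonneg (hlr x y)
  rw [← add_div_LM hx hy, sub_nonneg, le_div_iff₀ (by linarith [LM_pos hx hy])] at h
  linarith

theorem seg_pos {x y τ : ℝ} (hx : 0 < x) (hy : 0 < y) (hτ : τ ∈ Icc (0 : ℝ) 1) :
    0 < τ * x + (1 - τ) * y := by
  obtain ⟨h0, h1⟩ := hτ
  rcases h0.eq_or_lt with h | h
  · subst h; simpa using hy
  · have := mul_pos h hx
    have := mul_nonneg (sub_nonneg.2 h1) hy.le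
    linarith

theorem intervalIntegrable_seg_inv {x y : ℝ} (hx : 0 < x) (hy : 0 < y) :
    IntervalIntegrable (fun τ => (τ * x + (1 - τ) * y)⁻¹) volume 0 1 := by
  refine ContinuousOn.intervalIntegrable ?_
  rw [uIcc_of_le zero_le_one]
  exact ContinuousOn.inv₀ (by fun_prop) fun τ hτ => (seg_pos hx hy hτ).ne'

theorem integral_seg_inv {x y : ℝ} (hx : 0 < x) (hy : 0 < y) :
    ∫ τ in (0 : ℝ)..1, (τ * x + (1 - τ) * y)⁻¹ = (LM x y)⁻¹ := by
  by_cases hxy : x = y
  · subst hxy
    have : (fun τ : ℝ => (τ * x + (1 - τ) * x)⁻¹) = fun _ => x⁻¹ := by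
      funext τ; congr 1; ring
    rw [this, LM_self hx]; simp
  · have hne : x - y ≠ 0 := sub_ne_zero.2 hxy
    have hd : ∀ τ ∈ uIcc (0 : ℝ) 1, HasDerivAt (fun τ => Real.log (τ * x + (1 - τ) * y) / (x - y))
        ((τ * x + (1 - τ) * y)⁻¹) τ := by
      intro τ hτ
      rw [uIcc_of_le zero_le_one] at hτ
      have hp := seg_pos hx hy hτ
      have h1 : HasDerivAt (fun τ : ℝ => τ * x + (1 - τ) * y) (x - y) τ := by
        have := ((hasDerivAt_id τ).mul_const x).add
          (((hasDerivAt_id τ).const_sub 1).mul_const y)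
        exact this.congr_deriv (by ring)
      exact ((h1.log hp.ne').div_const (x - y)).congr_deriv (by field_simp)
    rw [intervalIntegral.integral_eq_sub_of_hasDerivAt hd (intervalIntegrable_seg_inv hx hy),
      LM_eq_div hx hy hxy, inv_div]
    simp only [one_mul, sub_self, zero_mul, add_zero, sub_zero, zero_add]
    ring

theorem min_le_LM {x y : ℝ} (hx : 0 < x) (hy : 0 < y) : min x y ≤ LM x y := by
  have hm : 0 < min x y := lt_min hx hy
  have h1 := mul_div_LM_le hx hy
  have h2 := LM_pos hx hy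
  rw [div_le_iff₀ h2] at h1
  have h3 : min x y * min x y ≤ x * y :=
    mul_le_mul (min_le_left _ _) (min_le_right _ _) hm.le hx.le
  exact le_of_not_gt fun h => by nlinarith

theorem LM_le_max {x y : ℝ} (hx : 0 < x) (hy : 0 < y) : LM x y ≤ max x y := by
  have := LM_le_half hx hy
  linarith [le_max_left x y, le_max_right x y]

end Crest.Agent.R331
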