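import Crest.Agent.R331.Boot
import Crest.Agent.R331.LM
import Crest.Agent.R331.CertBase

/-!
# Row 331: the certificate (*) in terms of `LM` (integral form) and `Contracts`
-/

set_option autoImplicit false

namespace Crest.Agent.R331

open Matrix

theorem LM_eq_Bt {x y : ℝ} (hx : 0 < x) (hy : 0 < y) : LM x y = Bt.LM x y := by
  by_cases h : x = y
  · subst h
    rw [Bt.LM_self, LM_eq hx hx]
    simp [hlr, shc_zero]
  · have hl := Bt.log_sub_ne hx hy h
    have hh : hlr x y ≠ 0 := div_ne_zero hl two_ne_zero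
    have e := eq_mul_exp_hlr hx hy
    have e2 : Real.log x - Real.log y = 2 * hlr x y := by unfold hlr; ring
    rw [Bt.LM_of_ne h, LM_eq hx hy, shc_of_ne hh, e2, Real.sinh_eq, Real.exp_neg]
    have hp := Real.exp_pos (hlr x y)
    generalize hlr x y = s at *
    rw [e]
    field_simp

/-- `b N = log (1 + 1/N)`. -/
theorem log_one_add_inv_pos {N : ℝ} (hN : 0 < N) : 0 < Real.log (1 + 1 / N) :=
  Real.log_pos (by have : 0 < 1 / N := by positivity
                   linarith)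

/-- The optimal ratio `w / z` of the pencil for the thermal pair. -/
noncomputable def wTh (N x y : ℝ) : ℝ :=
  Bt.wopt x y ((N + 1) * Real.log (1 + 1 / N) * LM x y) (N * Real.log (1 + 1 / N) * LM x y)

/-- **(*) with slack.** `x, y` contract with factor `c ≤ 1`, the two thermal forms with factor `1`.
Then `J = b LM (N x) ((N+1) y)` contracts, with slack. -/
theorem star_slack {I K : Type} [Fintype I] [Fintype K] {T : Matrix K I ℂ}
    {x y N : I → ℝ} {x' y' N' : K → ℝ} {c : ℝ} (hc : c ≤ 1)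
    (hx : ∀ i, 0 < x i) (hy : ∀ i, 0 < y i) (hN : ∀ i, 0 < N i)
    (hx' : ∀ j, 0 < x' j) (hy' : ∀ j, 0 < y' j) (hN' : ∀ j, 0 < N' j)
    (cx : Contracts T x x' c) (cy : Contracts T y y' c)
    (cx₀ : Contracts T (fun i => (N i + 1) * Real.log (1 + 1 / N i) * LM (x i) (y i))
      (fun j => (N' j + 1) * Real.log (1 + 1 / N' j) * LM (x' j) (y' j)) 1)
    (cy₀ : Contracts T (fun i => N i * Real.log (1 + 1 / N i) * LM (x i) (y i))
      (fun j => N' j * Real.log (1 + 1 / N' j) * LM (x' j) (y' j)) 1)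
    (z : I → ℂ) :
    4 * ∑ j, Real.log (1 + 1 / N' j) * LM (N' j * x' j) ((N' j + 1) * y' j) * ‖(T *ᵥ z) j‖ ^ 2
      + (1 - c) * ∑ i, (x i * (1 + wTh (N i) (x i) (y i)) ^ 2
          + y i * (1 - wTh (N i) (x i) (y i)) ^ 2) * ‖z i‖ ^ 2
      ≤ 4 * ∑ i, Real.log (1 + 1 / N i) * LM (N i * x i) ((N i + 1) * y i) * ‖z i‖ ^ 2 := by
  have p1 : ∀ {N x y : ℝ}, 0 < N → 0 < x → 0 < y →
      0 < (N + 1) * Real.log (1 + 1 / N) * LM x y := fun hN hx hy => by
    have := log_one_add_inv_pos hN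
    have := LM_pos hx hy
    positivity
  have p2 : ∀ {N x y : ℝ}, 0 < N → 0 < x → 0 < y →
      0 < N * Real.log (1 + 1 / N) * LM x y := fun hN hx hy => by
    have := log_one_add_inv_pos hN
    have := LM_pos hx hy
    positivity
  have p3 : ∀ {N x y : ℝ}, 0 < N → 0 < x → 0 < y →
      Bt.LM ((N + 1) * Real.log (1 + 1 / N) * LM x y) (N * Real.log (1 + 1 / N) * LM x y)
        = Bt.LM x y := fun hN hx hy => by
    rw [Bt.LM_thermal hN (LM_pos hx hy), LM_eq_Bt hx hy]
  have p4 : ∀ {N x y : ℝ}, 0 < N → 0 < x → 0 < y →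
      Bt.JJ x y ((N + 1) * Real.log (1 + 1 / N) * LM x y) (N * Real.log (1 + 1 / N) * LM x y)
        = Real.log (1 + 1 / N) * LM (N * x) ((N + 1) * y) := fun hN hx hy => by
    rw [LM_eq_Bt hx hy, Bt.JJ_thermal hN hx hy, LM_eq_Bt (by positivity) (by positivity)]
  have H := Bt.JJ_slack (T := T) hc hx hy (fun i => p1 (hN i) (hx i) (hy i))
    (fun i => p2 (hN i) (hx i) (hy i)) (fun i => p3 (hN i) (hx i) (hy i)) hx' hy'
    (fun j => p1 (hN' j) (hx' j) (hy' j)) (fun j => p2 (hN' j) (hx' j) (hy' j))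
    (fun j => p3 (hN' j) (hx' j) (hy' j)) cx cy cx₀ cy₀ z
  simp only [p4 (hN _) (hx _) (hy _), p4 (hN' _) (hx' _) (hy' _)] at H
  exact H

/-- **(*)**. -/
theorem star_contracts {I K : Type} [Fintype I] [Fintype K] {T : Matrix K I ℂ}
    {x y N : I → ℝ} {x' y' N' : K → ℝ}
    (hx : ∀ i, 0 < x i) (hy : ∀ i, 0 < y i) (hN : ∀ i, 0 < N i)
    (hx' : ∀ j, 0 < x' j) (hy' : ∀ j, 0 < y' j) (hN' : ∀ j, 0 < N' j)
    (cx : Contracts T x x' 1) (cy : Contracts T y y' 1)
    (cx₀ : Contracts T (fun i => (N i + 1) * Real.log (1 + 1 / N i) * LM (x i) (y i))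
      (fun j => (N' j + 1) * Real.log (1 + 1 / N' j) * LM (x' j) (y' j)) 1)
    (cy₀ : Contracts T (fun i => N i * Real.log (1 + 1 / N i) * LM (x i) (y i))
      (fun j => N' j * Real.log (1 + 1 / N' j) * LM (x' j) (y' j)) 1) :
    Contracts T (fun i => Real.log (1 + 1 / N i) * LM (N i * x i) ((N i + 1) * y i))
      (fun j => Real.log (1 + 1 / N' j) * LM (N' j * x' j) ((N' j + 1) * y' j)) 1 := by
  intro z
  have := star_slack le_rfl hx hy hN hx' hy' hN' cx cy cx₀ cy₀ z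
  linarith

end Crest.Agent.R331
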