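import Crest.Agent.R331.CertBase
import Crest.Agent.R331.LM

/-!
Row 331, certificate part 3: the bootstrap, the form `Q`, the pencil for `J`.
-/

set_option autoImplicit false

namespace Crest.Agent.R331

open Set MeasureTheory Matrix

section
variable {I J : Type} [Fintype I] [Fintype J] {T : Matrix J I ℂ}

/-- The logarithmic mean of two contracting forms contracts. -/
theorem Contracts.lm {x y : I → ℝ} {x' y' : J → ℝ} {k : ℝ} (hk : 0 < k)
    (hx : ∀ i, 0 < x i) (hy : ∀ i, 0 < y i) (hx' : ∀ j, 0 < x' j) (hy' : ∀ j, 0 < y' j)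
    (h1 : Contracts T x x' k) (h2 : Contracts T y y' k) :
    Contracts T (fun i => LM (x i) (y i)) (fun j => LM (x' j) (y' j)) k := by
  have := Contracts.parallel (T := T) (f := fun τ i => τ * x i + (1 - τ) * y i)
    (g := fun τ j => τ * x' j + (1 - τ) * y' j) hk
    (fun τ hτ => h1.comb h2 hτ.1 (sub_nonneg.2 hτ.2))
    (fun τ hτ i => seg_pos (hx i) (hy i) hτ) (fun τ hτ j => seg_pos (hx' j) (hy' j) hτ)
    (fun i => intervalIntegrable_seg_inv (hx i) (hy i))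
    (fun j => intervalIntegrable_seg_inv (hx' j) (hy' j))
  refine this.congr (fun i => ?_) (fun j => ?_)
  · rw [integral_seg_inv (hx i) (hy i), inv_inv]
  · rw [integral_seg_inv (hx' j) (hy' j), inv_inv]

/-- The dual logarithmic mean of two contracting forms contracts. -/
theorem Contracts.dualLM {x y : I → ℝ} {x' y' : J → ℝ} {k : ℝ} (hk : 0 < k)
    (hx : ∀ i, 0 < x i) (hy : ∀ i, 0 < y i) (hx' : ∀ j, 0 < x' j) (hy' : ∀ j, 0 < y' j)
    (h1 : Contracts T x x' k) (h2 : Contracts T y y' k) :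
    Contracts T (fun i => x i * y i / LM (x i) (y i))
      (fun j => x' j * y' j / LM (x' j) (y' j)) k := by
  have h3 := Contracts.lm hk (fun j => inv_pos.2 (hx' j)) (fun j => inv_pos.2 (hy' j))
    (fun i => inv_pos.2 (hx i)) (fun i => inv_pos.2 (hy i))
    (h1.dual hk hx hx') (h2.dual hk hy hy')
  have h4 := h3.of_dual hk (fun i => LM_pos (inv_pos.2 (hx i)) (inv_pos.2 (hy i)))
    (fun j => LM_pos (inv_pos.2 (hx' j)) (inv_pos.2 (hy' j)))
  refine h4.congr (fun i => ?_) (fun j => ?_)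
  · rw [LM_inv (hx i) (hy i), inv_div]
  · rw [LM_inv (hx' j) (hy' j), inv_div]

end

/-- `DD(P, t) = t / d(P / t)`. -/
noncomputable def DD (P t : ℝ) : ℝ := t / dF (P / t)

theorem DD_eq {P t : ℝ} (hP : 0 < P) (hPt : P ≤ t) : DD P t = 2 * P / (1 + q1 (P / t)) := by
  have ht : 0 < t := hP.trans_le hPt
  have hq := q1_pos (div_pos hP ht) ((div_le_one ht).2 hPt)
  rw [DD, dF]
  field_simp

theorem DD_pos {P t : ℝ} (hP : 0 < P) (hPt : P ≤ t) : 0 < DD P t := by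
  have ht : 0 < t := hP.trans_le hPt
  exact div_pos ht (dF_pos (div_pos hP ht) ((div_le_one ht).2 hPt))

theorem le_DD {P t : ℝ} (hP : 0 < P) (hPt : P ≤ t) : P ≤ DD P t := by
  have ht : 0 < t := hP.trans_le hPt
  have hq := q1_pos (div_pos hP ht) ((div_le_one ht).2 hPt)
  have hq1 := q1_le_one (div_pos hP ht) ((div_le_one ht).2 hPt)
  rw [DD_eq hP hPt, le_div_iff₀ (by linarith)]
  nlinarith

theorem DD_le {P t : ℝ} (hP : 0 < P) (hPt : P ≤ t) : DD P t ≤ 2 * P := by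
  have ht : 0 < t := hP.trans_le hPt
  have hq := q1_pos (div_pos hP ht) ((div_le_one ht).2 hPt)
  rw [DD_eq hP hPt, div_le_iff₀ (by linarith)]
  nlinarith

theorem inv_DD_seg {P P0 t : ℝ} (ht : 0 < t) (τ : ℝ) :
    (DD (τ * P + (1 - τ) * P0) t)⁻¹ = dF (τ * (P / t) + (1 - τ) * (P0 / t)) / t := by
  rw [DD, inv_div]
  congr 2
  field_simp

theorem intervalIntegrable_inv_DD {P P0 t : ℝ} (hP : 0 < P) (hPt : P ≤ t) (hP0 : 0 < P0)
    (hP0t : P0 ≤ t) :
    IntervalIntegrable (fun τ => (DD (τ * P + (1 - τ) * P0) t)⁻¹) volume 0 1 := by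
  have ht : 0 < t := hP.trans_le hPt
  simp only [inv_DD_seg ht]
  exact (dF_integral (div_pos hP ht) ((div_le_one ht).2 hPt) (div_pos hP0 ht)
    ((div_le_one ht).2 hP0t)).1.div_const t

theorem seg_le {P P0 t τ : ℝ} (hPt : P ≤ t) (hP0t : P0 ≤ t) (hτ : τ ∈ Icc (0 : ℝ) 1) :
    τ * P + (1 - τ) * P0 ≤ t := by
  nlinarith [mul_le_mul_of_nonneg_left hPt hτ.1,
    mul_le_mul_of_nonneg_left hP0t (sub_nonneg.2 hτ.2)]

/-- `DD(P, t)` contracts with factor `k` in every system where `P ≤ t` contract. -/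
def Boot (k : ℝ) : Prop :=
  ∀ (I J : Type) [Fintype I] [Fintype J] (T : Matrix J I ℂ) (P t : I → ℝ) (P' t' : J → ℝ),
    (∀ i, 0 < P i) → (∀ i, P i ≤ t i) → (∀ j, 0 < P' j) → (∀ j, P' j ≤ t' j) →
    Contracts T P P' 1 → Contracts T t t' 1 →
    Contracts T (fun i => DD (P i) (t i)) (fun j => DD (P' j) (t' j)) k

theorem boot_two : Boot 2 := by
  intro I J _ _ T P t P' t' hP hPt hP' hPt' h1 _
  refine (h1.smul (c := 2) zero_le_two).mono (fun i => ?_) (fun j => DD_le (hP' j) (hPt' j))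
  have := le_DD (hP i) (hPt i)
  linarith

/-- The parallel integral of `DD` along a segment. -/
theorem Boot.seg {k : ℝ} (hb : Boot k) (hk : 0 < k) {I J : Type} [Fintype I] [Fintype J]
    {T : Matrix J I ℂ} {P P0 t : I → ℝ} {P' P0' t' : J → ℝ}
    (hP : ∀ i, 0 < P i) (hPt : ∀ i, P i ≤ t i) (hP' : ∀ j, 0 < P' j) (hPt' : ∀ j, P' j ≤ t' j)
    (hQ : ∀ i, 0 < P0 i) (hQt : ∀ i, P0 i ≤ t i) (hQ' : ∀ j, 0 < P0' j)
    (hQt' : ∀ j, P0' j ≤ t' j)
    (h1 : Contracts T P P' 1) (h0 : Contracts T P0 P0' 1) (h2 : Contracts T t t' 1) :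
    Contracts T (fun i => (∫ τ in (0 : ℝ)..1, (DD (τ * P i + (1 - τ) * P0 i) (t i))⁻¹)⁻¹)
      (fun j => (∫ τ in (0 : ℝ)..1, (DD (τ * P' j + (1 - τ) * P0' j) (t' j))⁻¹)⁻¹) k :=
  Contracts.parallel (T := T) (f := fun τ i => DD (τ * P i + (1 - τ) * P0 i) (t i))
    (g := fun τ j => DD (τ * P' j + (1 - τ) * P0' j) (t' j)) hk
    (fun _ hτ => hb I J T _ t _ t' (fun i => seg_pos (hP i) (hQ i) hτ)
      (fun i => seg_le (hPt i) (hQt i) hτ) (fun j => seg_pos (hP' j) (hQ' j) hτ)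
      (fun j => seg_le (hPt' j) (hQt' j) hτ) (h1.comb h0 hτ.1 (sub_nonneg.2 hτ.2)) h2)
    (fun _ hτ i => DD_pos (seg_pos (hP i) (hQ i) hτ) (seg_le (hPt i) (hQt i) hτ))
    (fun _ hτ j => DD_pos (seg_pos (hP' j) (hQ' j) hτ) (seg_le (hPt' j) (hQt' j) hτ))
    (fun i => intervalIntegrable_inv_DD (hP i) (hPt i) (hQ i) (hQt i))
    (fun j => intervalIntegrable_inv_DD (hP' j) (hPt' j) (hQ' j) (hQt' j))

theorem seg_integral_self {P t : ℝ} (hP : 0 < P) (hPt : P ≤ t) :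
    (∫ τ in (0 : ℝ)..1, (DD (τ * P + (1 - τ) * t) t)⁻¹)⁻¹ = t * q1 (P / t) := by
  have ht : 0 < t := hP.trans_le hPt
  simp only [inv_DD_seg ht, div_self ht.ne']
  rw [intervalIntegral.integral_div, dF_integral_one (div_pos hP ht) ((div_le_one ht).2 hPt),
    inv_div, div_inv_eq_mul]

/-- First half of the bootstrap step: `t (1 + q₁)` contracts with factor `(1 + k) / 2`. -/
theorem Boot.half {k : ℝ} (hb : Boot k) (hk : 1 ≤ k) {I J : Type} [Fintype I] [Fintype J]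
    {T : Matrix J I ℂ} {P t : I → ℝ} {P' t' : J → ℝ}
    (hP : ∀ i, 0 < P i) (hPt : ∀ i, P i ≤ t i) (hP' : ∀ j, 0 < P' j) (hPt' : ∀ j, P' j ≤ t' j)
    (h1 : Contracts T P P' 1) (h2 : Contracts T t t' 1) :
    Contracts T (fun i => t i * (1 + q1 (P i / t i))) (fun j => t' j * (1 + q1 (P' j / t' j)))
      ((1 + k) / 2) := by
  have h3 := hb.seg (by linarith) hP hPt hP' hPt' (fun i => (hP i).trans_le (hPt i))
    (fun _ => le_rfl) (fun j => (hP' j).trans_le (hPt' j)) (fun _ => le_rfl) h1 h2 h2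
  have h4 : Contracts T (fun i => t i * q1 (P i / t i)) (fun j => t' j * q1 (P' j / t' j)) k :=
    h3.congr (fun i => seg_integral_self (hP i) (hPt i))
      (fun j => seg_integral_self (hP' j) (hPt' j))
  refine (h2.add' h4).mono (fun i => ?_) (fun j => le_of_eq (by ring))
  have ht : 0 < t i := (hP i).trans_le (hPt i)
  have hq1 := q1_le_one (div_pos (hP i) ht) ((div_le_one ht).2 (hPt i))
  have := mul_nonneg ht.le (mul_nonneg (sub_nonneg.2 hk) (sub_nonneg.2 hq1))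
  nlinarith

theorem Boot.step {k : ℝ} (hb : Boot k) (hk : 1 ≤ k) : Boot ((1 + k) / 2) := by
  intro I J _ _ T P t P' t' hP hPt hP' hPt' h1 h2
  have ht : ∀ i, 0 < t i := fun i => (hP i).trans_le (hPt i)
  have ht' : ∀ j, 0 < t' j := fun j => (hP' j).trans_le (hPt' j)
  have h3 := hb.half hk (T := Tᴴ) (P := fun j => (t' j)⁻¹) (t := fun j => (P' j)⁻¹)
    (P' := fun i => (t i)⁻¹) (t' := fun i => (P i)⁻¹)
    (fun j => inv_pos.2 (ht' j)) (fun j => inv_anti₀ (hP' j) (hPt' j))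
    (fun i => inv_pos.2 (ht i)) (fun i => inv_anti₀ (hP i) (hPt i))
    (h2.dual one_pos ht ht') (h1.dual one_pos hP hP')
  have e : ∀ a b : ℝ, a⁻¹ / b⁻¹ = b / a := fun a b => by rw [div_inv_eq_mul, mul_comm]; rfl
  simp only [e] at h3
  have hq : ∀ i, 0 < 1 + q1 (P i / t i) := fun i => by
    linarith [q1_pos (div_pos (hP i) (ht i)) ((div_le_one (ht i)).2 (hPt i))]
  have hq' : ∀ j, 0 < 1 + q1 (P' j / t' j) := fun j => by
    linarith [q1_pos (div_pos (hP' j) (ht' j)) ((div_le_one (ht' j)).2 (hPt' j))]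
  have h4 := (h3.of_dual (by linarith) (fun i => mul_pos (inv_pos.2 (hP i)) (hq i))
    (fun j => mul_pos (inv_pos.2 (hP' j)) (hq' j))).smul (c := 2) zero_le_two
  refine h4.congr (fun i => ?_) (fun j => ?_)
  · rw [DD_eq (hP i) (hPt i)]
    have := hP i
    have := hq i
    field_simp
  · rw [DD_eq (hP' j) (hPt' j)]
    have := hP' j
    have := hq' j
    field_simp

theorem boot_pow (m : ℕ) : Boot (1 + (1 / 2 : ℝ) ^ m) := by
  induction m with
  | zero => simpa [one_add_one_eq_two] using boot_two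
  | succ m ih =>
    have h := ih.step (by have : (0 : ℝ) ≤ (1 / 2 : ℝ) ^ m := by positivity
                          linarith)
    rwa [show (1 + (1 + (1 / 2 : ℝ) ^ m)) / 2 = 1 + (1 / 2 : ℝ) ^ (m + 1) by ring] at h

theorem boot_one : Boot 1 := by
  intro I J _ _ T P t P' t' hP hPt hP' hPt' h1 h2
  refine Contracts.of_forall_lt fun k hk => ?_
  obtain ⟨m, hm⟩ := exists_pow_lt_of_lt_one (sub_pos.2 hk) (by norm_num : (1 / 2 : ℝ) < 1)
  refine (boot_pow m I J T P t P' t' hP hPt hP' hPt' h1 h2).mono (fun i => ?_) fun _ => le_rfl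
  exact mul_le_mul_of_nonneg_right (by linarith) (DD_pos (hP i) (hPt i)).le

/-- The form `Q`; `Q ((x + y) - (x₀ + y₀)) = 2 (x₀ y₀ - x y)` when `LM x y = LM x₀ y₀`. -/
noncomputable def QF (x y x0 y0 : ℝ) : ℝ :=
  (∫ τ in (0 : ℝ)..1,
    (DD (τ * (x * y / LM x y) + (1 - τ) * (x0 * y0 / LM x0 y0)) (LM x y))⁻¹)⁻¹

section scalar
variable {x y x0 y0 : ℝ}

theorem QF_inv_pos (hx : 0 < x) (hy : 0 < y) (hx0 : 0 < x0) (hy0 : 0 < y0)
    (h : LM x y = LM x0 y0) : 0 < ∫ τ in (0 : ℝ)..1,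
      (DD (τ * (x * y / LM x y) + (1 - τ) * (x0 * y0 / LM x0 y0)) (LM x y))⁻¹ := by
  have hP := div_pos (mul_pos hx hy) (LM_pos hx hy)
  have hP0 := div_pos (mul_pos hx0 hy0) (LM_pos hx0 hy0)
  have hPt := mul_div_LM_le hx hy
  have hP0t : x0 * y0 / LM x0 y0 ≤ LM x y := by rw [h]; exact mul_div_LM_le hx0 hy0
  exact integral_pos_of_pos (intervalIntegrable_inv_DD hP hPt hP0 hP0t) fun τ hτ =>
    inv_pos.2 (DD_pos (seg_pos hP hP0 hτ) (seg_le hPt hP0t hτ))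

theorem QF_pos (hx : 0 < x) (hy : 0 < y) (hx0 : 0 < x0) (hy0 : 0 < y0)
    (h : LM x y = LM x0 y0) : 0 < QF x y x0 y0 :=
  inv_pos.2 (QF_inv_pos hx hy hx0 hy0 h)

theorem QF_le (hx : 0 < x) (hy : 0 < y) (hx0 : 0 < x0) (hy0 : 0 < y0)
    (h : LM x y = LM x0 y0) : QF x y x0 y0 ≤ 2 * LM x y := by
  have ht := LM_pos hx hy
  have hP := div_pos (mul_pos hx hy) ht
  have hP0 := div_pos (mul_pos hx0 hy0) (LM_pos hx0 hy0)
  have hPt := mul_div_LM_le hx hy
  have hP0t : x0 * y0 / LM x0 y0 ≤ LM x y := by rw [h]; exact mul_div_LM_le hx0 hy0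
  rw [QF, inv_le_comm₀ (QF_inv_pos hx hy hx0 hy0 h) (by linarith)]
  calc (2 * LM x y)⁻¹ = ∫ _ in (0 : ℝ)..1, (2 * LM x y)⁻¹ := by simp
    _ ≤ _ := by
      refine intervalIntegral.integral_mono_on zero_le_one intervalIntegrable_const
        (intervalIntegrable_inv_DD hP hPt hP0 hP0t) fun τ hτ => ?_
      have h1 := seg_pos hP hP0 hτ
      have h2 := seg_le hPt hP0t hτ
      exact inv_anti₀ (DD_pos h1 h2) ((DD_le h1 h2).trans (by linarith))

theorem QF_mul (hx : 0 < x) (hy : 0 < y) (hx0 : 0 < x0) (hy0 : 0 < y0)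
    (h : LM x y = LM x0 y0) :
    QF x y x0 y0 * ((x + y) - (x0 + y0)) = 2 * (x0 * y0 - x * y) := by
  have hI := QF_inv_pos hx hy hx0 hy0 h
  have ht := LM_pos hx hy
  have hP := div_pos (mul_pos hx hy) ht
  have hP0 := div_pos (mul_pos hx0 hy0) (LM_pos hx0 hy0)
  have hPt := mul_div_LM_le hx hy
  have hP0t : x0 * y0 / LM x0 y0 ≤ LM x y := by rw [h]; exact mul_div_LM_le hx0 hy0
  have h1 := (dF_integral (div_pos hP ht) ((div_le_one ht).2 hPt) (div_pos hP0 ht)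
    ((div_le_one ht).2 hP0t)).2
  have h2 := aF_LM hx0 hy0
  rw [aF_LM hx hy] at h1
  rw [← h] at h2
  rw [QF]
  simp only [inv_DD_seg ht] at hI ⊢
  rw [intervalIntegral.integral_div] at hI ⊢
  rw [← h, h2] at h1
  rw [← h] at hI ⊢
  set D := ∫ τ in (0 : ℝ)..1,
    dF (τ * (x * y / LM x y / LM x y) + (1 - τ) * (x0 * y0 / LM x y / LM x y))
  set t := LM x y
  have hD : 0 < D := by
    have := mul_pos hI ht
    rwa [div_mul_cancel₀ _ ht.ne'] at this
  field_simp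
  field_simp at h1
  linarith

end scalar

/-- **(Q)** If the four forms contract and `LM x y = LM x₀ y₀` on both sides, `Q` contracts. -/
theorem Contracts.QF {I J : Type} [Fintype I] [Fintype J] {T : Matrix J I ℂ}
    {x y x0 y0 : I → ℝ} {x' y' x0' y0' : J → ℝ}
    (hx : ∀ i, 0 < x i) (hy : ∀ i, 0 < y i) (hx0 : ∀ i, 0 < x0 i) (hy0 : ∀ i, 0 < y0 i)
    (hx' : ∀ j, 0 < x' j) (hy' : ∀ j, 0 < y' j) (hx0' : ∀ j, 0 < x0' j) (hy0' : ∀ j, 0 < y0' j)
    (h : ∀ i, LM (x i) (y i) = LM (x0 i) (y0 i))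
    (h' : ∀ j, LM (x' j) (y' j) = LM (x0' j) (y0' j))
    (cx : Contracts T x x' 1) (cy : Contracts T y y' 1)
    (cx0 : Contracts T x0 x0' 1) (cy0 : Contracts T y0 y0' 1) :
    Contracts T (fun i => QF (x i) (y i) (x0 i) (y0 i))
      (fun j => QF (x' j) (y' j) (x0' j) (y0' j)) 1 :=
  boot_one.seg one_pos
    (fun i => div_pos (mul_pos (hx i) (hy i)) (LM_pos (hx i) (hy i)))
    (fun i => mul_div_LM_le (hx i) (hy i))
    (fun j => div_pos (mul_pos (hx' j) (hy' j)) (LM_pos (hx' j) (hy' j)))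
    (fun j => mul_div_LM_le (hx' j) (hy' j))
    (fun i => div_pos (mul_pos (hx0 i) (hy0 i)) (LM_pos (hx0 i) (hy0 i)))
    (fun i => by rw [h i]; exact mul_div_LM_le (hx0 i) (hy0 i))
    (fun j => div_pos (mul_pos (hx0' j) (hy0' j)) (LM_pos (hx0' j) (hy0' j)))
    (fun j => by rw [h' j]; exact mul_div_LM_le (hx0' j) (hy0' j))
    (Contracts.dualLM one_pos hx hy hx' hy' cx cy)
    (Contracts.dualLM one_pos hx0 hy0 hx0' hy0' cx0 cy0)
    (Contracts.lm one_pos hx hy hx' hy' cx cy)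

end Crest.Agent.R331
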