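import Mathlib

/-!
Row 331, certificate part 2: the scalar functions.
`shc s = sinh s / s`, `sig` the inverse of `s ↦ (s / sinh s)²` on `[0, ∞)`,
`aF p = s coth s - 1` at `s = sig p`, `q1 p = (1 - p) / aF p`, `dF p = (1 + q1 p) / (2 p) = - aF' p`.
-/

set_option autoImplicit false

namespace Crest.Agent.R331

open Set MeasureTheory Filter Topology

/-- `sinh s / s`, with value `1` at `0`. -/
noncomputable def shc (s : ℝ) : ℝ := if s = 0 then 1 else Real.sinh s / s

theorem shc_zero : shc 0 = 1 := by simp [shc]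

theorem shc_of_ne {s : ℝ} (hs : s ≠ 0) : shc s = Real.sinh s / s := by simp [shc, hs]

theorem shc_neg (s : ℝ) : shc (-s) = shc s := by
  by_cases hs : s = 0
  · simp [hs]
  · rw [shc_of_ne hs, shc_of_ne (neg_ne_zero.2 hs), Real.sinh_neg, neg_div_neg_eq]

theorem shc_abs (s : ℝ) : shc |s| = shc s := by
  rcases abs_choice s with h | h <;> rw [h]
  exact shc_neg s

theorem shc_eq_dslope : shc = dslope Real.sinh 0 := by
  funext s
  by_cases hs : s = 0
  · subst hs
    simp [shc_zero]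
  · rw [shc_of_ne hs, dslope_of_ne _ hs, slope_def_field]
    simp

theorem continuous_shc : Continuous shc := by
  rw [continuous_iff_continuousAt]
  intro s
  rw [shc_eq_dslope]
  by_cases hs : s = 0
  · subst hs
    exact continuousAt_dslope_same.2 Real.differentiable_sinh.differentiableAt
  · exact (continuousAt_dslope_of_ne hs).2 Real.continuous_sinh.continuousAt

theorem nonneg_of_deriv {φ φ' : ℝ → ℝ} (h : ∀ x, HasDerivAt φ (φ' x) x) (h0 : φ 0 = 0)
    (hp : ∀ x, 0 ≤ x → 0 ≤ φ' x) {x : ℝ} (hx : 0 ≤ x) : 0 ≤ φ x := by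
  have hm : MonotoneOn φ (Ici 0) :=
    monotoneOn_of_deriv_nonneg (convex_Ici 0)
      (fun y _ => (h y).continuousAt.continuousWithinAt)
      (fun y _ => (h y).differentiableAt.differentiableWithinAt)
      (fun y hy => by
        rw [(h y).deriv]
        exact hp y (interior_subset hy))
  have := hm (mem_Ici.2 le_rfl) (mem_Ici.2 hx) hx
  rwa [h0] at this

theorem sinh_lt_mul_cosh {s : ℝ} (hs : 0 < s) : Real.sinh s < s * Real.cosh s := by
  have h : ∀ x, HasDerivAt (fun x => x * Real.cosh x - Real.sinh x) (x * Real.sinh x) x := by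
    intro x
    have := ((hasDerivAt_id x).mul (Real.hasDerivAt_cosh x)).sub (Real.hasDerivAt_sinh x)
    exact this.congr_deriv (by simp)
  have hm : StrictMonoOn (fun x => x * Real.cosh x - Real.sinh x) (Ici 0) :=
    strictMonoOn_of_deriv_pos (convex_Ici 0)
      (fun y _ => (h y).continuousAt.continuousWithinAt)
      (fun y hy => by
        rw [(h y).deriv]
        rw [interior_Ici] at hy
        exact mul_pos hy (Real.sinh_pos_iff.2 hy))
  have := hm (mem_Ici.2 le_rfl) (mem_Ici.2 hs.le) hs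
  simp at this
  linarith

theorem sinh_le_mul_cosh {s : ℝ} (hs : 0 ≤ s) : Real.sinh s ≤ s * Real.cosh s := by
  rcases hs.eq_or_lt with h | h
  · subst h; simp
  · exact (sinh_lt_mul_cosh h).le

/-- A hyperbolic Wilker inequality. -/
theorem wilker {w : ℝ} (hw : 0 ≤ w) :
    0 ≤ w / 4 * Real.sinh w + w ^ 2 / 4 - Real.cosh w + 1 := by
  have h2 : ∀ x, 0 ≤ x → 0 ≤ x / 4 * Real.sinh x - Real.cosh x / 2 + 1 / 2 := by
    intro x hx
    refine nonneg_of_deriv (φ := fun x => x / 4 * Real.sinh x - Real.cosh x / 2 + 1 / 2)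
      (φ' := fun x => (x * Real.cosh x - Real.sinh x) / 4) (fun x => ?_) (by simp)
      (fun y hy => by have := sinh_le_mul_cosh hy; linarith) hx
    have := ((((hasDerivAt_id x).div_const 4).mul (Real.hasDerivAt_sinh x)).sub
      ((Real.hasDerivAt_cosh x).div_const 2)).add_const (1 / 2)
    exact this.congr_deriv (by simp only [id]; ring)
  have h1 : ∀ x, 0 ≤ x → 0 ≤ x / 4 * Real.cosh x - 3 / 4 * Real.sinh x + x / 2 := by
    intro x hx
    refine nonneg_of_deriv (φ := fun x => x / 4 * Real.cosh x - 3 / 4 * Real.sinh x + x / 2)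
      (φ' := fun x => x / 4 * Real.sinh x - Real.cosh x / 2 + 1 / 2) (fun x => ?_) (by simp)
      h2 hx
    have := ((((hasDerivAt_id x).div_const 4).mul (Real.hasDerivAt_cosh x)).sub
      ((Real.hasDerivAt_sinh x).const_mul (3 / 4))).add ((hasDerivAt_id x).div_const 2)
    exact this.congr_deriv (by simp only [id]; ring)
  refine nonneg_of_deriv (φ := fun w => w / 4 * Real.sinh w + w ^ 2 / 4 - Real.cosh w + 1)
    (φ' := fun x => x / 4 * Real.cosh x - 3 / 4 * Real.sinh x + x / 2) (fun x => ?_) (by simp)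
    h1 hw
  have := (((((hasDerivAt_id x).div_const 4).mul (Real.hasDerivAt_sinh x)).add
    ((hasDerivAt_pow 2 x).div_const 4)).sub (Real.hasDerivAt_cosh x)).add_const 1
  exact this.congr_deriv (by simp only [id]; push_cast; ring)

theorem hasDerivAt_shc {s : ℝ} (hs : s ≠ 0) :
    HasDerivAt shc ((s * Real.cosh s - Real.sinh s) / s ^ 2) s := by
  have h : HasDerivAt (fun x => Real.sinh x / x) ((Real.cosh s * s - Real.sinh s * 1) / s ^ 2) s :=
    (Real.hasDerivAt_sinh s).div (hasDerivAt_id s) hs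
  have he : shc =ᶠ[𝓝 s] fun x => Real.sinh x / x :=
    (eventually_ne_nhds hs).mono fun x hx => shc_of_ne hx
  refine (h.congr_of_eventuallyEq he).congr_deriv ?_
  ring

theorem strictMonoOn_shc : StrictMonoOn shc (Ici 0) :=
  strictMonoOn_of_deriv_pos (convex_Ici 0) continuous_shc.continuousOn fun y hy => by
    rw [interior_Ici] at hy
    have hy' : 0 < y := hy
    rw [(hasDerivAt_shc hy'.ne').deriv]
    have := sinh_lt_mul_cosh hy'
    exact div_pos (by linarith) (by positivity)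

theorem one_le_shc (s : ℝ) : 1 ≤ shc s := by
  rw [← shc_abs, ← shc_zero]
  exact strictMonoOn_shc.monotoneOn (mem_Ici.2 le_rfl) (mem_Ici.2 (abs_nonneg s)) (abs_nonneg s)

theorem shc_pos (s : ℝ) : 0 < shc s := lt_of_lt_of_le one_pos (one_le_shc s)

theorem half_le_shc {s : ℝ} (hs : 0 < s) : s / 2 ≤ shc s := by
  rw [shc_of_ne hs.ne', le_div_iff₀ hs]
  have h1 : Real.sinh s = 2 * Real.sinh (s / 2) * Real.cosh (s / 2) := by
    rw [← Real.sinh_two_mul]; congr 1; ring
  have h2 : s / 2 ≤ Real.sinh (s / 2) := Real.self_le_sinh_iff.2 (by linarith)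
  have h3 : Real.sinh (s / 2) ≤ Real.cosh (s / 2) := (Real.sinh_lt_cosh _).le
  have h4 : s / 2 * (s / 2) ≤ Real.sinh (s / 2) * Real.cosh (s / 2) :=
    mul_le_mul h2 (h2.trans h3) (by linarith) (by linarith)
  rw [h1]
  nlinarith

/-- A strictly increasing bijection of the line that agrees with `shc` on `[0, ∞)`. -/
noncomputable def shcE (s : ℝ) : ℝ := if 0 ≤ s then shc s else 1 + s

theorem shcE_strictMono : StrictMono shcE := by
  intro s t hst
  unfold shcE
  by_cases hs : 0 ≤ s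
  · have ht : 0 ≤ t := hs.trans hst.le
    rw [if_pos hs, if_pos ht]
    exact strictMonoOn_shc hs ht hst
  · rw [if_neg hs]
    by_cases ht : 0 ≤ t
    · rw [if_pos ht]
      have := one_le_shc t
      linarith [not_le.1 hs]
    · rw [if_neg ht]; linarith

theorem shcE_surj : Function.Surjective shcE := by
  intro v
  by_cases hv : 1 ≤ v
  · have h1 : v ∈ Icc (shc 0) (shc (2 * v)) := by
      refine ⟨by rw [shc_zero]; exact hv, ?_⟩
      have := half_le_shc (s := 2 * v) (by linarith)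
      linarith
    obtain ⟨s, hs, hsv⟩ := intermediate_value_Icc (by linarith : (0 : ℝ) ≤ 2 * v)
      continuous_shc.continuousOn h1
    exact ⟨s, by unfold shcE; rw [if_pos hs.1]; exact hsv⟩
  · refine ⟨v - 1, ?_⟩
    unfold shcE
    rw [if_neg (by linarith [not_le.1 hv])]
    ring

/-- The inverse of `shcE`. -/
noncomputable def iot : ℝ ≃o ℝ := (StrictMono.orderIsoOfSurjective shcE shcE_strictMono shcE_surj).symm

theorem shcE_iot (v : ℝ) : shcE (iot v) = v :=
  StrictMono.orderIsoOfSurjective_self_symm_apply shcE shcE_strictMono shcE_surj v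

theorem iot_shcE (s : ℝ) : iot (shcE s) = s :=
  StrictMono.orderIsoOfSurjective_symm_apply_self shcE shcE_strictMono shcE_surj s

theorem iot_one : iot 1 = 0 := by
  have := iot_shcE 0
  rwa [show shcE 0 = 1 by simp [shcE, shc_zero]] at this

/-- The inverse of `s ↦ (s / sinh s)²` on `[0, ∞)`. -/
noncomputable def sig (p : ℝ) : ℝ := iot (Real.sqrt p)⁻¹

theorem sig_one : sig 1 = 0 := by simp [sig, iot_one]

theorem one_le_inv_sqrt {p : ℝ} (hp : 0 < p) (hp1 : p ≤ 1) : 1 ≤ (Real.sqrt p)⁻¹ :=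
  (one_le_inv₀ (Real.sqrt_pos.2 hp)).2 (Real.sqrt_le_one.2 hp1)

theorem sig_nonneg {p : ℝ} (hp : 0 < p) (hp1 : p ≤ 1) : 0 ≤ sig p := by
  rw [← iot_one]
  exact iot.monotone (one_le_inv_sqrt hp hp1)

theorem sig_pos {p : ℝ} (hp : 0 < p) (hp1 : p < 1) : 0 < sig p := by
  rw [← iot_one]
  refine iot.strictMono ((one_lt_inv₀ (Real.sqrt_pos.2 hp)).2 ?_)
  rw [Real.sqrt_lt' one_pos]
  simpa using hp1

theorem shc_sig {p : ℝ} (hp : 0 < p) (hp1 : p ≤ 1) : shc (sig p) = (Real.sqrt p)⁻¹ := by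
  have : shcE (sig p) = (Real.sqrt p)⁻¹ := shcE_iot (Real.sqrt p)⁻¹
  unfold shcE at this
  rwa [if_pos (sig_nonneg hp hp1)] at this

theorem sig_pi (s : ℝ) : sig ((shc s)⁻¹ ^ 2) = |s| := by
  unfold sig
  rw [Real.sqrt_sq (inv_pos.2 (shc_pos s)).le, inv_inv, ← shc_abs]
  have := iot_shcE |s|
  unfold shcE at this
  rwa [if_pos (abs_nonneg s)] at this

theorem pi_sig {p : ℝ} (hp : 0 < p) (hp1 : p ≤ 1) : (shc (sig p))⁻¹ ^ 2 = p := by
  rw [shc_sig hp hp1, inv_inv, Real.sq_sqrt hp.le]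

theorem continuousAt_sig {p : ℝ} (hp : 0 < p) : ContinuousAt sig p :=
  iot.continuous.continuousAt.comp
    (Real.continuous_sqrt.continuousAt.inv₀ (Real.sqrt_pos.2 hp).ne')

/-- `s coth s - 1`. -/
noncomputable def AF (s : ℝ) : ℝ := Real.cosh s / shc s - 1

theorem continuous_AF : Continuous AF :=
  (Real.continuous_cosh.div continuous_shc fun s => (shc_pos s).ne').sub continuous_const

theorem AF_zero : AF 0 = 0 := by simp [AF, shc_zero]

theorem AF_abs (s : ℝ) : AF |s| = AF s := by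
  unfold AF
  rw [shc_abs, Real.cosh_abs]

theorem AF_pos {s : ℝ} (hs : 0 < s) : 0 < AF s := by
  unfold AF
  rw [sub_pos, lt_div_iff₀ (shc_pos s), one_mul, shc_of_ne hs.ne', div_lt_iff₀ hs]
  have := sinh_lt_mul_cosh hs
  linarith

theorem one_sub_le_AF {s : ℝ} (hs : 0 < s) : 1 - (shc s)⁻¹ ^ 2 ≤ AF s := by
  unfold AF
  rw [shc_of_ne hs.ne']
  have hsh : 0 < Real.sinh s := Real.sinh_pos_iff.2 hs
  have hw := wilker (w := 2 * s) (by linarith)
  rw [Real.sinh_two_mul, Real.cosh_two_mul] at hw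
  have hc := Real.cosh_sq s
  have e : Real.cosh s / (Real.sinh s / s) - 1 - (1 - (Real.sinh s / s)⁻¹ ^ 2)
      = (s * Real.sinh s * Real.cosh s + s ^ 2 - 2 * Real.sinh s ^ 2) / Real.sinh s ^ 2 := by
    field_simp
    ring
  have : 0 ≤ (s * Real.sinh s * Real.cosh s + s ^ 2 - 2 * Real.sinh s ^ 2) / Real.sinh s ^ 2 :=
    div_nonneg (by nlinarith) (by positivity)
  linarith

/-- `a(p) = s coth s - 1` where `p = (s / sinh s)²`. -/
noncomputable def aF (p : ℝ) : ℝ := AF (sig p)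

/-- `q₁(p) = (1 - p) / a(p)`, with value `1` at `1`. -/
noncomputable def q1 (p : ℝ) : ℝ := if p = 1 then 1 else (1 - p) / aF p

/-- `d(p) = - a'(p)`. -/
noncomputable def dF (p : ℝ) : ℝ := (1 + q1 p) / (2 * p)

theorem aF_one : aF 1 = 0 := by rw [aF, sig_one, AF_zero]

theorem aF_pi (s : ℝ) : aF ((shc s)⁻¹ ^ 2) = AF s := by rw [aF, sig_pi, AF_abs]

theorem aF_pos {p : ℝ} (hp : 0 < p) (hp1 : p < 1) : 0 < aF p := AF_pos (sig_pos hp hp1)

theorem q1_pos {p : ℝ} (hp : 0 < p) (hp1 : p ≤ 1) : 0 < q1 p := by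
  unfold q1
  split_ifs with h
  · exact one_pos
  · have h1 : p < 1 := lt_of_le_of_ne hp1 h
    exact div_pos (by linarith) (aF_pos hp h1)

theorem q1_le_one {p : ℝ} (hp : 0 < p) (hp1 : p ≤ 1) : q1 p ≤ 1 := by
  unfold q1
  split_ifs with h
  · exact le_rfl
  · have h1 : p < 1 := lt_of_le_of_ne hp1 h
    rw [div_le_one (aF_pos hp h1)]
    have := one_sub_le_AF (sig_pos hp h1)
    rwa [pi_sig hp hp1] at this

theorem dF_pos {p : ℝ} (hp : 0 < p) (hp1 : p ≤ 1) : 0 < dF p :=
  div_pos (by linarith [q1_pos hp hp1]) (by linarith)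

theorem dF_one : dF 1 = 1 := by norm_num [dF, q1]

theorem continuousAt_aF {p : ℝ} (hp : 0 < p) : ContinuousAt aF p :=
  continuous_AF.continuousAt.comp (continuousAt_sig hp)

theorem hasDerivAt_aF {p : ℝ} (hp : 0 < p) (hp1 : p < 1) : HasDerivAt aF (-dF p) p := by
  set s := sig p with hsdef
  have hs : 0 < s := sig_pos hp hp1
  have hsh : 0 < Real.sinh s := Real.sinh_pos_iff.2 hs
  have hA : 0 < s * Real.cosh s - Real.sinh s := by linarith [sinh_lt_mul_cosh hs]
  have hshc := hasDerivAt_shc hs.ne'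
  have hpos := shc_pos s
  have hpi : HasDerivAt (fun x => (shc x)⁻¹ ^ 2)
      (((2 : ℕ) : ℝ) * (shc s)⁻¹ ^ (2 - 1) *
        (-((s * Real.cosh s - Real.sinh s) / s ^ 2) / shc s ^ 2)) s :=
    (hshc.inv hpos.ne').pow 2
  have hne : ((2 : ℕ) : ℝ) * (shc s)⁻¹ ^ (2 - 1) *
        (-((s * Real.cosh s - Real.sinh s) / s ^ 2) / shc s ^ 2) ≠ 0 := by
    have h1 : 0 < (s * Real.cosh s - Real.sinh s) / s ^ 2 := by positivity
    have h2 : -((s * Real.cosh s - Real.sinh s) / s ^ 2) / shc s ^ 2 < 0 :=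
      div_neg_of_neg_of_pos (by linarith) (by positivity)
    exact mul_ne_zero (by positivity) h2.ne
  have hsig := HasDerivAt.of_local_left_inverse (continuousAt_sig hp) hpi hne
    (Filter.mem_of_superset (Ioo_mem_nhds hp hp1) fun y hy => pi_sig hy.1 hy.2.le)
  have hAF : HasDerivAt AF ((Real.sinh s * shc s - Real.cosh s *
      ((s * Real.cosh s - Real.sinh s) / s ^ 2)) / shc s ^ 2) s :=
    ((Real.hasDerivAt_cosh s).div hshc hpos.ne').sub_const 1
  have hcomp := hAF.comp p hsig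
  refine hcomp.congr_deriv ?_
  have hp' : p = (shc s)⁻¹ ^ 2 := (pi_sig hp hp1.le).symm
  have hq : q1 p = (1 - p) / AF s := by rw [q1, if_neg hp1.ne, aF]
  have hAs : AF s = (s * Real.cosh s - Real.sinh s) / Real.sinh s := by
    rw [AF, shc_of_ne hs.ne']; field_simp
  rw [dF, hq, hAs, hp', shc_of_ne hs.ne']
  have hc := Real.cosh_sq s
  rw [show (2 - 1 : ℕ) = 1 from rfl]
  push_cast
  field_simp
  linear_combination (s ^ 2) * hc

theorem seg_mem {p p0 τ : ℝ} (hp : 0 < p) (hp1 : p ≤ 1) (hp0 : 0 < p0) (hp01 : p0 ≤ 1)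
    (hτ : τ ∈ Icc (0 : ℝ) 1) : 0 < τ * p + (1 - τ) * p0 ∧ τ * p + (1 - τ) * p0 ≤ 1 := by
  obtain ⟨h0, h1⟩ := hτ
  constructor
  · rcases h0.eq_or_lt with h | h
    · subst h; simpa using hp0
    · have := mul_pos h hp
      have := mul_nonneg (sub_nonneg.2 h1) hp0.le
      linarith
  · nlinarith [mul_le_mul_of_nonneg_left hp1 h0, mul_le_mul_of_nonneg_left hp01 (sub_nonneg.2 h1)]

/-- The divided difference of `a` is an average of `d`. -/
theorem dF_integral {p p0 : ℝ} (hp : 0 < p) (hp1 : p ≤ 1) (hp0 : 0 < p0) (hp01 : p0 ≤ 1) :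
    IntervalIntegrable (fun τ => dF (τ * p + (1 - τ) * p0)) volume 0 1 ∧
      (∫ τ in (0 : ℝ)..1, dF (τ * p + (1 - τ) * p0)) * (p0 - p) = aF p - aF p0 := by
  by_cases hpp : p = p0
  · subst hpp
    have : (fun τ : ℝ => dF (τ * p + (1 - τ) * p)) = fun _ => dF p := by
      funext τ; congr 1; ring
    rw [this]
    exact ⟨intervalIntegrable_const, by simp⟩
  have hne : p0 - p ≠ 0 := sub_ne_zero.2 (Ne.symm hpp)
  have hcont : ContinuousOn (fun τ => aF (τ * p + (1 - τ) * p0) / (p0 - p)) (Icc 0 1) := by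
    intro τ hτ
    have h1 : ContinuousAt (fun τ : ℝ => τ * p + (1 - τ) * p0) τ := by fun_prop
    exact ((ContinuousAt.comp (g := aF) (f := fun τ : ℝ => τ * p + (1 - τ) * p0)
      (continuousAt_aF (seg_mem hp hp1 hp0 hp01 hτ).1) h1).div_const _).continuousWithinAt
  have hder : ∀ τ ∈ Ioo (0 : ℝ) 1, HasDerivAt (fun τ => aF (τ * p + (1 - τ) * p0) / (p0 - p))
      (dF (τ * p + (1 - τ) * p0)) τ := by
    intro τ hτ
    have hm := seg_mem hp hp1 hp0 hp01 ⟨hτ.1.le, hτ.2.le⟩
    have hlt : τ * p + (1 - τ) * p0 < 1 := by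
      rcases lt_or_gt_of_ne hpp with h | h
      · have := mul_pos hτ.1 (sub_pos.2 h)
        nlinarith
      · have := mul_pos (sub_pos.2 hτ.2) (sub_pos.2 h)
        nlinarith
    have h1 : HasDerivAt (fun τ : ℝ => τ * p + (1 - τ) * p0) (p - p0) τ := by
      have := ((hasDerivAt_id τ).mul_const p).add
        (((hasDerivAt_id τ).const_sub 1).mul_const p0)
      exact this.congr_deriv (by ring)
    have h2 := (HasDerivAt.comp τ (h₂ := aF) (h := fun τ : ℝ => τ * p + (1 - τ) * p0)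
      (hasDerivAt_aF hm.1 hlt) h1).div_const (p0 - p)
    refine h2.congr_deriv ?_
    field_simp
    ring
  have hint : IntervalIntegrable (fun τ => dF (τ * p + (1 - τ) * p0)) volume 0 1 := by
    refine intervalIntegral.intervalIntegrable_deriv_of_nonneg
      (g := fun τ => aF (τ * p + (1 - τ) * p0) / (p0 - p)) ?_ ?_ ?_
    · rwa [uIcc_of_le zero_le_one]
    · simpa only [min_eq_left zero_le_one, max_eq_right zero_le_one] using hder
    · intro τ hτ
      rw [min_eq_left zero_le_one, max_eq_right zero_le_one] at hτ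
      have hm := seg_mem hp hp1 hp0 hp01 ⟨hτ.1.le, hτ.2.le⟩
      exact (dF_pos hm.1 hm.2).le
  refine ⟨hint, ?_⟩
  rw [intervalIntegral.integral_eq_sub_of_hasDerivAt_of_le zero_le_one hcont hder hint]
  field_simp
  simp

/-- The case `p₀ = 1`. -/
theorem dF_integral_one {p : ℝ} (hp : 0 < p) (hp1 : p ≤ 1) :
    ∫ τ in (0 : ℝ)..1, dF (τ * p + (1 - τ) * 1) = (q1 p)⁻¹ := by
  by_cases h : p = 1
  · subst h
    have : (fun τ : ℝ => dF (τ * 1 + (1 - τ) * 1)) = fun _ => 1 := by
      funext τ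
      rw [show τ * 1 + (1 - τ) * 1 = (1 : ℝ) by ring, dF_one]
    rw [this]
    simp [q1]
  · have h1 := (dF_integral hp hp1 one_pos le_rfl).2
    rw [aF_one, sub_zero] at h1
    have hne : 1 - p ≠ 0 := sub_ne_zero.2 (Ne.symm h)
    rw [q1, if_neg h, inv_div, eq_div_iff hne, h1]

end Crest.Agent.R331
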