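import Crest.Agent.R331.CertMain

/-!
Row 331, certificate part 4: the form `J` as the Schur complement of a `2 × 2` pencil, the
inequality `(*)` and its slack.
-/

set_option autoImplicit false

namespace Crest.Agent.R331

open Matrix

/-- The denominator `X + Y + 2 Q` of the pencil. -/
noncomputable def WF (x y x0 y0 : ℝ) : ℝ := (x + x0) + (y + y0) + 2 * QF x y x0 y0

/-- The form `J`; `J ((x₀ - y₀) - (x - y)) = y x₀ - y₀ x` when `LM x y = LM x₀ y₀`. -/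
noncomputable def JF (x y x0 y0 : ℝ) : ℝ :=
  ((x + x0) + (y + y0) - ((x + x0) - (y + y0)) ^ 2 / WF x y x0 y0) / 4

/-- The slack symbol. -/
noncomputable def SF (x y x0 y0 : ℝ) : ℝ :=
  (x * ((y + y0) + QF x y x0 y0) ^ 2 + y * ((x + x0) + QF x y x0 y0) ^ 2) / WF x y x0 y0 ^ 2

/-- The optimal ratio `w / z` in the pencil. -/
noncomputable def rF (x y x0 y0 : ℝ) : ℝ := -(((x + x0) - (y + y0)) / WF x y x0 y0)

section scalar
variable {x y x0 y0 : ℝ}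

theorem WF_pos (hx : 0 < x) (hy : 0 < y) (hx0 : 0 < x0) (hy0 : 0 < y0)
    (h : LM x y = LM x0 y0) : 0 < WF x y x0 y0 := by
  have := QF_pos hx hy hx0 hy0 h
  unfold WF
  linarith

theorem JF_mul (hx : 0 < x) (hy : 0 < y) (hx0 : 0 < x0) (hy0 : 0 < y0)
    (h : LM x y = LM x0 y0) :
    JF x y x0 y0 * ((x0 - y0) - (x - y)) = y * x0 - y0 * x := by
  have hW := WF_pos hx hy hx0 hy0 h
  have hQ := QF_mul hx hy hx0 hy0 h
  have h1 : WF x y x0 y0 * ((x + y) - (x0 + y0)) = (x - y) ^ 2 - (x0 - y0) ^ 2 := by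
    unfold WF
    linear_combination 2 * hQ
  rw [JF]
  set W := WF x y x0 y0
  field_simp
  linear_combination (-(x + x0 - (y + y0))) * h1

theorem JF_eq (hx : 0 < x) (hy : 0 < y) (hx0 : 0 < x0) (hy0 : 0 < y0)
    (h : LM x y = LM x0 y0) :
    JF x y x0 y0 = (2 * (x + x0) * (y + y0) + QF x y x0 y0 * ((x + x0) + (y + y0)))
      / (2 * WF x y x0 y0) := by
  have hW := WF_pos hx hy hx0 hy0 h
  rw [JF]
  field_simp
  unfold WF
  ring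

theorem JF_pos (hx : 0 < x) (hy : 0 < y) (hx0 : 0 < x0) (hy0 : 0 < y0)
    (h : LM x y = LM x0 y0) : 0 < JF x y x0 y0 := by
  have hW := WF_pos hx hy hx0 hy0 h
  have hQ := QF_pos hx hy hx0 hy0 h
  rw [JF_eq hx hy hx0 hy0 h]
  positivity

theorem SF_pos (hx : 0 < x) (hy : 0 < y) (hx0 : 0 < x0) (hy0 : 0 < y0)
    (h : LM x y = LM x0 y0) : 0 < SF x y x0 y0 := by
  have hW := WF_pos hx hy hx0 hy0 h
  have hQ := QF_pos hx hy hx0 hy0 h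
  unfold SF
  positivity

/-- Completing the square in the pencil. -/
theorem pencil_eq (hx : 0 < x) (hy : 0 < y) (hx0 : 0 < x0) (hy0 : 0 < y0)
    (h : LM x y = LM x0 y0) (z w : ℂ) :
    ((x + x0) * ‖z + w‖ ^ 2 + (y + y0) * ‖z - w‖ ^ 2 + 2 * QF x y x0 y0 * ‖w‖ ^ 2) / 4
      = JF x y x0 y0 * ‖z‖ ^ 2 + WF x y x0 y0 / 4 * ‖w - (rF x y x0 y0 : ℂ) * z‖ ^ 2 := by
  have hW := WF_pos hx hy hx0 hy0 h
  have hQ : QF x y x0 y0 = (WF x y x0 y0 - (x + x0) - (y + y0)) / 2 := by unfold WF; ring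
  simp only [Complex.sq_norm, Complex.normSq_apply, Complex.add_re, Complex.add_im,
    Complex.sub_re, Complex.sub_im, Complex.mul_re, Complex.mul_im, Complex.ofReal_re,
    Complex.ofReal_im]
  rw [hQ, JF, rF]
  set W := WF x y x0 y0
  field_simp
  ring

theorem one_add_rF (hx : 0 < x) (hy : 0 < y) (hx0 : 0 < x0) (hy0 : 0 < y0)
    (h : LM x y = LM x0 y0) :
    x * (1 + rF x y x0 y0) ^ 2 + y * (1 - rF x y x0 y0) ^ 2 = 4 * SF x y x0 y0 := by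
  have hW := WF_pos hx hy hx0 hy0 h
  have hQ : QF x y x0 y0 = (WF x y x0 y0 - (x + x0) - (y + y0)) / 2 := by unfold WF; ring
  rw [SF, rF, hQ]
  set W := WF x y x0 y0
  field_simp
  ring

theorem JF_le (hx : 0 < x) (hy : 0 < y) (hx0 : 0 < x0) (hy0 : 0 < y0)
    (h : LM x y = LM x0 y0) : JF x y x0 y0 ≤ 3 * max x0 y0 := by
  have hW := WF_pos hx hy hx0 hy0 h
  have hQ := QF_le hx hy hx0 hy0 h
  have h1 := pencil_eq hx hy hx0 hy0 h 1 1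
  have h2 := pencil_eq hx hy hx0 hy0 h 1 (-1)
  have e : ‖(1 : ℂ) + 1‖ = 2 := by rw [one_add_one_eq_two]; simp
  simp only [sub_self, norm_zero, norm_one, e, sub_neg_eq_add, add_neg_cancel, norm_neg] at h1 h2
  have p1 : 0 ≤ WF x y x0 y0 / 4 * ‖1 - (rF x y x0 y0 : ℂ) * 1‖ ^ 2 := by positivity
  have p2 : 0 ≤ WF x y x0 y0 / 4 * ‖-1 - (rF x y x0 y0 : ℂ) * 1‖ ^ 2 := by positivity
  have m1 := min_le_LM hx hy
  have m2 := LM_le_max hx0 hy0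
  have m3 := le_max_left x0 y0
  have m4 := le_max_right x0 y0
  rcases le_total x y with hxy | hxy
  · rw [min_eq_left hxy] at m1
    nlinarith
  · rw [min_eq_right hxy] at m1
    nlinarith

/-- The slack controls `J`: if `y₀ ≤ x₀ ≤ r y₀` then `J² ≤ 9 r² (3 + r)² · SF · (x + y)`. -/
theorem JF_sq_le (hx : 0 < x) (hy : 0 < y) (hx0 : 0 < x0) (hy0 : 0 < y0)
    (h : LM x y = LM x0 y0) {r : ℝ} (h1 : y0 ≤ x0) (h2 : x0 ≤ r * y0) :
    JF x y x0 y0 ^ 2 ≤ 9 * r ^ 2 * (3 + r) ^ 2 * (SF x y x0 y0 * (x + y)) := by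
  have hW := WF_pos hx hy hx0 hy0 h
  have hQ := QF_le hx hy hx0 hy0 h
  have hQ0 := QF_pos hx hy hx0 hy0 h
  have hJ := JF_le hx hy hx0 hy0 h
  have hJ0 := JF_pos hx hy hx0 hy0 h
  rw [max_eq_left h1] at hJ
  have m1 := min_le_LM hx0 hy0
  rw [min_eq_right h1, ← h] at m1
  have m2 := LM_le_half hx hy
  have hr : 1 ≤ r := by
    by_contra hr
    have := mul_lt_mul_of_pos_right (not_le.1 hr) hy0
    linarith
  have hxr : x0 ≤ r * ((x + y) / 2) :=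
    h2.trans (mul_le_mul_of_nonneg_left (by linarith) (by linarith))
  have hWle : WF x y x0 y0 ≤ (3 + r) * (x + y) := by
    unfold WF
    nlinarith
  have hS : y0 ^ 2 * (x + y) ≤ SF x y x0 y0 * WF x y x0 y0 ^ 2 := by
    rw [SF, div_mul_cancel₀ _ (by positivity)]
    have a1 : y0 ^ 2 ≤ ((y + y0) + QF x y x0 y0) ^ 2 :=
      pow_le_pow_left₀ hy0.le (by linarith) 2
    have a2 : y0 ^ 2 ≤ ((x + x0) + QF x y x0 y0) ^ 2 :=
      pow_le_pow_left₀ hy0.le (by linarith) 2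
    nlinarith [mul_le_mul_of_nonneg_left a1 hx.le, mul_le_mul_of_nonneg_left a2 hy.le]
  have hS0 := SF_pos hx hy hx0 hy0 h
  have hxy : 0 < x + y := by linarith
  have hW2 : WF x y x0 y0 ^ 2 ≤ ((3 + r) * (x + y)) ^ 2 := pow_le_pow_left₀ hW.le hWle 2
  have h3 : y0 ^ 2 * (x + y) ≤ ((3 + r) ^ 2 * (SF x y x0 y0 * (x + y))) * (x + y) := by
    calc y0 ^ 2 * (x + y) ≤ SF x y x0 y0 * ((3 + r) * (x + y)) ^ 2 :=
          hS.trans (mul_le_mul_of_nonneg_left hW2 hS0.le)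
      _ = _ := by ring
  have h4 : y0 ^ 2 ≤ (3 + r) ^ 2 * (SF x y x0 y0 * (x + y)) := le_of_mul_le_mul_right h3 hxy
  have h5 : JF x y x0 y0 ^ 2 ≤ (3 * (r * y0)) ^ 2 :=
    pow_le_pow_left₀ hJ0.le (by linarith) 2
  calc JF x y x0 y0 ^ 2 ≤ 9 * r ^ 2 * y0 ^ 2 := by nlinarith
    _ ≤ 9 * r ^ 2 * ((3 + r) ^ 2 * (SF x y x0 y0 * (x + y))) :=
        mul_le_mul_of_nonneg_left h4 (by positivity)
    _ = _ := by ring

end scalar

/-- The data of the abstract inequality `(*)`: four positive symbols with equal logarithmic means. -/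
structure Quad {I : Type} (x y x0 y0 : I → ℝ) : Prop where
  hx : ∀ i, 0 < x i
  hy : ∀ i, 0 < y i
  hx0 : ∀ i, 0 < x0 i
  hy0 : ∀ i, 0 < y0 i
  hLM : ∀ i, LM (x i) (y i) = LM (x0 i) (y0 i)

section star
variable {I J : Type} [Fintype I] [Fintype J] {T : Matrix J I ℂ}
  {x y x0 y0 : I → ℝ} {x' y' x0' y0' : J → ℝ} {k : ℝ}

/-- The pencil inequality from which both slack forms of `(*)` follow. -/
theorem star_pencil (q : Quad x y x0 y0) (q' : Quad x' y' x0' y0') (hk1 : k ≤ 1)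
    (cx : Contracts T x x' k) (cy : Contracts T y y' k)
    (cx0 : Contracts T x0 x0' 1) (cy0 : Contracts T y0 y0' 1) (z : I → ℂ) :
    ∃ w : I → ℂ,
      (∑ i, x i * ‖(z + w) i‖ ^ 2 + ∑ i, y i * ‖(z - w) i‖ ^ 2
        = 4 * ∑ i, SF (x i) (y i) (x0 i) (y0 i) * ‖z i‖ ^ 2) ∧
      (∑ j, x0' j * ‖(T *ᵥ (z + w)) j‖ ^ 2 + ∑ j, y0' j * ‖(T *ᵥ (z - w)) j‖ ^ 2
        + 2 * ∑ j, QF (x' j) (y' j) (x0' j) (y0' j) * ‖(T *ᵥ w) j‖ ^ 2
        + 4 * ∑ i, SF (x i) (y i) (x0 i) (y0 i) * ‖z i‖ ^ 2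
        ≤ 4 * ∑ i, JF (x i) (y i) (x0 i) (y0 i) * ‖z i‖ ^ 2) := by
  have cQ := Contracts.QF q.hx q.hy q.hx0 q.hy0 q'.hx q'.hy q'.hx0 q'.hy0 q.hLM q'.hLM
    (cx.mono (fun i => mul_le_mul_of_nonneg_right hk1 (q.hx i).le) fun _ => le_rfl)
    (cy.mono (fun i => mul_le_mul_of_nonneg_right hk1 (q.hy i).le) fun _ => le_rfl) cx0 cy0
  set w : I → ℂ := fun i => (rF (x i) (y i) (x0 i) (y0 i) : ℂ) * z i with hw
  have e1 : ∑ i, x i * ‖(z + w) i‖ ^ 2 + ∑ i, y i * ‖(z - w) i‖ ^ 2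
      = 4 * ∑ i, SF (x i) (y i) (x0 i) (y0 i) * ‖z i‖ ^ 2 := by
    rw [← Finset.sum_add_distrib, Finset.mul_sum]
    refine Finset.sum_congr rfl fun i _ => ?_
    have a1 : (z + w) i = ((1 + rF (x i) (y i) (x0 i) (y0 i) : ℝ) : ℂ) * z i := by
      simp only [hw, Pi.add_apply]; push_cast; ring
    have a2 : (z - w) i = ((1 - rF (x i) (y i) (x0 i) (y0 i) : ℝ) : ℂ) * z i := by
      simp only [hw, Pi.sub_apply]; push_cast; ring
    rw [a1, a2, norm_mul, norm_mul, mul_pow, mul_pow, Complex.norm_real, Complex.norm_real,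
      Real.norm_eq_abs, Real.norm_eq_abs, sq_abs, sq_abs]
    linear_combination ‖z i‖ ^ 2 * one_add_rF (q.hx i) (q.hy i) (q.hx0 i) (q.hy0 i) (q.hLM i)
  refine ⟨w, e1, ?_⟩
  have e2 : ∑ i, x i * ‖(z + w) i‖ ^ 2 + ∑ i, y i * ‖(z - w) i‖ ^ 2
      + ∑ i, x0 i * ‖(z + w) i‖ ^ 2 + ∑ i, y0 i * ‖(z - w) i‖ ^ 2
      + 2 * ∑ i, QF (x i) (y i) (x0 i) (y0 i) * ‖w i‖ ^ 2
      = 4 * ∑ i, JF (x i) (y i) (x0 i) (y0 i) * ‖z i‖ ^ 2 := by
    rw [Finset.mul_sum, Finset.mul_sum, ← Finset.sum_add_distrib, ← Finset.sum_add_distrib,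
      ← Finset.sum_add_distrib, ← Finset.sum_add_distrib]
    refine Finset.sum_congr rfl fun i _ => ?_
    have := pencil_eq (q.hx i) (q.hy i) (q.hx0 i) (q.hy0 i) (q.hLM i) (z i) (w i)
    have a0 : w i - (rF (x i) (y i) (x0 i) (y0 i) : ℂ) * z i = 0 := by simp [hw]
    rw [a0, norm_zero] at this
    simp only [Pi.add_apply, Pi.sub_apply]
    linarith
  have b1 := cx0 (z + w)
  have b2 := cy0 (z - w)
  have b3 := cQ w
  simp only at b3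
  linarith

theorem pencil_sum (q' : Quad x' y' x0' y0') (Z W : J → ℂ) :
    ∑ j, x' j * ‖(Z + W) j‖ ^ 2 + ∑ j, y' j * ‖(Z - W) j‖ ^ 2
      + ∑ j, x0' j * ‖(Z + W) j‖ ^ 2 + ∑ j, y0' j * ‖(Z - W) j‖ ^ 2
      + 2 * ∑ j, QF (x' j) (y' j) (x0' j) (y0' j) * ‖W j‖ ^ 2
      = 4 * ∑ j, JF (x' j) (y' j) (x0' j) (y0' j) * ‖Z j‖ ^ 2
        + ∑ j, WF (x' j) (y' j) (x0' j) (y0' j) *
          ‖W j - (rF (x' j) (y' j) (x0' j) (y0' j) : ℂ) * Z j‖ ^ 2 := by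
  rw [Finset.mul_sum, Finset.mul_sum, ← Finset.sum_add_distrib, ← Finset.sum_add_distrib,
    ← Finset.sum_add_distrib, ← Finset.sum_add_distrib, ← Finset.sum_add_distrib]
  refine Finset.sum_congr rfl fun j _ => ?_
  have := pencil_eq (q'.hx j) (q'.hy j) (q'.hx0 j) (q'.hy0 j) (q'.hLM j) (Z j) (W j)
  simp only [Pi.add_apply, Pi.sub_apply]
  linarith

/-- `(*)` with the slack on the source side. -/
theorem starC (q : Quad x y x0 y0) (q' : Quad x' y' x0' y0') (hk1 : k ≤ 1)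
    (cx : Contracts T x x' k) (cy : Contracts T y y' k)
    (cx0 : Contracts T x0 x0' 1) (cy0 : Contracts T y0 y0' 1) (z : I → ℂ) :
    ∑ j, JF (x' j) (y' j) (x0' j) (y0' j) * ‖(T *ᵥ z) j‖ ^ 2
      + (1 - k) * ∑ i, SF (x i) (y i) (x0 i) (y0 i) * ‖z i‖ ^ 2
      ≤ ∑ i, JF (x i) (y i) (x0 i) (y0 i) * ‖z i‖ ^ 2 := by
  obtain ⟨w, e1, e2⟩ := star_pencil q q' hk1 cx cy cx0 cy0 z
  have e3 := pencil_sum q' (T *ᵥ z) (T *ᵥ w)
  rw [← mulVec_add, ← mulVec_sub] at e3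
  have p : 0 ≤ ∑ j, WF (x' j) (y' j) (x0' j) (y0' j) *
      ‖(T *ᵥ w) j - (rF (x' j) (y' j) (x0' j) (y0' j) : ℂ) * (T *ᵥ z) j‖ ^ 2 :=
    Finset.sum_nonneg fun j _ => mul_nonneg
      (WF_pos (q'.hx j) (q'.hy j) (q'.hx0 j) (q'.hy0 j) (q'.hLM j)).le (by positivity)
  have b1 := cx (z + w)
  have b2 := cy (z - w)
  have b3 : k * ∑ i, x i * ‖(z + w) i‖ ^ 2 + k * ∑ i, y i * ‖(z - w) i‖ ^ 2
      = 4 * k * ∑ i, SF (x i) (y i) (x0 i) (y0 i) * ‖z i‖ ^ 2 := by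
    rw [← mul_add, e1]; ring
  linarith

theorem half_sq_le (a e : ℂ) : ‖a‖ ^ 2 / 2 - ‖e‖ ^ 2 ≤ ‖a + e‖ ^ 2 := by
  simp only [Complex.sq_norm, Complex.normSq_apply, Complex.add_re, Complex.add_im]
  nlinarith [sq_nonneg (a.re + 2 * e.re), sq_nonneg (a.im + 2 * e.im)]

/-- `(*)` with the slack on the target side. -/
theorem starX (q : Quad x y x0 y0) (q' : Quad x' y' x0' y0') (hk0 : 0 ≤ k) (hk1 : k ≤ 1)
    (cx : Contracts T x x' k) (cy : Contracts T y y' k)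
    (cx0 : Contracts T x0 x0' 1) (cy0 : Contracts T y0 y0' 1) (z : I → ℂ) :
    ∑ j, JF (x' j) (y' j) (x0' j) (y0' j) * ‖(T *ᵥ z) j‖ ^ 2
      + (1 - k) / 2 * ∑ j, SF (x' j) (y' j) (x0' j) (y0' j) * ‖(T *ᵥ z) j‖ ^ 2
      ≤ ∑ i, JF (x i) (y i) (x0 i) (y0 i) * ‖z i‖ ^ 2 := by
  obtain ⟨w, e1, e2⟩ := star_pencil q q' hk1 cx cy cx0 cy0 z
  have e3 := pencil_sum q' (T *ᵥ z) (T *ᵥ w)
  have e4 : 2 * ∑ j, SF (x' j) (y' j) (x0' j) (y0' j) * ‖(T *ᵥ z) j‖ ^ 2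
      ≤ ∑ j, x' j * ‖(T *ᵥ z + T *ᵥ w) j‖ ^ 2 + ∑ j, y' j * ‖(T *ᵥ z - T *ᵥ w) j‖ ^ 2
        + ∑ j, WF (x' j) (y' j) (x0' j) (y0' j) *
          ‖(T *ᵥ w) j - (rF (x' j) (y' j) (x0' j) (y0' j) : ℂ) * (T *ᵥ z) j‖ ^ 2 := by
    rw [Finset.mul_sum, ← Finset.sum_add_distrib, ← Finset.sum_add_distrib]
    refine Finset.sum_le_sum fun j _ => ?_
    have hx := q'.hx j
    have hy := q'.hy j
    have hS := one_add_rF hx hy (q'.hx0 j) (q'.hy0 j) (q'.hLM j)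
    have hQ := QF_pos hx hy (q'.hx0 j) (q'.hy0 j) (q'.hLM j)
    have hW : x' j + y' j ≤ WF (x' j) (y' j) (x0' j) (y0' j) := by
      unfold WF
      linarith [q'.hx0 j, q'.hy0 j]
    set r := rF (x' j) (y' j) (x0' j) (y0' j)
    set Z := (T *ᵥ z) j
    set e := (T *ᵥ w) j - (r : ℂ) * Z with he
    have a1 : (T *ᵥ z + T *ᵥ w) j = ((1 + r : ℝ) : ℂ) * Z + e := by
      simp only [he, Pi.add_apply]; push_cast; ring
    have a2 : (T *ᵥ z - T *ᵥ w) j = ((1 - r : ℝ) : ℂ) * Z + -e := by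
      simp only [he, Pi.sub_apply]; push_cast; ring
    have c1 := half_sq_le (((1 + r : ℝ) : ℂ) * Z) e
    have c2 := half_sq_le (((1 - r : ℝ) : ℂ) * Z) (-e)
    rw [← a1] at c1
    rw [← a2, norm_neg] at c2
    rw [norm_mul, mul_pow, Complex.norm_real, Real.norm_eq_abs, sq_abs] at c1 c2
    have d1 := mul_le_mul_of_nonneg_left c1 hx.le
    have d2 := mul_le_mul_of_nonneg_left c2 hy.le
    have d3 := mul_le_mul_of_nonneg_right hW (sq_nonneg ‖e‖)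
    have d4 : (x' j * (1 + r) ^ 2 + y' j * (1 - r) ^ 2) * ‖Z‖ ^ 2
        = 4 * SF (x' j) (y' j) (x0' j) (y0' j) * ‖Z‖ ^ 2 := by rw [hS]
    nlinarith
  rw [← mulVec_add, ← mulVec_sub] at e3 e4
  have p : 0 ≤ ∑ j, WF (x' j) (y' j) (x0' j) (y0' j) *
      ‖(T *ᵥ w) j - (rF (x' j) (y' j) (x0' j) (y0' j) : ℂ) * (T *ᵥ z) j‖ ^ 2 :=
    Finset.sum_nonneg fun j _ => mul_nonneg
      (WF_pos (q'.hx j) (q'.hy j) (q'.hx0 j) (q'.hy0 j) (q'.hLM j)).le (by positivity)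
  have b1 := cx (z + w)
  have b2 := cy (z - w)
  have b3 : k * ∑ i, x i * ‖(z + w) i‖ ^ 2 + k * ∑ i, y i * ‖(z - w) i‖ ^ 2
      = 4 * k * ∑ i, SF (x i) (y i) (x0 i) (y0 i) * ‖z i‖ ^ 2 := by
    rw [← mul_add, e1]; ring
  have s0 : 0 ≤ ∑ i, SF (x i) (y i) (x0 i) (y0 i) * ‖z i‖ ^ 2 :=
    Finset.sum_nonneg fun i _ => mul_nonneg
      (SF_pos (q.hx i) (q.hy i) (q.hx0 i) (q.hy0 i) (q.hLM i)).le (by positivity)
  set A := ∑ j, x' j * ‖(T *ᵥ (z + w)) j‖ ^ 2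
  set B := ∑ j, y' j * ‖(T *ᵥ (z - w)) j‖ ^ 2
  set S := ∑ i, SF (x i) (y i) (x0 i) (y0 i) * ‖z i‖ ^ 2
  set S' := ∑ j, SF (x' j) (y' j) (x0' j) (y0' j) * ‖(T *ᵥ z) j‖ ^ 2
  set E := ∑ j, WF (x' j) (y' j) (x0' j) (y0' j) *
      ‖(T *ᵥ w) j - (rF (x' j) (y' j) (x0' j) (y0' j) : ℂ) * (T *ᵥ z) j‖ ^ 2
  have hAB : A + B ≤ 4 * k * S := by linarith
  have f1 := mul_le_mul_of_nonneg_left e4 (sub_nonneg.2 hk1)
  have f2 := mul_le_mul_of_nonneg_left hAB (sub_nonneg.2 hk1)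
  have f3 : 0 ≤ k * E := mul_nonneg hk0 p
  have f4 : 0 ≤ (1 - k) * (1 - k) * S :=
    mul_nonneg (mul_nonneg (sub_nonneg.2 hk1) (sub_nonneg.2 hk1)) s0
  nlinarith

/-- `(*)` with slack on both sides. -/
theorem star (q : Quad x y x0 y0) (q' : Quad x' y' x0' y0') (hk0 : 0 ≤ k) (hk1 : k ≤ 1)
    (cx : Contracts T x x' k) (cy : Contracts T y y' k)
    (cx0 : Contracts T x0 x0' 1) (cy0 : Contracts T y0 y0' 1) (z : I → ℂ) :
    ∑ j, JF (x' j) (y' j) (x0' j) (y0' j) * ‖(T *ᵥ z) j‖ ^ 2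
      + (1 - k) / 2 * ∑ i, SF (x i) (y i) (x0 i) (y0 i) * ‖z i‖ ^ 2
      + (1 - k) / 4 * ∑ j, SF (x' j) (y' j) (x0' j) (y0' j) * ‖(T *ᵥ z) j‖ ^ 2
      ≤ ∑ i, JF (x i) (y i) (x0 i) (y0 i) * ‖z i‖ ^ 2 := by
  have h1 := starC q q' hk1 cx cy cx0 cy0 z
  have h2 := starX q q' hk0 hk1 cx cy cx0 cy0 z
  linarith

end star

end Crest.Agent.R331
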