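import Mathlib
import Crest.Prelude.Def_QState

/-!
Row 331: the abstract two-input channel `(rA, rB) ↦ tr_E V (rA ⊗ rB) Vᴴ`, its Heisenberg lift, the
conditional expectations `EB`, `EA` and the ANOVA inequalities in the right and left forms.
-/

set_option autoImplicit false
set_option linter.unusedSectionVars false

namespace Crest.Agent.R331.Ch

open Matrix Kronecker Crest.Quantum
open scoped ComplexOrder

variable {I J P E : Type} [Fintype I] [Fintype J] [Fintype P] [Fintype E]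
  [DecidableEq I] [DecidableEq J] [DecidableEq P] [DecidableEq E]

/-- Heisenberg lift `Vᴴ (Z ⊗ 1) V`. -/
noncomputable def liftX (V : Matrix (P × E) (I × J) ℂ) (Z : Matrix P P ℂ) :
    Matrix (I × J) (I × J) ℂ :=
  Vᴴ * (Z ⊗ₖ (1 : Matrix E E ℂ)) * V

/-- Partial trace over the second factor. -/
noncomputable def ptrE (W : Matrix (P × E) (P × E) ℂ) : Matrix P P ℂ :=
  Matrix.of fun p p' => ∑ e, W (p, e) (p', e)

/-- The output state. -/
noncomputable def outC (V : Matrix (P × E) (I × J) ℂ) (rA : Matrix I I ℂ) (rB : Matrix J J ℂ) :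
    Matrix P P ℂ :=
  ptrE (V * (rA ⊗ₖ rB) * Vᴴ)

/-- Conditional expectation onto the first factor: `tr_B ((1 ⊗ rB) X)`. -/
noncomputable def EB (rB : Matrix J J ℂ) (X : Matrix (I × J) (I × J) ℂ) : Matrix I I ℂ :=
  Matrix.of fun i i2 => ∑ j, ∑ j2, rB j2 j * X (i, j) (i2, j2)

/-- Conditional expectation onto the second factor: `tr_A ((rA ⊗ 1) X)`. -/
noncomputable def EA (rA : Matrix I I ℂ) (X : Matrix (I × J) (I × J) ℂ) : Matrix J J ℂ :=
  Matrix.of fun j j2 => ∑ i, ∑ i2, rA i2 i * X (i, j) (i2, j2)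

/-! ### Trace dualities -/

theorem trace_mul_ptrE (Z : Matrix P P ℂ) (W : Matrix (P × E) (P × E) ℂ) :
    (Z * ptrE W).trace = ((Z ⊗ₖ (1 : Matrix E E ℂ)) * W).trace := by
  simp only [Matrix.trace, Matrix.diag, Matrix.mul_apply, ptrE, Matrix.of_apply,
    Fintype.sum_prod_type, Matrix.kroneckerMap_apply, Matrix.one_apply, Finset.mul_sum]
  refine Finset.sum_congr rfl fun p _ => ?_
  rw [Finset.sum_comm]
  refine Finset.sum_congr rfl fun e _ => Finset.sum_congr rfl fun p' _ => ?_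
  simp

theorem trace_mul_kron_B (X : Matrix (I × J) (I × J) ℂ) (Y : Matrix I I ℂ) (rB : Matrix J J ℂ) :
    (X * (Y ⊗ₖ rB)).trace = (EB rB X * Y).trace := by
  simp only [Matrix.trace, Matrix.diag, Matrix.mul_apply, EB, Matrix.of_apply,
    Fintype.sum_prod_type, Matrix.kroneckerMap_apply, Finset.sum_mul]
  refine Finset.sum_congr rfl fun i _ => ?_
  rw [Finset.sum_comm]
  refine Finset.sum_congr rfl fun i2 _ => Finset.sum_congr rfl fun j _ =>
    Finset.sum_congr rfl fun j2 _ => by ring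

theorem trace_mul_kron_A (X : Matrix (I × J) (I × J) ℂ) (rA : Matrix I I ℂ) (Y : Matrix J J ℂ) :
    (X * (rA ⊗ₖ Y)).trace = (EA rA X * Y).trace := by
  simp only [Matrix.trace, Matrix.diag, Matrix.mul_apply, EA, Matrix.of_apply,
    Fintype.sum_prod_type, Matrix.kroneckerMap_apply, Finset.sum_mul]
  rw [Finset.sum_comm]
  refine Finset.sum_congr rfl fun j _ => ?_
  calc ∑ i, ∑ i2, ∑ j2, X (i, j) (i2, j2) * (rA i2 i * Y j2 j)
      = ∑ i, ∑ j2, ∑ i2, X (i, j) (i2, j2) * (rA i2 i * Y j2 j) :=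
        Finset.sum_congr rfl fun i _ => Finset.sum_comm
    _ = ∑ j2, ∑ i, ∑ i2, X (i, j) (i2, j2) * (rA i2 i * Y j2 j) := Finset.sum_comm
    _ = _ := Finset.sum_congr rfl fun j2 _ => Finset.sum_congr rfl fun i _ =>
        Finset.sum_congr rfl fun i2 _ => by ring

theorem trace_mul_outC (V : Matrix (P × E) (I × J) ℂ) (rA : Matrix I I ℂ) (rB : Matrix J J ℂ)
    (Z : Matrix P P ℂ) : (Z * outC V rA rB).trace = (liftX V Z * (rA ⊗ₖ rB)).trace := by
  rw [outC, trace_mul_ptrE, liftX, ← Matrix.mul_assoc, Matrix.trace_mul_comm]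
  simp only [Matrix.mul_assoc]

theorem trace_mul_outC_B (V : Matrix (P × E) (I × J) ℂ) (rA : Matrix I I ℂ) (rB : Matrix J J ℂ)
    (Z : Matrix P P ℂ) : (Z * outC V rA rB).trace = (EB rB (liftX V Z) * rA).trace := by
  rw [trace_mul_outC, trace_mul_kron_B]

theorem trace_mul_outC_A (V : Matrix (P × E) (I × J) ℂ) (rA : Matrix I I ℂ) (rB : Matrix J J ℂ)
    (Z : Matrix P P ℂ) : (Z * outC V rA rB).trace = (EA rA (liftX V Z) * rB).trace := by
  rw [trace_mul_outC, trace_mul_kron_A]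

/-- A matrix is determined by its trace pairings. -/
theorem ext_trace {K : Type} [Fintype K] [DecidableEq K] {X Y : Matrix K K ℂ}
    (h : ∀ W : Matrix K K ℂ, (X * W).trace = (Y * W).trace) : X = Y := by
  ext a b
  have := h (Matrix.single b a 1)
  simpa [Matrix.trace_mul_single] using this

/-! ### Linearity -/

theorem liftX_add (V : Matrix (P × E) (I × J) ℂ) (Z W : Matrix P P ℂ) :
    liftX V (Z + W) = liftX V Z + liftX V W := by
  simp [liftX, Matrix.add_kronecker, Matrix.mul_add, Matrix.add_mul]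

theorem liftX_smul (V : Matrix (P × E) (I × J) ℂ) (c : ℂ) (Z : Matrix P P ℂ) :
    liftX V (c • Z) = c • liftX V Z := by
  simp [liftX, Matrix.smul_kronecker]

theorem liftX_sub (V : Matrix (P × E) (I × J) ℂ) (Z W : Matrix P P ℂ) :
    liftX V (Z - W) = liftX V Z - liftX V W := by
  have h := liftX_add V (Z - W) W
  rw [sub_add_cancel] at h
  rw [h, add_sub_cancel_right]

theorem liftX_one (V : Matrix (P × E) (I × J) ℂ) (hV : Vᴴ * V = 1) : liftX V 1 = 1 := by
  simp [liftX, hV]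

theorem liftX_conjTranspose (V : Matrix (P × E) (I × J) ℂ) (Z : Matrix P P ℂ) :
    liftX V Zᴴ = (liftX V Z)ᴴ := by
  simp [liftX, Matrix.conjTranspose_mul, Matrix.conjTranspose_kronecker, Matrix.mul_assoc]

theorem EB_add (rB : Matrix J J ℂ) (X Y : Matrix (I × J) (I × J) ℂ) :
    EB rB (X + Y) = EB rB X + EB rB Y := by
  ext i i2; simp [EB, mul_add, Finset.sum_add_distrib]

theorem EB_smul (rB : Matrix J J ℂ) (c : ℂ) (X : Matrix (I × J) (I × J) ℂ) :
    EB rB (c • X) = c • EB rB X := by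
  ext i i2; simp [EB, Finset.mul_sum, mul_left_comm]

theorem EB_sub (rB : Matrix J J ℂ) (X Y : Matrix (I × J) (I × J) ℂ) :
    EB rB (X - Y) = EB rB X - EB rB Y := by
  ext i i2; simp [EB, mul_sub, Finset.sum_sub_distrib]

theorem EA_add (rA : Matrix I I ℂ) (X Y : Matrix (I × J) (I × J) ℂ) :
    EA rA (X + Y) = EA rA X + EA rA Y := by
  ext i i2; simp [EA, mul_add, Finset.sum_add_distrib]

theorem EA_smul (rA : Matrix I I ℂ) (c : ℂ) (X : Matrix (I × J) (I × J) ℂ) :
    EA rA (c • X) = c • EA rA X := by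
  ext i i2; simp [EA, Finset.mul_sum, mul_left_comm]

theorem EA_sub (rA : Matrix I I ℂ) (X Y : Matrix (I × J) (I × J) ℂ) :
    EA rA (X - Y) = EA rA X - EA rA Y := by
  ext i i2; simp [EA, mul_sub, Finset.sum_sub_distrib]

/-- `liftX` as a linear map. -/
noncomputable def liftXL (V : Matrix (P × E) (I × J) ℂ) :
    Matrix P P ℂ →ₗ[ℂ] Matrix (I × J) (I × J) ℂ where
  toFun := liftX V
  map_add' := liftX_add V
  map_smul' := liftX_smul V

/-- `EB` as a linear map. -/
noncomputable def EBL (rB : Matrix J J ℂ) : Matrix (I × J) (I × J) ℂ →ₗ[ℂ] Matrix I I ℂ where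
  toFun := EB rB
  map_add' := EB_add rB
  map_smul' := EB_smul rB

/-- `EA` as a linear map. -/
noncomputable def EAL (rA : Matrix I I ℂ) : Matrix (I × J) (I × J) ℂ →ₗ[ℂ] Matrix J J ℂ where
  toFun := EA rA
  map_add' := EA_add rA
  map_smul' := EA_smul rA

@[simp] theorem liftXL_apply (V : Matrix (P × E) (I × J) ℂ) (Z : Matrix P P ℂ) :
    liftXL V Z = liftX V Z := rfl
@[simp] theorem EBL_apply (rB : Matrix J J ℂ) (X : Matrix (I × J) (I × J) ℂ) :
    EBL rB X = EB rB X := rfl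
@[simp] theorem EAL_apply (rA : Matrix I I ℂ) (X : Matrix (I × J) (I × J) ℂ) :
    EAL rA X = EA rA X := rfl

theorem ptrE_add (W W' : Matrix (P × E) (P × E) ℂ) : ptrE (W + W') = ptrE W + ptrE W' := by
  ext p p'; simp [ptrE, Finset.sum_add_distrib]

theorem ptrE_smul (c : ℂ) (W : Matrix (P × E) (P × E) ℂ) : ptrE (c • W) = c • ptrE W := by
  ext p p'; simp [ptrE, Finset.mul_sum]

theorem outC_add_left (V : Matrix (P × E) (I × J) ℂ) (r r' : Matrix I I ℂ) (rB : Matrix J J ℂ) :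
    outC V (r + r') rB = outC V r rB + outC V r' rB := by
  simp [outC, Matrix.add_kronecker, Matrix.mul_add, Matrix.add_mul, ptrE_add]

theorem outC_smul_left (V : Matrix (P × E) (I × J) ℂ) (c : ℂ) (r : Matrix I I ℂ)
    (rB : Matrix J J ℂ) : outC V (c • r) rB = c • outC V r rB := by
  simp [outC, Matrix.smul_kronecker, ptrE_smul]

theorem outC_add_right (V : Matrix (P × E) (I × J) ℂ) (rA : Matrix I I ℂ) (r r' : Matrix J J ℂ) :
    outC V rA (r + r') = outC V rA r + outC V rA r' := by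
  simp [outC, Matrix.kronecker_add, Matrix.mul_add, Matrix.add_mul, ptrE_add]

theorem outC_smul_right (V : Matrix (P × E) (I × J) ℂ) (c : ℂ) (rA : Matrix I I ℂ)
    (r : Matrix J J ℂ) : outC V rA (c • r) = c • outC V rA r := by
  simp [outC, Matrix.kronecker_smul, ptrE_smul]

/-- `r ↦ outC V r rB` as a linear map. -/
noncomputable def outCL (V : Matrix (P × E) (I × J) ℂ) (rB : Matrix J J ℂ) :
    Matrix I I ℂ →ₗ[ℂ] Matrix P P ℂ where
  toFun r := outC V r rB
  map_add' r r' := outC_add_left V r r' rB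
  map_smul' c r := outC_smul_left V c r rB

/-- `r ↦ outC V rA r` as a linear map. -/
noncomputable def outCR (V : Matrix (P × E) (I × J) ℂ) (rA : Matrix I I ℂ) :
    Matrix J J ℂ →ₗ[ℂ] Matrix P P ℂ where
  toFun r := outC V rA r
  map_add' r r' := outC_add_right V rA r r'
  map_smul' c r := outC_smul_right V c rA r

@[simp] theorem outCL_apply (V : Matrix (P × E) (I × J) ℂ) (rB : Matrix J J ℂ)
    (r : Matrix I I ℂ) : outCL V rB r = outC V r rB := rfl
@[simp] theorem outCR_apply (V : Matrix (P × E) (I × J) ℂ) (rA : Matrix I I ℂ)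
    (r : Matrix J J ℂ) : outCR V rA r = outC V rA r := rfl

/-! ### Adjoints and the bimodule property -/

theorem EB_conjTranspose {rB : Matrix J J ℂ} (hB : rB.IsHermitian) (X : Matrix (I × J) (I × J) ℂ) :
    EB rB Xᴴ = (EB rB X)ᴴ := by
  ext i i2
  simp only [EB, Matrix.of_apply, Matrix.conjTranspose_apply, star_sum, star_mul', hB.apply]
  exact Finset.sum_comm

theorem EA_conjTranspose {rA : Matrix I I ℂ} (hA : rA.IsHermitian) (X : Matrix (I × J) (I × J) ℂ) :
    EA rA Xᴴ = (EA rA X)ᴴ := by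
  ext i i2
  simp only [EA, Matrix.of_apply, Matrix.conjTranspose_apply, star_sum, star_mul', hA.apply]
  exact Finset.sum_comm

theorem EB_mul_left (rB : Matrix J J ℂ) (Y : Matrix I I ℂ) (X : Matrix (I × J) (I × J) ℂ) :
    EB rB ((Y ⊗ₖ (1 : Matrix J J ℂ)) * X) = Y * EB rB X := by
  refine ext_trace fun W => ?_
  rw [← trace_mul_kron_B, Matrix.mul_assoc, Matrix.trace_mul_comm, Matrix.mul_assoc,
    ← Matrix.mul_kronecker_mul, Matrix.mul_one, trace_mul_kron_B, Matrix.mul_assoc,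
    Matrix.trace_mul_comm Y, Matrix.mul_assoc]

theorem EB_mul_right (rB : Matrix J J ℂ) (Y : Matrix I I ℂ) (X : Matrix (I × J) (I × J) ℂ) :
    EB rB (X * (Y ⊗ₖ (1 : Matrix J J ℂ))) = EB rB X * Y := by
  refine ext_trace fun W => ?_
  rw [← trace_mul_kron_B, Matrix.mul_assoc, ← Matrix.mul_kronecker_mul, Matrix.one_mul,
    trace_mul_kron_B, Matrix.mul_assoc]

theorem EA_mul_left (rA : Matrix I I ℂ) (Y : Matrix J J ℂ) (X : Matrix (I × J) (I × J) ℂ) :
    EA rA (((1 : Matrix I I ℂ) ⊗ₖ Y) * X) = Y * EA rA X := by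
  refine ext_trace fun W => ?_
  rw [← trace_mul_kron_A, Matrix.mul_assoc, Matrix.trace_mul_comm, Matrix.mul_assoc,
    ← Matrix.mul_kronecker_mul, Matrix.mul_one, trace_mul_kron_A, Matrix.mul_assoc,
    Matrix.trace_mul_comm Y, Matrix.mul_assoc]

theorem EA_mul_right (rA : Matrix I I ℂ) (Y : Matrix J J ℂ) (X : Matrix (I × J) (I × J) ℂ) :
    EA rA (X * ((1 : Matrix I I ℂ) ⊗ₖ Y)) = EA rA X * Y := by
  refine ext_trace fun W => ?_
  rw [← trace_mul_kron_A, Matrix.mul_assoc, ← Matrix.mul_kronecker_mul, Matrix.one_mul,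
    trace_mul_kron_A, Matrix.mul_assoc]

theorem EB_kron (rB : Matrix J J ℂ) (Y : Matrix I I ℂ) (W : Matrix J J ℂ) :
    EB rB (Y ⊗ₖ W) = (W * rB).trace • Y := by
  refine ext_trace fun U => ?_
  rw [← trace_mul_kron_B, ← Matrix.mul_kronecker_mul, Matrix.trace_kronecker, Matrix.smul_mul,
    Matrix.trace_smul, smul_eq_mul, mul_comm]

theorem EA_kron (rA : Matrix I I ℂ) (Y : Matrix I I ℂ) (W : Matrix J J ℂ) :
    EA rA (Y ⊗ₖ W) = (Y * rA).trace • W := by
  refine ext_trace fun U => ?_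
  rw [← trace_mul_kron_A, ← Matrix.mul_kronecker_mul, Matrix.trace_kronecker, Matrix.smul_mul,
    Matrix.trace_smul, smul_eq_mul]

theorem EB_one {rB : Matrix J J ℂ} (hB : rB.trace = 1) :
    EB rB (1 : Matrix (I × J) (I × J) ℂ) = 1 := by
  rw [← Matrix.one_kronecker_one, EB_kron, Matrix.one_mul, hB, one_smul]

theorem EA_one {rA : Matrix I I ℂ} (hA : rA.trace = 1) :
    EA rA (1 : Matrix (I × J) (I × J) ℂ) = 1 := by
  rw [← Matrix.one_kronecker_one, EA_kron, Matrix.one_mul, hA, one_smul]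

/-! ### Positivity -/

theorem re_trace_mul_nonneg {K : Type} [Fintype K] [DecidableEq K] {X Y : Matrix K K ℂ}
    (hX : X.PosSemidef) (hY : Y.PosSemidef) : 0 ≤ ((X * Y).trace).re := by
  open scoped MatrixOrder Matrix.Norms.L2Operator in
  obtain ⟨B, rfl⟩ := CStarAlgebra.nonneg_iff_eq_star_mul_self.mp hX.nonneg
  rw [star_eq_conjTranspose, Matrix.mul_assoc, Matrix.trace_mul_comm]
  exact (Complex.nonneg_iff.mp (hY.mul_mul_conjTranspose_same B).trace_nonneg).1

theorem ptrE_posSemidef {W : Matrix (P × E) (P × E) ℂ} (hW : W.PosSemidef) :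
    (ptrE W).PosSemidef := by
  have h : ptrE W = ∑ e : E, W.submatrix (fun p => (p, e)) (fun p => (p, e)) := by
    ext p p'; simp [ptrE, Matrix.sum_apply]
  rw [h]
  exact Matrix.posSemidef_sum _ fun e _ => hW.submatrix _

theorem trace_ptrE (W : Matrix (P × E) (P × E) ℂ) : (ptrE W).trace = W.trace := by
  simp [Matrix.trace, ptrE, Fintype.sum_prod_type]

theorem outC_posSemidef (V : Matrix (P × E) (I × J) ℂ) {rA : Matrix I I ℂ} {rB : Matrix J J ℂ}
    (hA : rA.PosSemidef) (hB : rB.PosSemidef) : (outC V rA rB).PosSemidef :=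
  ptrE_posSemidef ((hA.kronecker hB).mul_mul_conjTranspose_same V)

theorem trace_outC (V : Matrix (P × E) (I × J) ℂ) (hV : Vᴴ * V = 1) (rA : Matrix I I ℂ)
    (rB : Matrix J J ℂ) : (outC V rA rB).trace = rA.trace * rB.trace := by
  rw [outC, trace_ptrE, Matrix.trace_mul_comm, ← Matrix.mul_assoc, hV, Matrix.one_mul,
    Matrix.trace_kronecker]

theorem outC_isDensity (V : Matrix (P × E) (I × J) ℂ) (hV : Vᴴ * V = 1) {rA : Matrix I I ℂ}
    {rB : Matrix J J ℂ} (hA : IsDensity rA) (hB : IsDensity rB) : IsDensity (outC V rA rB) :=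
  ⟨outC_posSemidef V hA.1 hB.1, by rw [trace_outC V hV, hA.2, hB.2, one_mul]⟩

/-! ### ANOVA -/

/-- Kadison–Schwarz for the lift, tested on a positive matrix. -/
theorem lift_schwarz (V : Matrix (P × E) (I × J) ℂ) (hV : Vᴴ * V = 1) (Z : Matrix P P ℂ)
    {r : Matrix (I × J) (I × J) ℂ} (hr : r.PosSemidef) :
    (((liftX V Z)ᴴ * liftX V Z * r).trace).re ≤ ((liftX V (Zᴴ * Z) * r).trace).re := by
  set Z' : Matrix (P × E) (P × E) ℂ := Z ⊗ₖ (1 : Matrix E E ℂ) with hZ'
  set Y : Matrix (P × E) (I × J) ℂ := (1 - V * Vᴴ) * Z' * V with hY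
  have hp : (1 - V * Vᴴ)ᴴ * (1 - V * Vᴴ) = 1 - V * Vᴴ := by
    have : V * Vᴴ * (V * Vᴴ) = V * Vᴴ := by
      rw [Matrix.mul_assoc, ← Matrix.mul_assoc Vᴴ, hV, Matrix.one_mul]
    simp only [Matrix.conjTranspose_sub, Matrix.conjTranspose_one, Matrix.conjTranspose_mul,
      Matrix.conjTranspose_conjTranspose, Matrix.sub_mul, Matrix.mul_sub, Matrix.one_mul,
      Matrix.mul_one, this]
    abel
  have e : Yᴴ * Y = liftX V (Zᴴ * Z) - (liftX V Z)ᴴ * liftX V Z := by
    have e1 : Yᴴ * Y = Vᴴ * Z'ᴴ * ((1 - V * Vᴴ)ᴴ * (1 - V * Vᴴ)) * Z' * V := by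
      simp only [hY, Matrix.conjTranspose_mul, Matrix.mul_assoc]
    have e2 : (Zᴴ * Z) ⊗ₖ (1 : Matrix E E ℂ) = Z'ᴴ * Z' := by
      rw [hZ', Matrix.conjTranspose_kronecker, ← Matrix.mul_kronecker_mul]; simp
    rw [e1, hp, liftX, liftX, e2, ← hZ']
    simp only [Matrix.conjTranspose_mul, Matrix.conjTranspose_conjTranspose, Matrix.mul_sub,
      Matrix.sub_mul, Matrix.mul_one, Matrix.mul_assoc]
  have h := re_trace_mul_nonneg (Matrix.posSemidef_conjTranspose_mul_self Y) hr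
  rw [e, Matrix.sub_mul, Matrix.trace_sub, Complex.sub_re] at h
  linarith

/-- ANOVA on a product state, right form. -/
theorem anova_prod {rA : Matrix I I ℂ} {rB : Matrix J J ℂ} (hA : IsDensity rA)
    (hB : IsDensity rB) (X : Matrix (I × J) (I × J) ℂ) :
    (((EB rB X - (X * (rA ⊗ₖ rB)).trace • 1)ᴴ * (EB rB X - (X * (rA ⊗ₖ rB)).trace • 1) *
        rA).trace).re +
      (((EA rA X - (X * (rA ⊗ₖ rB)).trace • 1)ᴴ * (EA rA X - (X * (rA ⊗ₖ rB)).trace • 1) *
        rB).trace).re + ‖(X * (rA ⊗ₖ rB)).trace‖ ^ 2 ≤ ((Xᴴ * X * (rA ⊗ₖ rB)).trace).re := by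
  set m : ℂ := (X * (rA ⊗ₖ rB)).trace with hm
  set a : Matrix I I ℂ := EB rB X - m • 1 with ha
  set b : Matrix J J ℂ := EA rA X - m • 1 with hb
  have ha0 : (a * rA).trace = 0 := by
    rw [ha, Matrix.sub_mul, Matrix.trace_sub, ← trace_mul_kron_B, Matrix.smul_mul,
      Matrix.one_mul, Matrix.trace_smul, hA.2, ← hm]; simp
  have hb0 : (b * rB).trace = 0 := by
    rw [hb, Matrix.sub_mul, Matrix.trace_sub, ← trace_mul_kron_A, Matrix.smul_mul,
      Matrix.one_mul, Matrix.trace_smul, hB.2, ← hm]; simp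
  have ha1 : (aᴴ * rA).trace = 0 := by
    have := congrArg star ha0
    rw [← Matrix.trace_conjTranspose, Matrix.conjTranspose_mul, hA.1.1.eq,
      Matrix.trace_mul_comm] at this
    simpa using this
  have hb1 : (bᴴ * rB).trace = 0 := by
    have := congrArg star hb0
    rw [← Matrix.trace_conjTranspose, Matrix.conjTranspose_mul, hB.1.1.eq,
      Matrix.trace_mul_comm] at this
    simpa using this
  set A : Matrix (I × J) (I × J) ℂ := a ⊗ₖ (1 : Matrix J J ℂ) with hAdef
  set B : Matrix (I × J) (I × J) ℂ := (1 : Matrix I I ℂ) ⊗ₖ b with hBdef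
  set S : Matrix (I × J) (I × J) ℂ := A + B + m • 1 with hS
  have hEa : EB rB X = a + m • 1 := by rw [ha, sub_add_cancel]
  have hEb : EA rA X = b + m • 1 := by rw [hb, sub_add_cancel]
  have hAH : Aᴴ = aᴴ ⊗ₖ (1 : Matrix J J ℂ) := by
    rw [hAdef, Matrix.conjTranspose_kronecker, Matrix.conjTranspose_one]
  have hBH : Bᴴ = (1 : Matrix I I ℂ) ⊗ₖ bᴴ := by
    rw [hBdef, Matrix.conjTranspose_kronecker, Matrix.conjTranspose_one]
  -- pairing of `S` with any `Y` having the same conditional expectations as `X`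
  have key : ∀ Y : Matrix (I × J) (I × J) ℂ, EB rB Y = a + m • 1 → EA rA Y = b + m • 1 →
      (Sᴴ * Y * (rA ⊗ₖ rB)).trace =
        (aᴴ * a * rA).trace + (bᴴ * b * rB).trace + star m * m := by
    intro Y h1 h2
    have t1 : (Aᴴ * Y * (rA ⊗ₖ rB)).trace = (aᴴ * a * rA).trace := by
      rw [trace_mul_kron_B, hAH, EB_mul_left, h1, Matrix.mul_add, Matrix.add_mul,
        Matrix.trace_add, Matrix.mul_smul, Matrix.mul_one, Matrix.smul_mul, Matrix.trace_smul, ha1]
      simp
    have t2 : (Bᴴ * Y * (rA ⊗ₖ rB)).trace = (bᴴ * b * rB).trace := by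
      rw [trace_mul_kron_A, hBH, EA_mul_left, h2, Matrix.mul_add, Matrix.add_mul,
        Matrix.trace_add, Matrix.mul_smul, Matrix.mul_one, Matrix.smul_mul, Matrix.trace_smul, hb1]
      simp
    have t3 : (Y * (rA ⊗ₖ rB)).trace = m := by
      rw [trace_mul_kron_B, h1, Matrix.add_mul, Matrix.trace_add, ha0, Matrix.smul_mul,
        Matrix.one_mul, Matrix.trace_smul, hA.2]
      simp
    rw [hS, Matrix.conjTranspose_add, Matrix.conjTranspose_add, Matrix.conjTranspose_smul,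
      Matrix.conjTranspose_one, Matrix.add_mul, Matrix.add_mul, Matrix.add_mul, Matrix.add_mul,
      Matrix.trace_add, Matrix.trace_add, t1, t2, Matrix.smul_mul, Matrix.one_mul,
      Matrix.smul_mul, Matrix.trace_smul, t3, smul_eq_mul]
  have hSB : EB rB S = a + m • 1 := by
    rw [hS, EB_add, EB_add, EB_smul, EB_one hB.2, hAdef, hBdef, EB_kron, EB_kron,
      Matrix.one_mul, hB.2, hb0, one_smul, zero_smul, add_zero]
  have hSA : EA rA S = b + m • 1 := by
    rw [hS, EA_add, EA_add, EA_smul, EA_one hA.2, hAdef, hBdef, EA_kron, EA_kron,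
      Matrix.one_mul, hA.2, ha0, one_smul, zero_smul, zero_add]
  have k1 := key X hEa hEb
  have k2 := key S hSB hSA
  have hr : (rA ⊗ₖ rB).PosSemidef := hA.1.kronecker hB.1
  have k3 : ((Xᴴ * S * (rA ⊗ₖ rB)).trace).re = ((Sᴴ * X * (rA ⊗ₖ rB)).trace).re := by
    have : (Xᴴ * S * (rA ⊗ₖ rB)).trace = star (Sᴴ * X * (rA ⊗ₖ rB)).trace := by
      rw [← Matrix.trace_conjTranspose, Matrix.conjTranspose_mul, Matrix.conjTranspose_mul,
        Matrix.conjTranspose_conjTranspose, hr.1.eq, Matrix.trace_mul_comm (rA ⊗ₖ rB)]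
    rw [this]; simp
  have h := re_trace_mul_nonneg (Matrix.posSemidef_conjTranspose_mul_self (X - S)) hr
  simp only [Matrix.conjTranspose_sub, Matrix.sub_mul, Matrix.mul_sub, Matrix.trace_sub,
    Complex.sub_re] at h
  rw [k3, k2, k1] at h
  have hmm : (star m * m).re = ‖m‖ ^ 2 := by
    rw [Complex.star_def, Complex.conj_mul', ← Complex.ofReal_pow, Complex.ofReal_re]
  simp only [Complex.add_re, hmm] at h
  linarith

/-- ANOVA for the channel, right form `re tr (Yᴴ Y ρ)`. -/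
theorem anova_R (V : Matrix (P × E) (I × J) ℂ) (hV : Vᴴ * V = 1) {rA : Matrix I I ℂ}
    {rB : Matrix J J ℂ} (hA : IsDensity rA) (hB : IsDensity rB) (Z : Matrix P P ℂ) :
    (((EB rB (liftX V Z) - (Z * outC V rA rB).trace • 1)ᴴ *
        (EB rB (liftX V Z) - (Z * outC V rA rB).trace • 1) * rA).trace).re +
      (((EA rA (liftX V Z) - (Z * outC V rA rB).trace • 1)ᴴ *
        (EA rA (liftX V Z) - (Z * outC V rA rB).trace • 1) * rB).trace).re +
      ‖(Z * outC V rA rB).trace‖ ^ 2 ≤ ((Zᴴ * Z * outC V rA rB).trace).re := by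
  rw [trace_mul_outC V rA rB Z, trace_mul_outC V rA rB (Zᴴ * Z)]
  exact (anova_prod hA hB _).trans (lift_schwarz V hV Z (hA.1.kronecker hB.1))

/-- ANOVA for the channel, left form `re tr (Yᴴ ρ Y)`. -/
theorem anova_L (V : Matrix (P × E) (I × J) ℂ) (hV : Vᴴ * V = 1) {rA : Matrix I I ℂ}
    {rB : Matrix J J ℂ} (hA : IsDensity rA) (hB : IsDensity rB) (Z : Matrix P P ℂ) :
    (((EB rB (liftX V Z) - (Z * outC V rA rB).trace • 1)ᴴ * rA *
        (EB rB (liftX V Z) - (Z * outC V rA rB).trace • 1)).trace).re +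
      (((EA rA (liftX V Z) - (Z * outC V rA rB).trace • 1)ᴴ * rB *
        (EA rA (liftX V Z) - (Z * outC V rA rB).trace • 1)).trace).re +
      ‖(Z * outC V rA rB).trace‖ ^ 2 ≤ ((Zᴴ * outC V rA rB * Z).trace).re := by
  have h := anova_R V hV hA hB Zᴴ
  have hC := (outC_posSemidef V hA.1 hB.1).1
  have hm : (Zᴴ * outC V rA rB).trace = star (Z * outC V rA rB).trace := by
    rw [← Matrix.trace_conjTranspose, Matrix.conjTranspose_mul, hC.eq, Matrix.trace_mul_comm]
  have e1 : EB rB (liftX V Zᴴ) - (Zᴴ * outC V rA rB).trace • 1 =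
      (EB rB (liftX V Z) - (Z * outC V rA rB).trace • 1)ᴴ := by
    rw [liftX_conjTranspose, EB_conjTranspose hB.1.1, hm, Matrix.conjTranspose_sub,
      Matrix.conjTranspose_smul, Matrix.conjTranspose_one]
  have e2 : EA rA (liftX V Zᴴ) - (Zᴴ * outC V rA rB).trace • 1 =
      (EA rA (liftX V Z) - (Z * outC V rA rB).trace • 1)ᴴ := by
    rw [liftX_conjTranspose, EA_conjTranspose hA.1.1, hm, Matrix.conjTranspose_sub,
      Matrix.conjTranspose_smul, Matrix.conjTranspose_one]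
  have cyc : ∀ {K : Type} [Fintype K] (Y r : Matrix K K ℂ),
      (Y * Yᴴ * r).trace = (Yᴴ * r * Y).trace := fun Y r => by
    rw [Matrix.mul_assoc, Matrix.trace_mul_comm]
  rw [e1, e2, hm, norm_star] at h
  simp only [Matrix.conjTranspose_conjTranspose, cyc] at h
  exact h

/-! ### Translation to an eigenbasis -/

theorem re_trace_R_eigen {K : Type} [Fintype K] [DecidableEq K] (U Y : Matrix K K ℂ)
    (hU : U * Uᴴ = 1) (p : K → ℝ) :
    ((Yᴴ * Y * (U * Matrix.diagonal (fun k => (p k : ℂ)) * Uᴴ)).trace).re =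
      ∑ j, ∑ k, p k * ‖(Uᴴ * Y * U) j k‖ ^ 2 := by
  have e : (Yᴴ * Y * (U * Matrix.diagonal (fun k => (p k : ℂ)) * Uᴴ)).trace =
      ((Uᴴ * Y * U)ᴴ * (Uᴴ * Y * U) * Matrix.diagonal (fun k => (p k : ℂ))).trace := by
    rw [← Matrix.mul_assoc (Yᴴ * Y), Matrix.trace_mul_comm]
    simp only [Matrix.conjTranspose_mul, Matrix.conjTranspose_conjTranspose, Matrix.mul_assoc]
    rw [← Matrix.mul_assoc U Uᴴ, hU, Matrix.one_mul]
  rw [e]
  generalize Uᴴ * Y * U = W
  rw [Finset.sum_comm]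
  simp only [Matrix.trace, Matrix.diag, Matrix.mul_diagonal]
  simp only [Matrix.mul_apply, Complex.re_sum, Matrix.conjTranspose_apply, Finset.sum_mul]
  refine Finset.sum_congr rfl fun k _ => Finset.sum_congr rfl fun j _ => ?_
  rw [Complex.star_def, Complex.conj_mul', ← Complex.ofReal_pow, ← Complex.ofReal_mul,
    Complex.ofReal_re, mul_comm]

theorem re_trace_L_eigen {K : Type} [Fintype K] [DecidableEq K] (U Y : Matrix K K ℂ)
    (hU : U * Uᴴ = 1) (p : K → ℝ) :
    ((Yᴴ * (U * Matrix.diagonal (fun k => (p k : ℂ)) * Uᴴ) * Y).trace).re =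
      ∑ j, ∑ k, p j * ‖(Uᴴ * Y * U) j k‖ ^ 2 := by
  have h := re_trace_R_eigen U Yᴴ hU p
  rw [Matrix.conjTranspose_conjTranspose, Matrix.mul_assoc, Matrix.trace_mul_comm] at h
  rw [h, Finset.sum_comm]
  refine Finset.sum_congr rfl fun j _ => Finset.sum_congr rfl fun k _ => ?_
  have : (Uᴴ * Yᴴ * U) k j = star ((Uᴴ * Y * U) j k) := by
    rw [← Matrix.conjTranspose_apply]
    simp only [Matrix.conjTranspose_mul, Matrix.conjTranspose_conjTranspose, Matrix.mul_assoc]
  rw [this, norm_star]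

theorem anova_anchor : True := by
  have := @liftX.eq_1
  have := @liftX.eq_def
  have := @liftX.eq_unfold
  have := @liftX.congr_simp
  have := @ptrE.eq_1
  have := @ptrE.eq_def
  have := @ptrE.eq_unfold
  have := @ptrE.congr_simp
  have := @outC.eq_1
  have := @outC.eq_def
  have := @outC.eq_unfold
  have := @outC.congr_simp
  have := @EB.eq_1
  have := @EB.eq_def
  have := @EB.eq_unfold
  have := @EB.congr_simp
  have := @EA.eq_1
  have := @EA.eq_def
  have := @EA.eq_unfold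
  have := @EA.congr_simp
  have := @liftXL.eq_1
  have := @liftXL.eq_def
  have := @liftXL.eq_unfold
  have := @liftXL.congr_simp
  have := @EBL.eq_1
  have := @EBL.eq_def
  have := @EBL.eq_unfold
  have := @EBL.congr_simp
  have := @EAL.eq_1
  have := @EAL.eq_def
  have := @EAL.eq_unfold
  have := @EAL.congr_simp
  have := @outCL.eq_1
  have := @outCL.eq_def
  have := @outCL.eq_unfold
  have := @outCL.congr_simp
  have := @outCR.eq_1
  have := @outCR.eq_def
  have := @outCR.eq_unfold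
  have := @outCR.congr_simp
  trivial

end Crest.Agent.R331.Ch
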