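import Crest.Agent.R331.Defs
import Crest.Agent.R331.Chan

/-! Row 331: the channel facts of `Chan.lean` in the language of `Defs.lean`. -/

set_option autoImplicit false
set_option linter.unusedSectionVars false

open Matrix Kronecker Crest.Quantum
open scoped ComplexOrder

namespace Crest.Agent.R331.Ch

open Crest.Agent.R331.EP

variable {A B C D : Type} [Fintype A] [DecidableEq A] [Fintype B] [DecidableEq B]
  [Fintype C] [DecidableEq C] [Fintype D] [DecidableEq D]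

theorem out_eq_outC (V : Matrix (C × D) (A × B) ℂ) (ρ1 : Mat A) (ρ2 : Mat B) :
    out V ρ1 ρ2 = outC V ρ1 ρ2 := rfl

theorem cnd_eq_EB (V : Matrix (C × D) (A × B) ℂ) (ρ2 : Mat B) (Z : Mat C) :
    cnd V ρ2 Z = EB ρ2 (liftX V Z) := by
  ext k k'
  exact Finset.sum_comm

theorem liftX_swp (V : Matrix (C × D) (A × B) ℂ) (Z : Mat C) :
    liftX (swp V) Z = (liftX V Z).submatrix Prod.swap Prod.swap := by
  ext x y
  simp [liftX, swp, Matrix.mul_apply]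

theorem cnd_swp_eq_EA (V : Matrix (C × D) (A × B) ℂ) (ρ1 : Mat A) (Z : Mat C) :
    cnd (swp V) ρ1 Z = EA ρ1 (liftX V Z) := by
  rw [cnd_eq_EB, liftX_swp]
  rfl

theorem swp_isometry {V : Matrix (C × D) (A × B) ℂ} (hV : Vᴴ * V = 1) :
    (swp V)ᴴ * swp V = 1 := by
  ext x y
  have h := congrFun (congrFun hV x.swap) y.swap
  have e : (1 : Matrix (A × B) (A × B) ℂ) x.swap y.swap = (1 : Matrix (B × A) (B × A) ℂ) x y := by
    simp [Matrix.one_apply]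
  rw [← e, ← h]
  simp [swp, Matrix.mul_apply]

theorem trace_mul_out (V : Matrix (C × D) (A × B) ℂ) (ρ1 : Mat A) (ρ2 : Mat B) (Z : Mat C) :
    (Z * out V ρ1 ρ2).trace = (cnd V ρ2 Z * ρ1).trace := by
  rw [out_eq_outC, cnd_eq_EB, trace_mul_outC_B]

theorem trace_mul_out' (V : Matrix (C × D) (A × B) ℂ) (ρ1 : Mat A) (ρ2 : Mat B) (Z : Mat C) :
    (Z * out V ρ1 ρ2).trace = (cnd (swp V) ρ1 Z * ρ2).trace := by
  rw [out_eq_outC, cnd_swp_eq_EA, trace_mul_outC_A]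

theorem out_swp (V : Matrix (C × D) (A × B) ℂ) (ρ1 : Mat A) (ρ2 : Mat B) :
    out (swp V) ρ2 ρ1 = out V ρ1 ρ2 :=
  ext_trace fun W => by
    rw [Matrix.trace_mul_comm, trace_mul_out, Matrix.trace_mul_comm (out V ρ1 ρ2),
      trace_mul_out']

/-- the field `Side.tr` -/
theorem trace_cnd (V : Matrix (C × D) (A × B) ℂ) (ρ1 : Mat A) (ρ2 : Mat B) (Z : Mat C) :
    (ρ1 * cnd V ρ2 Z).trace = (out V ρ1 ρ2 * Z).trace := by
  rw [Matrix.trace_mul_comm, ← trace_mul_out, Matrix.trace_mul_comm]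

theorem trace_cnd_swp (V : Matrix (C × D) (A × B) ℂ) (ρ1 : Mat A) (ρ2 : Mat B) (Z : Mat C) :
    (ρ2 * cnd (swp V) ρ1 Z).trace = (out V ρ1 ρ2 * Z).trace := by
  rw [trace_cnd, out_swp]

/-- the field `Side.one` -/
theorem cnd_one {V : Matrix (C × D) (A × B) ℂ} (hV : Vᴴ * V = 1) {ρ2 : Mat B}
    (h2 : ρ2.trace = 1) : cnd V ρ2 1 = 1 := by
  rw [cnd_eq_EB, liftX_one V hV, EB_one h2]

theorem cnd_conjTranspose (V : Matrix (C × D) (A × B) ℂ) {ρ2 : Mat B} (h2 : ρ2.IsHermitian)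
    (Z : Mat C) : cnd V ρ2 Zᴴ = (cnd V ρ2 Z)ᴴ := by
  rw [cnd_eq_EB, cnd_eq_EB, liftX_conjTranspose, EB_conjTranspose h2]

theorem out_isDensity {V : Matrix (C × D) (A × B) ℂ} (hV : Vᴴ * V = 1) {ρ1 : Mat A} {ρ2 : Mat B}
    (h1 : IsDensity ρ1) (h2 : IsDensity ρ2) : IsDensity (out V ρ1 ρ2) :=
  outC_isDensity V hV h1 h2

theorem cen_cnd (V : Matrix (C × D) (A × B) ℂ) (ρ1 : Mat A) (ρ2 : Mat B) (Z : Mat C) :
    cen ρ1 (cnd V ρ2 Z) = EB ρ2 (liftX V Z) - (Z * outC V ρ1 ρ2).trace • 1 := by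
  rw [cen, trace_cnd, cnd_eq_EB, Matrix.trace_mul_comm, out_eq_outC]

theorem cen_cnd_swp (V : Matrix (C × D) (A × B) ℂ) (ρ1 : Mat A) (ρ2 : Mat B) (Z : Mat C) :
    cen ρ2 (cnd (swp V) ρ1 Z) = EA ρ1 (liftX V Z) - (Z * outC V ρ1 ρ2).trace • 1 := by
  rw [cen, trace_cnd_swp, cnd_swp_eq_EA, Matrix.trace_mul_comm, out_eq_outC]

/-- ANOVA, right form. -/
theorem anova_out_R {V : Matrix (C × D) (A × B) ℂ} (hV : Vᴴ * V = 1) {ρ1 : Mat A} {ρ2 : Mat B}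
    (h1 : IsDensity ρ1) (h2 : IsDensity ρ2) (Z : Mat C) :
    (((cen ρ1 (cnd V ρ2 Z))ᴴ * cen ρ1 (cnd V ρ2 Z) * ρ1).trace).re +
      (((cen ρ2 (cnd (swp V) ρ1 Z))ᴴ * cen ρ2 (cnd (swp V) ρ1 Z) * ρ2).trace).re +
      ‖(out V ρ1 ρ2 * Z).trace‖ ^ 2 ≤ ((Zᴴ * Z * out V ρ1 ρ2).trace).re := by
  rw [cen_cnd, cen_cnd_swp, Matrix.trace_mul_comm (out V ρ1 ρ2), out_eq_outC]
  exact anova_R V hV h1 h2 Z

/-- ANOVA, left form. -/
theorem anova_out_L {V : Matrix (C × D) (A × B) ℂ} (hV : Vᴴ * V = 1) {ρ1 : Mat A} {ρ2 : Mat B}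
    (h1 : IsDensity ρ1) (h2 : IsDensity ρ2) (Z : Mat C) :
    (((cen ρ1 (cnd V ρ2 Z))ᴴ * ρ1 * cen ρ1 (cnd V ρ2 Z)).trace).re +
      (((cen ρ2 (cnd (swp V) ρ1 Z))ᴴ * ρ2 * cen ρ2 (cnd (swp V) ρ1 Z)).trace).re +
      ‖(out V ρ1 ρ2 * Z).trace‖ ^ 2 ≤ ((Zᴴ * out V ρ1 ρ2 * Z).trace).re := by
  rw [cen_cnd, cen_cnd_swp, Matrix.trace_mul_comm (out V ρ1 ρ2), out_eq_outC]
  exact anova_L V hV h1 h2 Z

theorem qf_right (S : Sp A) (Y : Mat A) :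
    S.qf (fun _ y => y) Y = ((Yᴴ * Y * S.rho).trace).re :=
  (re_trace_R_eigen S.U Y S.U2 S.p).symm

theorem qf_left (S : Sp A) (Y : Mat A) :
    S.qf (fun x _ => x) Y = ((Yᴴ * S.rho * Y).trace).re :=
  (re_trace_L_eigen S.U Y S.U2 S.p).symm

theorem rho_isDensity (S : Sp A) : IsDensity S.rho := by
  refine ⟨?_, ?_⟩
  · refine Matrix.PosSemidef.mul_mul_conjTranspose_same ?_ S.U
    exact Matrix.PosSemidef.diagonal fun j => Complex.zero_le_real.mpr (Real.exp_pos (S.h j)).le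
  · rw [Sp.rho, Matrix.trace_mul_comm, ← Matrix.mul_assoc, S.U1, Matrix.one_mul,
      Matrix.trace_diagonal, ← Complex.ofReal_sum]
    exact_mod_cast S.tr1

/-- the admixed state dominates `(1 - δ) ρ` in the right form -/
theorem mixd_R {δ : ℝ} (hδ : 0 ≤ δ) (ρ Z : Mat C) :
    (1 - δ) * ((Zᴴ * Z * ρ).trace).re ≤ ((Zᴴ * Z * mixd δ ρ).trace).re := by
  have h : 0 ≤ ((Zᴴ * Z).trace).re :=
    (Complex.nonneg_iff.mp (Matrix.posSemidef_conjTranspose_mul_self Z).trace_nonneg).1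
  have hc : 0 ≤ δ / Fintype.card C := div_nonneg hδ (Nat.cast_nonneg _)
  rw [mixd, Matrix.mul_add, Matrix.mul_smul, Matrix.mul_smul, Matrix.mul_one, Matrix.trace_add,
    Matrix.trace_smul, Matrix.trace_smul, smul_eq_mul, smul_eq_mul, Complex.add_re,
    Complex.re_ofReal_mul, Complex.re_ofReal_mul]
  linarith [mul_nonneg hc h]

/-- the admixed state dominates `(1 - δ) ρ` in the left form -/
theorem mixd_L {δ : ℝ} (hδ : 0 ≤ δ) (ρ Z : Mat C) :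
    (1 - δ) * ((Zᴴ * ρ * Z).trace).re ≤ ((Zᴴ * mixd δ ρ * Z).trace).re := by
  have h := mixd_R hδ ρ Zᴴ
  rw [Matrix.conjTranspose_conjTranspose, Matrix.mul_assoc, Matrix.mul_assoc,
    Matrix.trace_mul_comm Z, Matrix.trace_mul_comm Z] at h
  exact h

/-- ANOVA in spectral language, right form. -/
theorem anova_qf_R {V : Matrix (C × D) (A × B) ℂ} (hV : Vᴴ * V = 1) (SA : Sp A) (SB : Sp B)
    (SC : Sp C) {δ : ℝ} (hδ : 0 ≤ δ) (hδ1 : δ ≤ 1) (hC : SC.rho = mixd δ (out V SA.rho SB.rho))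
    (Z : Mat C) :
    (1 - δ) * (SA.qf (fun _ y => y) (cen SA.rho (cnd V SB.rho Z)) +
      SB.qf (fun _ y => y) (cen SB.rho (cnd (swp V) SA.rho Z)) +
      ‖(out V SA.rho SB.rho * Z).trace‖ ^ 2) ≤ SC.qf (fun _ y => y) Z := by
  rw [qf_right, qf_right, qf_right, hC]
  exact (mul_le_mul_of_nonneg_left (anova_out_R hV (rho_isDensity SA) (rho_isDensity SB) Z)
    (sub_nonneg.mpr hδ1)).trans (mixd_R hδ _ Z)

/-- ANOVA in spectral language, left form. -/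
theorem anova_qf_L {V : Matrix (C × D) (A × B) ℂ} (hV : Vᴴ * V = 1) (SA : Sp A) (SB : Sp B)
    (SC : Sp C) {δ : ℝ} (hδ : 0 ≤ δ) (hδ1 : δ ≤ 1) (hC : SC.rho = mixd δ (out V SA.rho SB.rho))
    (Z : Mat C) :
    (1 - δ) * (SA.qf (fun x _ => x) (cen SA.rho (cnd V SB.rho Z)) +
      SB.qf (fun x _ => x) (cen SB.rho (cnd (swp V) SA.rho Z)) +
      ‖(out V SA.rho SB.rho * Z).trace‖ ^ 2) ≤ SC.qf (fun x _ => x) Z := by
  rw [qf_left, qf_left, qf_left, hC]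
  exact (mul_le_mul_of_nonneg_left (anova_out_L hV (rho_isDensity SA) (rho_isDensity SB) Z)
    (sub_nonneg.mpr hδ1)).trans (mixd_L hδ _ Z)

end Crest.Agent.R331.Ch
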