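import Crest.Agent.R331.Lim

set_option autoImplicit false

open Matrix Kronecker Crest.Quantum Crest.MathPhysics.Bosonic
open scoped ComplexOrder

namespace Crest.Agent.R331.EP

/-- the change of the entropy weight costs little on the small box -/
theorem core_err {n K K0 : ℕ} {e N b t δ : ℝ} (he0 : 0 ≤ e) (he1 : e ≤ 1) (hN : 0 < N)
    (hb : 0 < b) {ρ : Mat (Ix n K)} (d : IsDensity ρ) (s : Supp K0 ρ) (ht : 0 < t) (hδ : 0 ≤ δ)
    (hδt : δ ≤ t) :
    e * b / bt N * (vnEntropy ρ - n * Real.log (N + 1)) -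
        t * ((1 + b) * ((bt N * (n * K0) + n * Real.log (N + 1)) / bt N)) ≤
      ((1 - δ) * e * b + t) / bt N * (vnEntropy ρ - n * Real.log (N + 1)) := by
  have hbN := bt_pos hN
  have hL : 0 ≤ Real.log (N + 1) := Real.log_nonneg (by linarith)
  have hn0 : (0 : ℝ) ≤ n := Nat.cast_nonneg n
  have hK00 : (0 : ℝ) ≤ K0 := Nat.cast_nonneg K0
  have h1 := gibbs_num d hN
  have h2 := En_le d s
  have h3 := vn_nonneg' d
  obtain ⟨X, hX⟩ : ∃ X, X = vnEntropy ρ - n * Real.log (N + 1) := ⟨_, rfl⟩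
  obtain ⟨M, hM⟩ : ∃ M, M = bt N * (n * K0) + n * Real.log (N + 1) := ⟨_, rfl⟩
  have hnL : 0 ≤ (n : ℝ) * Real.log (N + 1) := mul_nonneg hn0 hL
  have hbK : 0 ≤ bt N * (n * K0) := by positivity
  have hXM : |X| ≤ M := by
    rw [abs_le, hX, hM]
    have := mul_le_mul_of_nonneg_left h2 hbN.le
    constructor <;> linarith
  rw [← hX, ← hM]
  have hc : |t - δ * e * b| ≤ t * (1 + b) := by
    have a1 : 0 ≤ δ * e * b := by positivity
    have a2 : δ * e ≤ t := by nlinarith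
    have a3 : δ * e * b ≤ t * b := mul_le_mul_of_nonneg_right a2 hb.le
    have a4 : 0 ≤ t * b := by positivity
    rw [abs_le]
    constructor <;> nlinarith
  have hp : |(t - δ * e * b) * X| ≤ t * (1 + b) * M := by
    rw [abs_mul]
    exact mul_le_mul hc hXM (abs_nonneg _) (by positivity)
  have hq : -(t * (1 + b) * M) ≤ (t - δ * e * b) * X := (abs_le.1 hp).1
  have hr := div_le_div_of_nonneg_right hq hbN.le
  have e1 : ((1 - δ) * e * b + t) / bt N * X =
      e * b / bt N * X + (t - δ * e * b) * X / bt N := by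
    field_simp
    ring
  have e2 : t * ((1 + b) * (M / bt N)) = -(-(t * (1 + b) * M) / bt N) := by
    field_simp
  rw [e1, e2]
  linarith

/-- The finite-dimensional linear form of the entropy photon-number inequality. -/
theorem core (n : ℕ) (η : ℝ) (hη : η ∈ Set.Icc (0 : ℝ) 1) (NA NB : ℝ) (hA : 0 < NA) (hB : 0 < NB)
    (K0 : ℕ) (κ : ℝ) (hκ : 0 < κ) :
    ∃ K : ℕ, K0 ≤ K ∧ ∀ ρA ρB : Mat (Ix n K), IsDensity ρA → IsDensity ρB →
      Supp K0 ρA → Supp K0 ρB →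
      n * gBose (η * NA + (1 - η) * NB)
        + η * bt (η * NA + (1 - η) * NB) / bt NA * (vnEntropy ρA - n * gBose NA)
        + (1 - η) * bt (η * NA + (1 - η) * NB) / bt NB * (vnEntropy ρB - n * gBose NB) - κ
        ≤ vnEntropy (bsOutput η ρA ρB) := by
  obtain ⟨hη0, hη1⟩ := hη
  have hη : η ∈ Set.Icc (0 : ℝ) 1 := ⟨hη0, hη1⟩
  obtain ⟨NC, hC⟩ : ∃ NC, NC = η * NA + (1 - η) * NB := ⟨_, rfl⟩
  rw [← hC]
  have hNC : 0 < NC := by
    rw [hC]
    rcases le_total NA NB with h | h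
    · nlinarith
    · nlinarith
  obtain ⟨γ, hγd⟩ : ∃ γ, γ = min ((NA + 1) / NA) ((NB + 1) / NB) := ⟨_, rfl⟩
  have hγ : 1 < γ := by
    rw [hγd]
    refine lt_min ?_ ?_
    · rw [lt_div_iff₀ hA]; linarith
    · rw [lt_div_iff₀ hB]; linarith
  have hγA : γ ≤ (NA + 1) / NA := by rw [hγd]; exact min_le_left _ _
  have hγB : γ ≤ (NB + 1) / NB := by rw [hγd]; exact min_le_right _ _
  have hγ0 : 0 < γ := by linarith
  have hb := bt_pos hNC
  have hbA := bt_pos hA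
  have hbB := bt_pos hB
  have hLA : 0 ≤ Real.log (NA + 1) := Real.log_nonneg (by linarith)
  have hLB : 0 ≤ Real.log (NB + 1) := Real.log_nonneg (by linarith)
  have hn0 : (0 : ℝ) ≤ n := Nat.cast_nonneg n
  have hK00 : (0 : ℝ) ≤ K0 := Nat.cast_nonneg K0
  obtain ⟨Sg, hSg⟩ : ∃ Sg, Sg = ∑ j ∈ Finset.range K0, w0 γ j := ⟨_, rfl⟩
  have hSg0 : 0 ≤ Sg := by
    rw [hSg]
    exact Finset.sum_nonneg fun j _ => by unfold w0; positivity
  obtain ⟨MA, hMA⟩ : ∃ MA, MA = bt NA * (n * K0) + n * Real.log (NA + 1) := ⟨_, rfl⟩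
  obtain ⟨MB, hMB⟩ : ∃ MB, MB = bt NB * (n * K0) + n * Real.log (NB + 1) := ⟨_, rfl⟩
  have hMA0 : 0 ≤ MA := by rw [hMA]; positivity
  have hMB0 : 0 ≤ MB := by rw [hMB]; positivity
  obtain ⟨M, hM⟩ : ∃ M, M = (1 + bt NC) * (MA / bt NA) + (1 + bt NC) * (MB / bt NB) + 2 +
    2 * (n * (K0 + Sg)) := ⟨_, rfl⟩
  have hM0 : 0 < M := by rw [hM]; positivity
  obtain ⟨t, ht⟩ : ∃ t, t = κ / M := ⟨_, rfl⟩
  have ht0 : 0 < t := by rw [ht]; positivity
  have htM : t * M = κ := by rw [ht]; field_simp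
  obtain ⟨K, δ, hK, hδ0, hδ1, hδt, hsm, hlow⟩ :=
    lower_lim n hη hA hB hC ht0 hγ hγA hγB K0 ht0
  refine ⟨K, hK, fun ρA ρB dA dB sA sB => ?_⟩
  have h1 := hlow ρA ρB dA dB
  have h2 := upper (γ := γ) (ε := t) (cw := δ) hη (((1 - δ) * η * bt NC + t) / bt NA)
    (((1 - δ) * (1 - η) * bt NC + t) / bt NB) hδ0.le hδ1 ht0.le hδ0.le hγ0 dA dB sA sB
  have hW : W1 t δ γ K0 ≤ t * (K0 + Sg) := by
    unfold W1
    rw [← hSg]
    nlinarith [mul_le_mul_of_nonneg_right hδt hSg0]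
  have hW' : 2 * (n * W1 t δ γ K0) ≤ t * (2 * (n * (K0 + Sg))) := by
    nlinarith [mul_le_mul_of_nonneg_left hW hn0]
  have eA := core_err (e := η) (n := n) (K0 := K0) hη0 hη1 hA hb dA sA ht0 hδ0.le hδt
  have eB := core_err (e := 1 - η) (n := n) (K0 := K0) (by linarith) (by linarith) hB hb dB sB ht0
    hδ0.le hδt
  rw [← hMA] at eA
  rw [← hMB] at eB
  rw [gBose_eq hA, gBose_eq hB, gBose_eq hNC]
  have iA : η * bt NC / bt NA * (vnEntropy ρA - n * (bt NA * NA + Real.log (NA + 1))) =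
      η * bt NC / bt NA * (vnEntropy ρA - n * Real.log (NA + 1)) - η * bt NC * (n * NA) := by
    field_simp
    ring
  have iB : (1 - η) * bt NC / bt NB * (vnEntropy ρB - n * (bt NB * NB + Real.log (NB + 1))) =
      (1 - η) * bt NC / bt NB * (vnEntropy ρB - n * Real.log (NB + 1)) -
        (1 - η) * bt NC * (n * NB) := by
    field_simp
    ring
  have iC : n * (bt NC * NC + Real.log (NC + 1)) =
      η * bt NC * (n * NA) + (1 - η) * bt NC * (n * NB) + n * Real.log (NC + 1) := by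
    have : (n : ℝ) * (bt NC * NC) = n * (bt NC * (η * NA + (1 - η) * NB)) := by rw [← hC]
    linear_combination this
  rw [iA, iB, iC]
  have hκ' : κ = t * ((1 + bt NC) * (MA / bt NA)) + t * ((1 + bt NC) * (MB / bt NB)) + 2 * t +
      t * (2 * (n * (K0 + Sg))) := by
    rw [← htM, hM]; ring
  have jA : ((1 - δ) * η * bt NC + t) / bt NA * (vnEntropy ρA - n * Real.log (NA + 1)) =
      ((1 - δ) * η * bt NC + t) / bt NA * vnEntropy ρA -
        ((1 - δ) * η * bt NC + t) / bt NA * (n * Real.log (NA + 1)) := by ring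
  have jB : ((1 - δ) * (1 - η) * bt NC + t) / bt NB * (vnEntropy ρB - n * Real.log (NB + 1)) =
      ((1 - δ) * (1 - η) * bt NC + t) / bt NB * vnEntropy ρB -
        ((1 - δ) * (1 - η) * bt NC + t) / bt NB * (n * Real.log (NB + 1)) := by ring
  rw [jA] at eA
  rw [jB] at eB
  linarith

end Crest.Agent.R331.EP
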