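import Mathlib
import Crest.Prelude.Def_Bosonic
import Crest.Prelude.Def_FockState
import Crest.Agent.R341.Ent

/-! Row 331 (entropy photon-number inequality): definitions. -/

set_option autoImplicit false

open Matrix Kronecker Crest.Quantum Crest.MathPhysics.Bosonic
open scoped ComplexOrder

namespace Crest.Agent.R331.EP

noncomputable section

abbrev Mat (ι : Type) : Type := Matrix ι ι ℂ

/-- logarithmic mean -/
def LM (x y : ℝ) : ℝ := ∫ s in (0 : ℝ)..1, x ^ s * y ^ (1 - s)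
/-- inverse temperature -/
def bt (N : ℝ) : ℝ := Real.log (1 + 1 / N)
/-- symbol of the thermally weighted Duhamel form -/
def phiJ (N x y : ℝ) : ℝ := bt N * LM (N * x) ((N + 1) * y)

/-- Frobenius norm -/
def fr {m n : Type} [Fintype m] [Fintype n] (A : Matrix m n ℂ) : ℝ := √(∑ i, ∑ j, ‖A i j‖ ^ 2)

/-- spectral data of a faithful state -/
structure Sp (ι : Type) [Fintype ι] [DecidableEq ι] where
  U : Mat ι
  h : ι → ℝ
  U1 : Uᴴ * U = 1
  U2 : U * Uᴴ = 1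
  tr1 : ∑ j, Real.exp (h j) = 1

section
variable {ι : Type} [Fintype ι] [DecidableEq ι]
def Sp.p (S : Sp ι) (j : ι) : ℝ := Real.exp (S.h j)
def Sp.rho (S : Sp ι) : Mat ι := S.U * diagonal (fun j => (S.p j : ℂ)) * S.Uᴴ
/-- `log rho` -/
def Sp.H (S : Sp ι) : Mat ι := S.U * diagonal (fun j => (S.h j : ℂ)) * S.Uᴴ
def Sp.hat (S : Sp ι) (Y : Mat ι) : Mat ι := S.Uᴴ * Y * S.U
def Sp.sf (S : Sp ι) (φ : ℝ → ℝ → ℝ) (Y Y' : Mat ι) : ℂ :=
  ∑ j, ∑ k, (φ (S.p j) (S.p k) : ℂ) * (star (S.hat Y j k) * S.hat Y' j k)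
def Sp.qf (S : Sp ι) (φ : ℝ → ℝ → ℝ) (Y : Mat ι) : ℝ :=
  ∑ j, ∑ k, φ (S.p j) (S.p k) * ‖S.hat Y j k‖ ^ 2
/-- `(U - 1) x` -/
def Sp.zeta (S : Sp ι) (N : ℝ) (x : Mat ι) : Mat ι :=
  (((bt N)⁻¹ : ℝ) : ℂ) • (S.H * x - x * S.H) - x
/-- `x - ⟨x⟩` -/
def cen (ρ x : Mat ι) : Mat ι := x - (ρ * x).trace • (1 : Mat ι)
/-- `(N+1) ρ x* - N x* ρ` -/
def MM (N : ℝ) (ρ x : Mat ι) : Mat ι := ((N + 1 : ℝ) : ℂ) • (ρ * xᴴ) - (N : ℂ) • (xᴴ * ρ)
/-- admixture of the maximally mixed state -/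
def mixd (δ : ℝ) (ρ : Mat ι) : Mat ι :=
  ((1 - δ : ℝ) : ℂ) • ρ + ((δ / Fintype.card ι : ℝ) : ℂ) • (1 : Mat ι)
end

section
variable {A B C D : Type} [Fintype A] [DecidableEq A] [Fintype B] [DecidableEq B]
  [Fintype C] [DecidableEq C] [Fintype D] [DecidableEq D]
/-- reduced output -/
def out (V : Matrix (C × D) (A × B) ℂ) (ρ1 : Mat A) (ρ2 : Mat B) : Mat C :=
  Matrix.of fun p p' => ∑ q, (V * (ρ1 ⊗ₖ ρ2) * Vᴴ) (p, q) (p', q)
/-- conditional expectation `Z ↦ tr_B (1 ⊗ ρ2) V* (Z ⊗ 1) V` -/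
def cnd (V : Matrix (C × D) (A × B) ℂ) (ρ2 : Mat B) : Mat C →ₗ[ℂ] Mat A where
  toFun Z := Matrix.of fun k k' =>
    ∑ l, ∑ l', ρ2 l l' * (Vᴴ * (Z ⊗ₖ (1 : Mat D)) * V) (k, l') (k', l)
  map_add' Z Z' := by
    ext k k'
    simp [Matrix.add_kronecker, Matrix.mul_add, Matrix.add_mul, mul_add, Finset.sum_add_distrib]
  map_smul' c Z := by
    ext k k'
    simp [Matrix.smul_kronecker, Finset.mul_sum, mul_left_comm]
/-- the inputs exchanged -/
def swp (V : Matrix (C × D) (A × B) ℂ) : Matrix (C × D) (B × A) ℂ := V.submatrix id Prod.swap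

/-- the facts about one input that the main estimate uses; `lam` is the entropy weight -/
structure Side (SA : Sp A) (SC : Sp C) (ρC c : Mat C) (E : Mat C →ₗ[ℂ] Mat A) (a : Mat A)
    (e N βC δ ε s : ℝ) : Prop where
  one : E 1 = 1
  tr : ∀ Z, (SA.rho * E Z).trace = (ρC * Z).trace
  Ec : ∃ κ : ℂ, E c = (e : ℂ) • a + κ • (1 : Mat A)
  el : ∃ w Bd : Mat A,
    ((((1 - δ) * e ^ 2 * βC + ε) / bt N : ℝ) : ℂ) • (SA.H * a - a * SA.H) =
      (((1 - δ) * e : ℝ) : ℂ) • E (SC.H * c - c * SC.H) + (ε : ℂ) • a + (βC : ℂ) • (w * a) + Bd ∧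
    -((w * a * MM N SA.rho a).trace).re ≤ s ∧ ‖(Bd * MM N SA.rho a).trace‖ ≤ s
  com : ∀ Z, ‖(e : ℂ) * (Z * (ρC * cᴴ - cᴴ * ρC)).trace -
    (E Z * (SA.rho * aᴴ - aᴴ * SA.rho)).trace‖ ≤ s * fr Z
  hess : ∀ Z, (1 - δ) ^ 2 * SA.qf LM (cen SA.rho (E Z)) ≤
    ((1 - δ) * e ^ 2 * βC + ε) / bt N * SC.qf LM Z
end

/-- the annihilation operator `a` of the first input seen on the output: `at_` intertwines with
`a` exactly, its adjoint up to the defect `G` that lives on the top level `P` -/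
structure Itw {A B C D : Type} [Fintype A] [DecidableEq A] [Fintype B] [DecidableEq B]
    [Fintype C] [DecidableEq C] [Fintype D] [DecidableEq D]
    (V : Matrix (C × D) (A × B) ℂ) (c : Mat C) (a P : Mat A) (e : ℝ)
    (G : Matrix (C × D) (A × B) ℂ) : Prop where
  ex : ∃ d : Mat D,
    ((e : ℂ) • (c ⊗ₖ (1 : Mat D)) + (1 : Mat C) ⊗ₖ d) * V = V * (a ⊗ₖ (1 : Mat B)) ∧
    ((e : ℂ) • (c ⊗ₖ (1 : Mat D)) + (1 : Mat C) ⊗ₖ d)ᴴ * V =
      V * (aᴴ ⊗ₖ (1 : Mat B)) + G * (P ⊗ₖ (1 : Mat B))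
  Ph : Pᴴ = P
  PP : P * P = P
  aP : aᴴ * P = 0

/-- the box of occupation numbers -/
abbrev Ix (n K : ℕ) : Type := Fin n → Fin (K + 1)
/-- truncated annihilation operator of mode `i` -/
def low (n K : ℕ) (i : Fin n) : Mat (Ix n K) :=
  Matrix.of fun k l => if (∀ j, j ≠ i → k j = l j) ∧ (l i : ℕ) = k i + 1 then
    ((√((l i : ℕ) : ℝ) : ℝ) : ℂ) else 0
/-- the function `f` of the occupation of mode `i` -/
def dg (n K : ℕ) (i : Fin n) (f : ℕ → ℝ) : Mat (Ix n K) := diagonal fun k => (f (k i) : ℂ)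
/-- projection on the top level of mode `i` -/
def top (n K : ℕ) (i : Fin n) : Mat (Ix n K) := dg n K i fun k => if k = K then 1 else 0
/-- mean photon number -/
def En {n K : ℕ} (ρ : Mat (Ix n K)) : ℝ := ∑ k, ((∑ j, (k j : ℕ) : ℕ) : ℝ) * (ρ k k).re
/-- the beam splitter -/
def VV (n K : ℕ) (η : ℝ) : Matrix (Ix n (2 * K) × Ix n (2 * K)) (Ix n K × Ix n K) ℂ :=
  Matrix.of fun pq kl => (bsAmpN η kl.1 kl.2 pq.1 pq.2 : ℂ)
/-- increments of the exponential penalty -/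
def w0 (γ : ℝ) (k : ℕ) : ℝ := γ ^ k / (k + 1)
/-- the penalty of one mode -/
def W1 (ε cw γ : ℝ) (k : ℕ) : ℝ := ε * k + cw * ∑ j ∈ Finset.range k, w0 γ j
def WW (n K : ℕ) (ε cw γ : ℝ) : Mat (Ix n K) := ∑ i, dg n K i (W1 ε cw γ)
/-- the functional that is minimised -/
def FF (n K : ℕ) (η lA lB δ ε cw γ : ℝ) (ρA ρB : Mat (Ix n K)) : ℝ :=
  vnEntropy (mixd δ (bsOutput η ρA ρB)) - lA * vnEntropy ρA - lB * vnEntropy ρB +
    (ρA * WW n K ε cw γ).trace.re + (ρB * WW n K ε cw γ).trace.re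
/-- supported in the smaller box -/
def Supp {n K : ℕ} (K0 : ℕ) (ρ : Mat (Ix n K)) : Prop :=
  ∀ k l, ρ k l ≠ 0 → (∀ j, (k j : ℕ) ≤ K0) ∧ ∀ j, (l j : ℕ) ≤ K0

theorem defs_anchor : True := by
  have := @LM.eq_1
  have := @LM.eq_def
  have := @LM.eq_unfold
  have := @LM.congr_simp
  have := @bt.eq_1
  have := @bt.eq_def
  have := @bt.eq_unfold
  have := @bt.congr_simp
  have := @phiJ.eq_1
  have := @phiJ.eq_def
  have := @phiJ.eq_unfold
  have := @phiJ.congr_simp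
  have := @fr.eq_1
  have := @fr.eq_def
  have := @fr.eq_unfold
  have := @fr.congr_simp
  have := @Sp.p.eq_1
  have := @Sp.p.eq_def
  have := @Sp.p.eq_unfold
  have := @Sp.p.congr_simp
  have := @Sp.rho.eq_1
  have := @Sp.rho.eq_def
  have := @Sp.rho.eq_unfold
  have := @Sp.rho.congr_simp
  have := @Sp.H.eq_1
  have := @Sp.H.eq_def
  have := @Sp.H.eq_unfold
  have := @Sp.H.congr_simp
  have := @Sp.hat.eq_1
  have := @Sp.hat.eq_def
  have := @Sp.hat.eq_unfold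
  have := @Sp.hat.congr_simp
  have := @Sp.sf.eq_1
  have := @Sp.sf.eq_def
  have := @Sp.sf.eq_unfold
  have := @Sp.sf.congr_simp
  have := @Sp.qf.eq_1
  have := @Sp.qf.eq_def
  have := @Sp.qf.eq_unfold
  have := @Sp.qf.congr_simp
  have := @Sp.zeta.eq_1
  have := @Sp.zeta.eq_def
  have := @Sp.zeta.eq_unfold
  have := @Sp.zeta.congr_simp
  have := @cen.eq_1
  have := @cen.eq_def
  have := @cen.eq_unfold
  have := @cen.congr_simp
  have := @MM.eq_1
  have := @MM.eq_def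
  have := @MM.eq_unfold
  have := @MM.congr_simp
  have := @mixd.eq_1
  have := @mixd.eq_def
  have := @mixd.eq_unfold
  have := @mixd.congr_simp
  have := @out.eq_1
  have := @out.eq_def
  have := @out.eq_unfold
  have := @out.congr_simp
  have := @cnd.eq_1
  have := @cnd.eq_def
  have := @cnd.eq_unfold
  have := @cnd.congr_simp
  have := @swp.eq_1
  have := @swp.eq_def
  have := @swp.eq_unfold
  have := @swp.congr_simp
  have := @low.eq_1
  have := @low.eq_def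
  have := @low.eq_unfold
  have := @low.congr_simp
  have := @dg.eq_1
  have := @dg.eq_def
  have := @dg.eq_unfold
  have := @dg.congr_simp
  have := @top.eq_1
  have := @top.eq_def
  have := @top.eq_unfold
  have := @top.congr_simp
  have := @En.eq_1
  have := @En.eq_def
  have := @En.eq_unfold
  have := @En.congr_simp
  have := @VV.eq_1
  have := @VV.eq_def
  have := @VV.eq_unfold
  have := @VV.congr_simp
  have := @w0.eq_1
  have := @w0.eq_def
  have := @w0.eq_unfold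
  have := @w0.congr_simp
  have := @W1.eq_1
  have := @W1.eq_def
  have := @W1.eq_unfold
  have := @W1.congr_simp
  have := @WW.eq_1
  have := @WW.eq_def
  have := @WW.eq_unfold
  have := @WW.congr_simp
  have := @FF.eq_1
  have := @FF.eq_def
  have := @FF.eq_unfold
  have := @FF.congr_simp
  have := @Supp.eq_1
  have := @Supp.eq_def
  have := @Supp.eq_unfold
  have := @Supp.congr_simp
  have := @bsAmp.eq_1
  have := @bsAmp.eq_def
  have := @bsAmp.eq_unfold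
  have := @bsAmp.congr_simp
  have := @bsAmpN.eq_1
  have := @bsAmpN.eq_def
  have := @bsAmpN.eq_unfold
  have := @bsAmpN.congr_simp
  have := @bsOutput.eq_1
  have := @bsOutput.eq_def
  have := @bsOutput.eq_unfold
  have := @bsOutput.congr_simp
  have := @gBose.eq_1
  have := @gBose.eq_def
  have := @gBose.eq_unfold
  have := @gBose.congr_simp
  trivial

end

end Crest.Agent.R331.EP
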