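import Crest.Agent.R331.Min
import Crest.Agent.R331.Box
import Crest.Agent.R331.BSm

set_option autoImplicit false

open Matrix Kronecker Crest.Quantum Crest.MathPhysics.Bosonic
open scoped ComplexOrder

namespace Crest.Agent.R331.EP

open Crest.Agent.R331.BSm

/-- truncated partition function of one mode -/
noncomputable def endZ (N : ℝ) (K : ℕ) : ℝ := ∑ k ∈ Finset.range (K + 1), (N / (N + 1)) ^ k

/-- total occupation -/
def endTot {n K : ℕ} (k : Ix n K) : ℕ := ∑ j, (k j : ℕ)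

lemma endq_pos {N : ℝ} (hN : 0 < N) : 0 < N / (N + 1) := by positivity

lemma endq_lt {N : ℝ} (hN : 0 < N) : N / (N + 1) < 1 := by
  rw [div_lt_one (by positivity)]; linarith

lemma one_le_endZ {N : ℝ} (hN : 0 < N) (K : ℕ) : 1 ≤ endZ N K := by
  rw [endZ, Finset.sum_range_succ']
  have : 0 ≤ ∑ k ∈ Finset.range K, (N / (N + 1)) ^ (k + 1) :=
    Finset.sum_nonneg fun _ _ => (pow_pos (endq_pos hN) _).le
  simpa using this

lemma endZ_le {N : ℝ} (hN : 0 < N) (K : ℕ) : endZ N K ≤ N + 1 := by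
  have h := (summable_geometric_of_lt_one (endq_pos hN).le (endq_lt hN)).sum_le_tsum
    (Finset.range (K + 1)) (fun _ _ => (pow_pos (endq_pos hN) _).le)
  rw [tsum_geometric_of_lt_one (endq_pos hN).le (endq_lt hN)] at h
  refine h.trans (le_of_eq ?_)
  field_simp
  ring

lemma exp_neg_bt {N : ℝ} (hN : 0 < N) : Real.exp (-bt N) = N / (N + 1) := by
  rw [Real.exp_neg, exp_bt hN, inv_div]

lemma sum_q_pow {N : ℝ} (n K : ℕ) :
    ∑ k : Ix n K, (N / (N + 1)) ^ endTot k = endZ N K ^ n := by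
  have h := Finset.prod_univ_sum (fun _ : Fin n => (Finset.univ : Finset (Fin (K + 1))))
    (fun _ (k : Fin (K + 1)) => (N / (N + 1)) ^ (k : ℕ))
  rw [Fintype.piFinset_univ, Fin.sum_univ_eq_sum_range (fun k => (N / (N + 1)) ^ k) (K + 1)] at h
  simp only [endTot, ← Finset.prod_pow_eq_pow_sum]
  rw [← h, endZ]
  simp

lemma exp_endh {N : ℝ} (hN : 0 < N) {n K : ℕ} (k : Ix n K) :
    Real.exp (-(bt N * endTot k) - n * Real.log (endZ N K)) =
      (N / (N + 1)) ^ endTot k / endZ N K ^ n := by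
  have hz : 0 < endZ N K := lt_of_lt_of_le one_pos (one_le_endZ hN K)
  rw [Real.exp_sub, ← neg_mul, mul_comm (-bt N), Real.exp_nat_mul, Real.exp_nat_mul, exp_neg_bt hN,
    Real.exp_log hz]

/-- the truncated thermal state -/
noncomputable def endT (n K : ℕ) {N : ℝ} (hN : 0 < N) : Sp (Ix n K) where
  U := 1
  h := fun k => -(bt N * endTot k) - n * Real.log (endZ N K)
  U1 := by simp
  U2 := by simp
  tr1 := by
    have hz : 0 < endZ N K := lt_of_lt_of_le one_pos (one_le_endZ hN K)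
    simp only [exp_endh hN]
    rw [← Finset.sum_div, sum_q_pow, div_self (pow_pos hz _).ne']

lemma endT_H (n K : ℕ) {N : ℝ} (hN : 0 < N) : (endT n K hN).H =
    diagonal fun k => ((-(bt N * endTot k) - n * Real.log (endZ N K) : ℝ) : ℂ) := by
  simp only [Sp.H, endT, Matrix.one_mul, conjTranspose_one, Matrix.mul_one]

lemma endT_rho (n K : ℕ) {N : ℝ} (hN : 0 < N) : (endT n K hN).rho =
    diagonal fun k => (((N / (N + 1)) ^ endTot k / endZ N K ^ n : ℝ) : ℂ) := by
  simp only [Sp.rho, Sp.p, endT, Matrix.one_mul, conjTranspose_one, Matrix.mul_one, exp_endh hN]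

lemma tr_endT_H {n K : ℕ} {ρ : Mat (Ix n K)} (h : IsDensity ρ) {N : ℝ} (hN : 0 < N) :
    -((ρ * (endT n K hN).H).trace).re = bt N * En ρ + n * Real.log (endZ N K) := by
  have h1 : ∑ k, (ρ k k).re = 1 := by
    have := congrArg Complex.re h.2
    simpa [Matrix.trace] using this
  have h2 : n * Real.log (endZ N K) = ∑ k, n * Real.log (endZ N K) * (ρ k k).re := by
    rw [← Finset.mul_sum, h1, mul_one]
  rw [h2, endT_H, Matrix.trace, Complex.re_sum, En, Finset.mul_sum,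
    ← Finset.sum_add_distrib, ← Finset.sum_neg_distrib]
  refine Finset.sum_congr rfl fun k _ => ?_
  rw [diag_apply, mul_diagonal, Complex.re_mul_ofReal, endTot]
  ring

/-- `S ρ ≤ β E + n log (N + 1)` (Klein against the truncated thermal state) -/
theorem gibbs_num {n K : ℕ} {ρ : Mat (Ix n K)} (h : IsDensity ρ) {N : ℝ} (hN : 0 < N) :
    vnEntropy ρ ≤ bt N * En ρ + n * Real.log (N + 1) := by
  have h1 := klein (endT n K hN) h
  rw [tr_endT_H h hN] at h1
  have hz : 0 < endZ N K := lt_of_lt_of_le one_pos (one_le_endZ hN K)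
  have := mul_le_mul_of_nonneg_left (Real.log_le_log hz (endZ_le hN K)) (Nat.cast_nonneg (α := ℝ) n)
  linarith

/-- lower mode `i` inside the box -/
def endDn {n K : ℕ} (i : Fin n) (k : Ix n K) : Ix n K :=
  Function.update k i ⟨k i - 1, by have := (k i).2; omega⟩

lemma val_endDn {n K : ℕ} (i : Fin n) (k : Ix n K) : val (endDn i k) = dn i (val k) := by
  funext j
  by_cases hj : j = i
  · subst hj; simp [endDn]
  · rw [dn_ne _ hj]; simp [endDn, hj]

lemma endDn_self {n K : ℕ} (i : Fin n) (k : Ix n K) : (endDn i k i : ℕ) = k i - 1 := by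
  simp [endDn]

lemma up_val_endDn {n K : ℕ} (i : Fin n) (k : Ix n K) (h : 1 ≤ (k i : ℕ)) :
    up i (val (endDn i k)) = val k := by
  rw [val_endDn]
  funext j
  by_cases hj : j = i
  · subst hj; rw [up_self, dn_self, val_apply]; omega
  · rw [up_ne _ hj, dn_ne _ hj]

lemma endTot_endDn {n K : ℕ} (i : Fin n) (k : Ix n K) (h : 1 ≤ (k i : ℕ)) :
    endTot (endDn i k) + 1 = endTot k := by
  unfold endTot
  rw [← Finset.add_sum_erase _ _ (Finset.mem_univ i), ← Finset.add_sum_erase _ _ (Finset.mem_univ i),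
    endDn_self]
  have : ∑ j ∈ Finset.univ.erase i, (endDn i k j : ℕ) = ∑ j ∈ Finset.univ.erase i, (k j : ℕ) :=
    Finset.sum_congr rfl fun j hj => by simp [endDn, Finset.ne_of_mem_erase hj]
  omega

lemma low_col {n K : ℕ} (i : Fin n) (m k : Ix n K) :
    low n K i m k = if m = endDn i k then ((√(k i : ℝ) : ℝ) : ℂ) else 0 := by
  rw [low_apply]
  by_cases h1 : 1 ≤ (k i : ℕ)
  · by_cases hm : m = endDn i k
    · subst hm
      rw [if_pos (up_val_endDn i k h1).symm, if_pos rfl, endDn_self, Nat.cast_sub h1]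
      simp
    · rw [if_neg hm, if_neg]
      intro h'
      apply hm
      rw [← val_inj, val_endDn]
      funext j
      by_cases hj : j = i
      · subst hj; rw [dn_self, h', up_self]; omega
      · rw [dn_ne _ hj, h', up_ne _ hj]
  · have h0 : (k i : ℕ) = 0 := by omega
    rw [if_neg, h0]
    · simp
    · intro h'
      have := congrFun h' i
      simp at this
      omega

lemma MM_entry {n K : ℕ} (N : ℝ) (σ : Mat (Ix n K)) (i : Fin n) (k l : Ix n K)
    (h : 1 ≤ (l i : ℕ)) :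
    MM N σ (low n K i) k (endDn i l) =
      ((N + 1 : ℝ) : ℂ) * (((√(l i : ℝ) : ℝ) : ℂ) * σ k l) -
        (N : ℂ) * (((√(k i : ℝ) : ℝ) : ℂ) * σ (endDn i k) (endDn i l)) := by
  have e1 : (σ * (low n K i)ᴴ) k (endDn i l) = ((√(l i : ℝ) : ℝ) : ℂ) * σ k l := by
    rw [Matrix.mul_apply, Finset.sum_eq_single l]
    · rw [low_adj_apply, low_col, if_pos rfl, mul_comm]
    · intro m _ hm
      rw [low_adj_apply, low_apply, up_val_endDn i l h, if_neg (fun h' => hm (val_inj.1 h')),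
        mul_zero]
    · simp
  have e2 : ((low n K i)ᴴ * σ) k (endDn i l) =
      ((√(k i : ℝ) : ℝ) : ℂ) * σ (endDn i k) (endDn i l) := by
    rw [Matrix.mul_apply, Finset.sum_eq_single (endDn i k)]
    · rw [low_adj_apply, low_col, if_pos rfl]
    · intro m _ hm
      rw [low_adj_apply, low_col, if_neg hm, zero_mul]
    · simp
  rw [MM, Matrix.sub_apply, Matrix.smul_apply, Matrix.smul_apply, e1, e2, smul_eq_mul, smul_eq_mul]

/-- one step of the recursion -/
lemma end_step {n K : ℕ} {N : ℝ} (hN : 0 < N) (σ : Mat (Ix n K)) {g : ℝ} (i : Fin n)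
    (hg : fr (MM N σ (low n K i)) ≤ g) (k l : Ix n K) (h : 1 ≤ (l i : ℕ)) :
    ‖σ k l - ((N / (N + 1) * (√(k i : ℝ) / √(l i : ℝ)) : ℝ) : ℂ) * σ (endDn i k) (endDn i l)‖ ≤ g := by
  have h1 := (entry_le_fr _ k (endDn i l)).trans hg
  rw [MM_entry N σ i k l h] at h1
  have hl : (1 : ℝ) ≤ √(l i : ℝ) := by
    rw [Real.le_sqrt (by norm_num) (by positivity)]
    have : ((1 : ℕ) : ℝ) ≤ ((l i : ℕ) : ℝ) := by exact_mod_cast h
    simpa using this
  have hl0 : (0 : ℝ) < √(l i : ℝ) := lt_of_lt_of_le one_pos hl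
  have e : ((N + 1 : ℝ) : ℂ) * (((√(l i : ℝ) : ℝ) : ℂ) * σ k l) -
        (N : ℂ) * (((√(k i : ℝ) : ℝ) : ℂ) * σ (endDn i k) (endDn i l)) =
      (((N + 1) * √(l i : ℝ) : ℝ) : ℂ) * (σ k l -
        ((N / (N + 1) * (√(k i : ℝ) / √(l i : ℝ)) : ℝ) : ℂ) * σ (endDn i k) (endDn i l)) := by
    have h2 : ((N : ℂ) + 1) ≠ 0 := by exact_mod_cast (by positivity : (N + 1 : ℝ) ≠ 0)
    have h3 : ((√(l i : ℝ) : ℝ) : ℂ) ≠ 0 := by exact_mod_cast hl0.ne'
    push_cast
    field_simp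
  rw [e, norm_mul, Complex.norm_real, Real.norm_eq_abs, abs_of_pos (by positivity)] at h1
  refine le_trans (le_mul_of_one_le_left (norm_nonneg _) ?_) h1
  nlinarith

lemma end_off {n K : ℕ} {N : ℝ} (hN : 0 < N) (σ : Mat (Ix n K)) {g : ℝ} (i : Fin n)
    (hg : fr (MM N σ (low n K i)) ≤ g) (m : ℕ) :
    ∀ k l : Ix n K, (k i : ℕ) = m → (k i : ℕ) < l i → ‖σ k l‖ ≤ (m + 1) * g := by
  induction m with
  | zero =>
    intro k l hk hl
    have := end_step hN σ i hg k l (by omega)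
    rw [hk] at this
    simpa using this
  | succ m ih =>
    intro k l hk hl
    have h1 := end_step hN σ i hg k l (by omega)
    have h2 := ih (endDn i k) (endDn i l) (by rw [endDn_self]; omega)
      (by rw [endDn_self, endDn_self]; omega)
    have hc0 : 0 ≤ N / (N + 1) * (√(k i : ℝ) / √(l i : ℝ)) := by positivity
    have hc1 : N / (N + 1) * (√(k i : ℝ) / √(l i : ℝ)) ≤ 1 := by
      refine mul_le_one₀ (endq_lt hN).le (by positivity) (div_le_one_of_le₀ ?_ (Real.sqrt_nonneg _))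
      apply Real.sqrt_le_sqrt
      exact_mod_cast hl.le
    have h3 : ‖((N / (N + 1) * (√(k i : ℝ) / √(l i : ℝ)) : ℝ) : ℂ) * σ (endDn i k) (endDn i l)‖ ≤
        (m + 1) * g := by
      rw [norm_mul, Complex.norm_real, Real.norm_eq_abs, abs_of_nonneg hc0]
      exact (mul_le_of_le_one_left (norm_nonneg _) hc1).trans h2
    have h4 := norm_add_le (σ k l - ((N / (N + 1) * (√(k i : ℝ) / √(l i : ℝ)) : ℝ) : ℂ) *
      σ (endDn i k) (endDn i l)) (((N / (N + 1) * (√(k i : ℝ) / √(l i : ℝ)) : ℝ) : ℂ) *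
      σ (endDn i k) (endDn i l))
    rw [sub_add_cancel] at h4
    push_cast
    linarith

lemma end_diag {n K : ℕ} {N : ℝ} (hN : 0 < N) (σ : Mat (Ix n K)) {g : ℝ}
    (hg : ∀ i, fr (MM N σ (low n K i)) ≤ g) (m : ℕ) :
    ∀ k : Ix n K, endTot k = m →
      ‖σ k k - (((N / (N + 1)) ^ m : ℝ) : ℂ) * σ 0 0‖ ≤ m * g := by
  induction m with
  | zero =>
    intro k hk
    have : k = 0 := by
      funext j
      have := (Finset.sum_eq_zero_iff.1 hk) j (Finset.mem_univ j)
      exact Fin.ext this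
    subst this
    simp
  | succ m ih =>
    intro k hk
    obtain ⟨i, hi⟩ : ∃ i, 1 ≤ (k i : ℕ) := by
      by_contra hc
      push Not at hc
      have : endTot k = 0 := Finset.sum_eq_zero fun j _ => by have := hc j; omega
      omega
    have h1 := end_step hN σ i (hg i) k k hi
    have hl0 : (0 : ℝ) < √(k i : ℝ) := Real.sqrt_pos.2 (by exact_mod_cast hi)
    rw [div_self hl0.ne', mul_one] at h1
    have h2 := ih (endDn i k) (by have := endTot_endDn i k hi; omega)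
    have e : σ k k - (((N / (N + 1)) ^ (m + 1) : ℝ) : ℂ) * σ 0 0 =
        (σ k k - ((N / (N + 1) : ℝ) : ℂ) * σ (endDn i k) (endDn i k)) +
          ((N / (N + 1) : ℝ) : ℂ) * (σ (endDn i k) (endDn i k) -
            (((N / (N + 1)) ^ m : ℝ) : ℂ) * σ 0 0) := by
      push_cast; ring
    rw [e]
    refine (norm_add_le _ _).trans ?_
    rw [norm_mul, Complex.norm_real, Real.norm_eq_abs, abs_of_pos (endq_pos hN)]
    have h3 := (mul_le_of_le_one_left (norm_nonneg _) (endq_lt hN).le).trans h2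
    rw [Nat.cast_succ]
    linarith

lemma endTot_le {n K : ℕ} (k : Ix n K) : endTot k ≤ n * K := by
  calc endTot k ≤ ∑ _j : Fin n, K := Finset.sum_le_sum fun j _ => Nat.lt_succ_iff.1 (k j).2
    _ = n * K := by simp

lemma end_entry {n K : ℕ} {N : ℝ} (hN : 0 < N) {σ : Mat (Ix n K)} (hσ : IsDensity σ) {g : ℝ}
    (hg0 : 0 ≤ g) (hg : ∀ i, fr (MM N σ (low n K i)) ≤ g) (k l : Ix n K) :
    ‖(σ - (endT n K hN).rho) k l‖ ≤ (2 * n + 1) * (K + 1 : ℝ) ^ (n + 1) * g := by
  have hK1 : (1 : ℝ) ≤ (K + 1 : ℝ) ^ n := one_le_pow₀ (by linarith [Nat.cast_nonneg (α := ℝ) K])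
  have hK0 : (0 : ℝ) ≤ K := Nat.cast_nonneg K
  have hn0 : (0 : ℝ) ≤ n := Nat.cast_nonneg n
  rw [endT_rho, Matrix.sub_apply]
  by_cases hkl : k = l
  · subst hkl
    rw [diagonal_apply_eq]
    have hd : ∀ m : Ix n K, ‖σ m m - (((N / (N + 1)) ^ endTot m : ℝ) : ℂ) * σ 0 0‖ ≤ n * K * g := by
      intro m
      refine (end_diag hN σ hg _ m rfl).trans (mul_le_mul_of_nonneg_right ?_ hg0)
      exact_mod_cast endTot_le m
    have hz1 : 1 ≤ endZ N K ^ n := one_le_pow₀ (one_le_endZ hN K)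
    have hz0 : 0 < endZ N K ^ n := lt_of_lt_of_le one_pos hz1
    have hsum : ‖1 - ((endZ N K ^ n : ℝ) : ℂ) * σ 0 0‖ ≤ (K + 1 : ℝ) ^ n * (n * K * g) := by
      have e : 1 - ((endZ N K ^ n : ℝ) : ℂ) * σ 0 0 =
          ∑ m : Ix n K, (σ m m - (((N / (N + 1)) ^ endTot m : ℝ) : ℂ) * σ 0 0) := by
        rw [Finset.sum_sub_distrib, ← Finset.sum_mul, ← Complex.ofReal_sum, sum_q_pow, ← hσ.2]
        rfl
      rw [e]
      refine (norm_sum_le _ _).trans ((Finset.sum_le_sum fun m _ => hd m).trans (le_of_eq ?_))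
      simp
    have e : σ k k - (((N / (N + 1)) ^ endTot k / endZ N K ^ n : ℝ) : ℂ) =
        (σ k k - (((N / (N + 1)) ^ endTot k : ℝ) : ℂ) * σ 0 0) -
          (((N / (N + 1)) ^ endTot k / endZ N K ^ n : ℝ) : ℂ) *
            (1 - ((endZ N K ^ n : ℝ) : ℂ) * σ 0 0) := by
      have : ((endZ N K ^ n : ℝ) : ℂ) ≠ 0 := by exact_mod_cast hz0.ne'
      rw [Complex.ofReal_div]
      field_simp
      ring
    rw [e]
    refine (norm_sub_le _ _).trans ?_
    have hq0 : 0 ≤ (N / (N + 1)) ^ endTot k / endZ N K ^ n := by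
      have := endq_pos hN
      positivity
    have hq1 : (N / (N + 1)) ^ endTot k / endZ N K ^ n ≤ 1 :=
      div_le_one_of_le₀ ((pow_le_one₀ (endq_pos hN).le (endq_lt hN).le).trans hz1) hz0.le
    rw [norm_mul, Complex.norm_real, Real.norm_eq_abs, abs_of_nonneg hq0]
    have h3 := (mul_le_of_le_one_left (norm_nonneg _) hq1).trans hsum
    have h4 := hd k
    have h5 : (n : ℝ) * K * g ≤ (K + 1 : ℝ) ^ n * (n * K * g) :=
      le_mul_of_one_le_left (by positivity) hK1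
    have h6 : (K + 1 : ℝ) ^ n * (n * K * g) * 2 ≤ (2 * n + 1) * (K + 1 : ℝ) ^ (n + 1) * g := by
      rw [pow_succ]
      have : 0 ≤ (K + 1 : ℝ) ^ n * g := by positivity
      nlinarith [mul_nonneg this hK0, mul_nonneg this hn0]
    linarith
  · rw [diagonal_apply_ne _ hkl, sub_zero]
    obtain ⟨i, hi⟩ := Function.ne_iff.1 hkl
    have hi' : (k i : ℕ) ≠ l i := fun h => hi (Fin.ext h)
    have hb : ∀ k l : Ix n K, (k i : ℕ) < l i → ‖σ k l‖ ≤ (K + 1) * g := by
      intro k l h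
      refine (end_off hN σ i (hg i) _ k l rfl h).trans (mul_le_mul_of_nonneg_right ?_ hg0)
      have : (k i : ℕ) ≤ K := Nat.lt_succ_iff.1 (k i).2
      have : ((k i : ℕ) : ℝ) ≤ K := by exact_mod_cast this
      linarith
    have h1 : ‖σ k l‖ ≤ (K + 1) * g := by
      rcases lt_or_gt_of_ne hi' with h | h
      · exact hb k l h
      · rw [← hσ.1.1.apply k l, norm_star]; exact hb l k h
    refine h1.trans (mul_le_mul_of_nonneg_right ?_ hg0)
    rw [pow_succ]
    have : (K + 1 : ℝ) ≤ (K + 1 : ℝ) ^ n * (K + 1) := le_mul_of_one_le_left (by positivity) hK1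
    nlinarith [mul_nonneg hn0 (by positivity : (0 : ℝ) ≤ (K + 1 : ℝ) ^ n * (K + 1))]

lemma fr_le_box {n K : ℕ} (A : Mat (Ix n K)) (g : ℝ) (hg : 0 ≤ g) (h : ∀ i j, ‖A i j‖ ≤ g) :
    fr A ≤ (K + 1 : ℝ) ^ n * g := by
  have := fr_le_of_entry A g hg h
  rwa [Real.mul_self_sqrt (Nat.cast_nonneg _), card_Ix, Nat.cast_pow, Nat.cast_succ] at this

lemma fr_endT_H (n K : ℕ) {N : ℝ} (hN : 0 < N) :
    fr (endT n K hN).H ≤ n * (bt N + Real.log (N + 1)) * (K + 1 : ℝ) ^ (n + 1) := by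
  have hb := bt_pos hN
  have hl : 0 ≤ Real.log (N + 1) := Real.log_nonneg (by linarith)
  have hz0 : 0 ≤ Real.log (endZ N K) := Real.log_nonneg (one_le_endZ hN K)
  have hz1 : Real.log (endZ N K) ≤ Real.log (N + 1) :=
    Real.log_le_log (lt_of_lt_of_le one_pos (one_le_endZ hN K)) (endZ_le hN K)
  have hK0 : (0 : ℝ) ≤ K := Nat.cast_nonneg K
  have hn0 : (0 : ℝ) ≤ n := Nat.cast_nonneg n
  refine (fr_le_box _ (n * (bt N + Real.log (N + 1)) * (K + 1)) (by positivity) ?_).trans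
    (le_of_eq (by ring))
  intro k l
  rw [endT_H]
  by_cases hkl : k = l
  · subst hkl
    rw [diagonal_apply_eq, Complex.norm_real, Real.norm_eq_abs]
    have ht : (endTot k : ℝ) ≤ n * K := by exact_mod_cast endTot_le k
    have ht0 : (0 : ℝ) ≤ endTot k := Nat.cast_nonneg _
    rw [abs_of_nonpos (by nlinarith [mul_nonneg hb.le ht0, mul_nonneg hn0 hz0])]
    nlinarith [mul_le_mul_of_nonneg_left ht hb.le, mul_le_mul_of_nonneg_left hz1 hn0,
      mul_nonneg hn0 hb.le, mul_nonneg (mul_nonneg hn0 hl) hK0]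
  · rw [diagonal_apply_ne _ hkl, norm_zero]; positivity

/-- An almost thermal state has almost thermal entropy.  Entries of `MM`:
`(N+1) √(l_i+1) σ(k, l+e_i) - N √k_i σ(k-e_i, l)`; so `σ = σ(0,0) diag (q^|k|) + O(poly g)`,
`q = N/(N+1)`, and `S σ = - tr σ log τ - D(σ‖τ)`, `D(σ‖τ) ≤ tr (σ-τ)(log σ - log τ)` by `klein`. -/
theorem endgame (n : ℕ) (N : ℝ) (hN : 0 < N) :
    ∃ (Cst : ℝ) (m : ℕ), 0 ≤ Cst ∧ ∀ (K : ℕ) (S : Sp (Ix n K)) (g : ℝ), 0 ≤ g →
      (∀ i, fr (MM N S.rho (low n K i)) ≤ g) →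
      bt N * En S.rho + n * Real.log (∑ k ∈ Finset.range (K + 1), (N / (N + 1)) ^ k) -
        Cst * (K + 1 : ℝ) ^ m * (1 + fr S.H) * g ≤ vnEntropy S.rho := by
  have hb := bt_pos hN
  have hl : 0 ≤ Real.log (N + 1) := Real.log_nonneg (by linarith)
  refine ⟨(2 * n + 1) * (1 + n * (bt N + Real.log (N + 1))), 3 * n + 2, by positivity, ?_⟩
  intro K S g hg0 hg
  set T := endT n K hN with hT
  have h1 := tr_endT_H S.density hN
  have h2 := vn_sp S
  have h3 := klein S T.density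
  have h4 := vn_sp T
  have h5 : fr (S.rho - T.rho) ≤ (K + 1 : ℝ) ^ n * ((2 * n + 1) * (K + 1 : ℝ) ^ (n + 1) * g) :=
    fr_le_box _ _ (by positivity) (end_entry hN S.density hg0 hg)
  have h6 : fr (S.H - T.H) ≤
      (1 + n * (bt N + Real.log (N + 1))) * (K + 1 : ℝ) ^ (n + 1) * (1 + fr S.H) := by
    refine (fr_sub _ _).trans ?_
    have h7 := fr_endT_H n K hN
    have hK1 : (1 : ℝ) ≤ (K + 1 : ℝ) ^ (n + 1) :=
      one_le_pow₀ (by linarith [Nat.cast_nonneg (α := ℝ) K])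
    have h8 := fr_nonneg S.H
    have h9 : 0 ≤ n * (bt N + Real.log (N + 1)) := by positivity
    set P := (K + 1 : ℝ) ^ (n + 1)
    set c := n * (bt N + Real.log (N + 1))
    nlinarith [mul_nonneg h9 (mul_nonneg (zero_le_one.trans hK1) h8),
      mul_le_mul_of_nonneg_right hK1 h8]
  have h7 : (((S.rho - T.rho) * (S.H - T.H)).trace).re ≤ fr (S.rho - T.rho) * fr (S.H - T.H) :=
    (Complex.re_le_norm _).trans (trace_mul_le _ _)
  have h8 := mul_le_mul h5 h6 (fr_nonneg _) (by positivity)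
  simp only [Matrix.sub_mul, Matrix.mul_sub, trace_sub, Complex.sub_re] at h7
  have e : (K + 1 : ℝ) ^ n * ((2 * n + 1) * (K + 1 : ℝ) ^ (n + 1) * g) *
      ((1 + n * (bt N + Real.log (N + 1))) * (K + 1 : ℝ) ^ (n + 1) * (1 + fr S.H)) =
      (2 * n + 1) * (1 + n * (bt N + Real.log (N + 1))) * (K + 1 : ℝ) ^ (3 * n + 2) *
        (1 + fr S.H) * g := by ring
  rw [e] at h8
  change bt N * En S.rho + n * Real.log (endZ N K) - _ ≤ _
  linarith

end Crest.Agent.R331.EP
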