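import Crest.Agent.R331.End

set_option autoImplicit false

open Matrix Kronecker Crest.Quantum Crest.MathPhysics.Bosonic
open scoped ComplexOrder

namespace Crest.Agent.R331.EP

/-- Entries of `MM`: `(N+1) √(l_i+1) σ(k, l+e_i) - N √k_i σ(k-e_i, l)`; so
`σ = σ(0,0) diag (q^|k|) + O(poly g)`, `q = N/(N+1)`; normalise with the trace. -/
theorem near_thermal (n : ℕ) (N : ℝ) (hN : 0 < N) :
    ∃ (Cst : ℝ) (m : ℕ), 0 ≤ Cst ∧ ∀ (K : ℕ) (σ : Mat (Ix n K)) (g : ℝ), IsDensity σ → 0 ≤ g →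
      (∀ i, fr (MM N σ (low n K i)) ≤ g) →
      fr (σ - diagonal fun k : Ix n K => (((N / (N + 1)) ^ (∑ j, (k j : ℕ)) /
        (∑ k ∈ Finset.range (K + 1), (N / (N + 1)) ^ k) ^ n : ℝ) : ℂ)) ≤
        Cst * (K + 1 : ℝ) ^ m * g := by
  refine ⟨2 * n + 1, 2 * n + 1, by positivity, fun K σ g hσ hg0 hg => ?_⟩
  have h := fr_le_box _ _ (by positivity) (end_entry hN hσ hg0 hg)
  rw [endT_rho] at h
  exact h.trans (le_of_eq (by ring))

end Crest.Agent.R331.EP
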