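import Crest.Agent.R331.Defs

/-! Row 331, endgame (A): the square root of a state and the truncated annihilation operators. -/

set_option autoImplicit false

open Matrix Crest.Quantum Crest.MathPhysics.Bosonic Finset
open scoped ComplexOrder

namespace Crest.Agent.R331.EP

noncomputable section

/-- squared Frobenius norm -/
def egHs {m n : Type} [Fintype m] [Fintype n] (A : Matrix m n ℂ) : ℝ := ∑ i, ∑ j, ‖A i j‖ ^ 2

theorem eg_mulH_diag {m n : Type} [Fintype n] (A : Matrix m n ℂ) (i : m) :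
    ((A * Aᴴ) i i).re = ∑ j, ‖A i j‖ ^ 2 := by
  rw [Matrix.mul_apply, Complex.re_sum]
  refine sum_congr rfl fun j _ => ?_
  rw [conjTranspose_apply, Complex.star_def, Complex.mul_conj, Complex.normSq_eq_norm_sq]
  norm_cast

theorem egHs_eq_trace {m n : Type} [Fintype m] [Fintype n] (A : Matrix m n ℂ) :
    egHs A = (A * Aᴴ).trace.re := by
  rw [Matrix.trace, Complex.re_sum]
  exact sum_congr rfl fun i _ => (eg_mulH_diag A i).symm

theorem eg_entry_le {m n : Type} [Fintype m] [Fintype n] (A : Matrix m n ℂ) (i : m) (j : n) :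
    ‖A i j‖ ^ 2 ≤ egHs A := by
  calc ‖A i j‖ ^ 2 ≤ ∑ j, ‖A i j‖ ^ 2 :=
        single_le_sum (f := fun j => ‖A i j‖ ^ 2) (fun _ _ => by positivity) (mem_univ j)
    _ ≤ egHs A := single_le_sum (f := fun i => ∑ j, ‖A i j‖ ^ 2)
        (fun _ _ => sum_nonneg fun _ _ => by positivity) (mem_univ i)

theorem eg_norm_add_sq (u v : ℂ) {t : ℝ} (ht : 0 < t) :
    ‖u + v‖ ^ 2 ≤ (1 + t) * ‖u‖ ^ 2 + (1 + 1 / t) * ‖v‖ ^ 2 := by
  have h1 := norm_add_le u v
  have h2 : ‖u + v‖ ^ 2 ≤ (‖u‖ + ‖v‖) ^ 2 := by gcongr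
  have h3 : 2 * ‖u‖ * ‖v‖ ≤ t * ‖u‖ ^ 2 + 1 / t * ‖v‖ ^ 2 := by
    have : 0 ≤ (t * ‖u‖ - ‖v‖) ^ 2 / t := by positivity
    have e : (t * ‖u‖ - ‖v‖) ^ 2 / t = t * ‖u‖ ^ 2 + 1 / t * ‖v‖ ^ 2 - 2 * ‖u‖ * ‖v‖ := by
      field_simp; ring
    linarith
  nlinarith

theorem egHs_add_le {m n : Type} [Fintype m] [Fintype n] (A B : Matrix m n ℂ) {t : ℝ}
    (ht : 0 < t) : egHs (A + B) ≤ (1 + t) * egHs A + (1 + 1 / t) * egHs B := by
  simp only [egHs, mul_sum, ← sum_add_distrib]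
  exact sum_le_sum fun i _ => sum_le_sum fun j _ => eg_norm_add_sq _ _ ht

theorem egHs_smul {m n : Type} [Fintype m] [Fintype n] (c : ℂ) (A : Matrix m n ℂ) :
    egHs (c • A) = ‖c‖ ^ 2 * egHs A := by
  simp only [egHs, mul_sum, Matrix.smul_apply, smul_eq_mul, norm_mul, mul_pow]

section
variable {ι : Type} [Fintype ι] [DecidableEq ι]

theorem egHs_hat (S : Sp ι) (A : Mat ι) : egHs (S.hat A) = egHs A := by
  rw [egHs_eq_trace, egHs_eq_trace, Sp.hat]
  congr 1
  have : S.Uᴴ * A * S.U * (S.Uᴴ * A * S.U)ᴴ = S.Uᴴ * (A * Aᴴ) * S.U := by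
    rw [conjTranspose_mul, conjTranspose_mul, conjTranspose_conjTranspose]
    calc S.Uᴴ * A * S.U * (S.Uᴴ * (Aᴴ * S.U)) = S.Uᴴ * A * (S.U * S.Uᴴ) * (Aᴴ * S.U) := by
          simp only [Matrix.mul_assoc]
      _ = S.Uᴴ * (A * Aᴴ) * S.U := by rw [S.U2]; simp only [Matrix.mul_assoc, Matrix.mul_one]
  rw [this, trace_mul_cycle, S.U2, Matrix.one_mul]

/-- the square root of the state -/
def egRt (S : Sp ι) : Mat ι := S.U * diagonal (fun j => ((√(S.p j) : ℝ) : ℂ)) * S.Uᴴ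

theorem eg_p_pos (S : Sp ι) (j : ι) : 0 < S.p j := Real.exp_pos _

theorem eg_p_sum (S : Sp ι) : ∑ j, S.p j = 1 := S.tr1

theorem eg_p_le_one (S : Sp ι) (j : ι) : S.p j ≤ 1 := by
  rw [← eg_p_sum S]
  exact single_le_sum (f := S.p) (fun i _ => (eg_p_pos S i).le) (mem_univ j)

theorem egRt_herm (S : Sp ι) : (egRt S)ᴴ = egRt S := by
  rw [egRt, conjTranspose_mul, conjTranspose_mul, conjTranspose_conjTranspose,
    diagonal_conjTranspose, Matrix.mul_assoc]
  congr 2
  congr 1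
  funext j
  simp

theorem egRt_mul (S : Sp ι) : egRt S * (egRt S)ᴴ = S.rho := by
  rw [egRt_herm, egRt, Sp.rho]
  calc S.U * diagonal (fun j => ((√(S.p j) : ℝ) : ℂ)) * S.Uᴴ *
        (S.U * diagonal (fun j => ((√(S.p j) : ℝ) : ℂ)) * S.Uᴴ)
      = S.U * (diagonal (fun j => ((√(S.p j) : ℝ) : ℂ)) * (S.Uᴴ * S.U) *
          diagonal (fun j => ((√(S.p j) : ℝ) : ℂ))) * S.Uᴴ := by simp only [Matrix.mul_assoc]
    _ = _ := by
      rw [S.U1, Matrix.mul_one, diagonal_mul_diagonal]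
      congr 2
      congr 1
      funext j
      rw [← Complex.ofReal_mul, Real.mul_self_sqrt (eg_p_pos S j).le]

theorem eg_hat_D (S : Sp ι) (Y : Mat ι) (q : ℝ) (j k : ι) :
    S.hat (egRt S * Y - (q : ℂ) • (Y * egRt S)) j k =
      ((√(S.p j) - q * √(S.p k) : ℝ) : ℂ) * S.hat Y j k := by
  have h1 : S.Uᴴ * (egRt S * Y) * S.U =
      diagonal (fun j => ((√(S.p j) : ℝ) : ℂ)) * (S.Uᴴ * Y * S.U) := by
    rw [egRt]
    calc S.Uᴴ * (S.U * diagonal (fun j => ((√(S.p j) : ℝ) : ℂ)) * S.Uᴴ * Y) * S.U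
        = (S.Uᴴ * S.U) * diagonal (fun j => ((√(S.p j) : ℝ) : ℂ)) * (S.Uᴴ * Y * S.U) := by
          simp only [Matrix.mul_assoc]
      _ = _ := by rw [S.U1, Matrix.one_mul]
  have h2 : S.Uᴴ * (Y * egRt S) * S.U =
      (S.Uᴴ * Y * S.U) * diagonal (fun j => ((√(S.p j) : ℝ) : ℂ)) := by
    rw [egRt]
    calc S.Uᴴ * (Y * (S.U * diagonal (fun j => ((√(S.p j) : ℝ) : ℂ)) * S.Uᴴ)) * S.U
        = (S.Uᴴ * Y * S.U) * diagonal (fun j => ((√(S.p j) : ℝ) : ℂ)) * (S.Uᴴ * S.U) := by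
          simp only [Matrix.mul_assoc]
      _ = _ := by rw [S.U1, Matrix.mul_one]
  rw [Sp.hat, Sp.hat, Matrix.mul_sub, Matrix.sub_mul, Matrix.mul_smul, Matrix.smul_mul, h1, h2,
    Matrix.sub_apply, Matrix.smul_apply, diagonal_mul, mul_diagonal, smul_eq_mul]
  push_cast
  ring

theorem egHs_D (S : Sp ι) (Y : Mat ι) (q : ℝ) :
    egHs (egRt S * Y - (q : ℂ) • (Y * egRt S)) =
      S.qf (fun x y => (√x - q * √y) ^ 2) Y := by
  rw [← egHs_hat S, egHs, Sp.qf]
  refine sum_congr rfl fun j _ => sum_congr rfl fun k _ => ?_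
  rw [eg_hat_D, norm_mul, mul_pow, Complex.norm_real, Real.norm_eq_abs, sq_abs]

theorem eg_rho_diag (S : Sp ι) (k : ι) : (S.rho k k).re = ∑ l, ‖egRt S k l‖ ^ 2 := by
  rw [← egRt_mul, eg_mulH_diag]

theorem egRt_symm (S : Sp ι) (k l : ι) : egRt S k l = star (egRt S l k) := by
  conv_lhs => rw [← egRt_herm S]
  rw [conjTranspose_apply]

theorem egRt_norm_symm (S : Sp ι) (k l : ι) : ‖egRt S k l‖ = ‖egRt S l k‖ := by
  rw [egRt_symm S k l, norm_star]

theorem egRt_diag (S : Sp ι) (k : ι) :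
    egRt S k k = ((∑ j, ‖S.U k j‖ ^ 2 * √(S.p j) : ℝ) : ℂ) := by
  rw [egRt, Matrix.mul_apply]
  push_cast
  refine sum_congr rfl fun j _ => ?_
  rw [mul_diagonal, conjTranspose_apply, Complex.star_def, mul_right_comm, Complex.mul_conj,
    Complex.normSq_eq_norm_sq]
  push_cast
  ring

theorem eg_row (S : Sp ι) (k : ι) : ∑ j, ‖S.U k j‖ ^ 2 = 1 := by
  rw [← eg_mulH_diag, S.U2]; simp

theorem eg_col (S : Sp ι) (j : ι) : ∑ k, ‖S.U k j‖ ^ 2 = 1 := by
  have := eg_mulH_diag S.Uᴴ j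
  rw [conjTranspose_conjTranspose, S.U1] at this
  simp only [one_apply_eq, Complex.one_re, conjTranspose_apply, norm_star] at this
  exact this.symm

theorem eg_rho_trace (S : Sp ι) : ∑ k, (S.rho k k).re = 1 := by
  have : S.rho.trace = 1 := by
    rw [Sp.rho, trace_mul_cycle, S.U1, Matrix.one_mul, trace_diagonal, ← Complex.ofReal_sum,
      eg_p_sum S, Complex.ofReal_one]
  rw [← Complex.re_sum]
  exact (congrArg Complex.re this).trans Complex.one_re

theorem egHs_rt (S : Sp ι) : egHs (egRt S) = 1 := by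
  rw [← eg_rho_trace S, egHs]
  exact sum_congr rfl fun k _ => (eg_rho_diag S k).symm

theorem eg_vn (S : Sp ι) : vnEntropy S.rho = ∑ j, Real.negMulLog (S.p j) := by
  have hp : ∀ j, 0 ≤ S.p j := fun j => (eg_p_pos S j).le
  have := Crest.Agent.R341.vn_conj (U := S.U) (Crest.Agent.R341.rdiag_psd hp) S.U1 S.U2
  rw [Crest.Agent.R341.vn_rdiag hp] at this
  exact this

end

section
variable {n M : ℕ}

/-- `l = k + e_i` -/
def egRel (i : Fin n) (k l : Ix n M) : Prop := (∀ j, j ≠ i → k j = l j) ∧ (l i : ℕ) = k i + 1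

theorem eg_low_of_rel {i : Fin n} {k l : Ix n M} (h : egRel i k l) :
    low n M i k l = ((√((l i : ℕ) : ℝ) : ℝ) : ℂ) := by
  rw [low, Matrix.of_apply]; exact if_pos h

theorem eg_low_of_not {i : Fin n} {k l : Ix n M} (h : ¬ egRel i k l) : low n M i k l = 0 := by
  rw [low, Matrix.of_apply]; exact if_neg h

theorem egRel_left {i : Fin n} {k k' l : Ix n M} (h : egRel i k l) (h' : egRel i k' l) :
    k = k' := by
  funext j
  by_cases hj : j = i
  · subst hj
    exact Fin.ext (by have := h.2; have := h'.2; omega)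
  · rw [h.1 j hj, h'.1 j hj]

theorem egRel_right {i : Fin n} {k l l' : Ix n M} (h : egRel i k l) (h' : egRel i k l') :
    l = l' := by
  funext j
  by_cases hj : j = i
  · subst hj
    exact Fin.ext (by have := h.2; have := h'.2; omega)
  · rw [← h.1 j hj, ← h'.1 j hj]

theorem eg_pred {i : Fin n} {l : Ix n M} (h : (l i : ℕ) ≠ 0) : ∃ k, egRel i k l := by
  refine ⟨Function.update l i ⟨l i - 1, by have := (l i).2; omega⟩, fun j hj => ?_, ?_⟩
  · rw [Function.update_of_ne hj]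
  · rw [Function.update_self]; simp only; omega

theorem eg_succ {i : Fin n} {k : Ix n M} (h : (k i : ℕ) < M) : ∃ l, egRel i k l := by
  refine ⟨Function.update k i ⟨k i + 1, by omega⟩, fun j hj => ?_, ?_⟩
  · rw [Function.update_of_ne hj]
  · rw [Function.update_self]

theorem egRel_sum {i : Fin n} {k l : Ix n M} (h : egRel i k l) :
    ∑ j, (l j : ℕ) = ∑ j, (k j : ℕ) + 1 := by
  rw [← Finset.add_sum_erase _ _ (mem_univ i), ← Finset.add_sum_erase _ _ (mem_univ i), h.2]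
  have : ∑ j ∈ univ.erase i, (l j : ℕ) = ∑ j ∈ univ.erase i, (k j : ℕ) :=
    sum_congr rfl fun j hj => by rw [h.1 j (ne_of_mem_erase hj)]
  omega

theorem egRel_le {i : Fin n} {k l : Ix n M} (h : egRel i k l) (j : Fin n) :
    (k j : ℕ) ≤ l j := by
  by_cases hj : j = i
  · subst hj; have := h.2; omega
  · rw [h.1 j hj]

theorem eg_low_mul {i : Fin n} {k' k : Ix n M} (h : egRel i k' k) (x : Mat (Ix n M))
    (l : Ix n M) : (low n M i * x) k' l = ((√((k i : ℕ) : ℝ) : ℝ) : ℂ) * x k l := by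
  rw [Matrix.mul_apply, sum_eq_single k, eg_low_of_rel h]
  · intro m _ hm
    rw [eg_low_of_not fun h' => hm (egRel_right h' h), zero_mul]
  · intro h'; exact absurd (mem_univ _) h'

theorem eg_mul_low {i : Fin n} {l' l : Ix n M} (h : egRel i l' l) (x : Mat (Ix n M))
    (k : Ix n M) : (x * low n M i) k l = x k l' * ((√((l i : ℕ) : ℝ) : ℝ) : ℂ) := by
  rw [Matrix.mul_apply, sum_eq_single l', eg_low_of_rel h]
  · intro m _ hm
    rw [eg_low_of_not fun h' => hm (egRel_left h' h), mul_zero]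
  · intro h'; exact absurd (mem_univ _) h'

theorem eg_mul_low_zero {i : Fin n} {l : Ix n M} (h : (l i : ℕ) = 0) (x : Mat (Ix n M))
    (k : Ix n M) : (x * low n M i) k l = 0 := by
  rw [Matrix.mul_apply]
  refine sum_eq_zero fun m _ => ?_
  rw [eg_low_of_not fun h' => by have := h'.2; omega, mul_zero]

theorem eg_lowH_low (i : Fin n) :
    (low n M i)ᴴ * low n M i = diagonal fun l => (((l i : ℕ) : ℝ) : ℂ) := by
  ext l l'
  by_cases h : (l' i : ℕ) = 0
  · rw [eg_mul_low_zero h, diagonal_apply]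
    split_ifs with e
    · subst e; simp [h]
    · rfl
  · obtain ⟨m, hm⟩ := eg_pred h
    rw [eg_mul_low hm, conjTranspose_apply, diagonal_apply]
    split_ifs with e
    · subst e
      rw [eg_low_of_rel hm, Complex.star_def, Complex.conj_ofReal, ← Complex.ofReal_mul,
        Real.mul_self_sqrt (Nat.cast_nonneg _)]
    · rw [eg_low_of_not fun h' => e (egRel_right h' hm), star_zero, zero_mul]

theorem eg_low_lowH (i : Fin n) :
    low n M i * (low n M i)ᴴ =
      diagonal fun k => ((if (k i : ℕ) < M then ((k i : ℕ) : ℝ) + 1 else 0 : ℝ) : ℂ) := by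
  ext k k'
  by_cases h : (k i : ℕ) < M
  · obtain ⟨m, hm⟩ := eg_succ h
    rw [eg_low_mul hm, conjTranspose_apply, diagonal_apply]
    split_ifs with e
    · subst e
      rw [eg_low_of_rel hm, Complex.star_def, Complex.conj_ofReal, ← Complex.ofReal_mul,
        Real.mul_self_sqrt (Nat.cast_nonneg _), hm.2]
      push_cast; rfl
    · rw [eg_low_of_not fun h' => e (egRel_left hm h'), star_zero, mul_zero]
  · rw [Matrix.mul_apply, diagonal_apply]
    have : ∑ m, low n M i k m * (low n M i)ᴴ m k' = 0 := sum_eq_zero fun m _ => by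
      rw [eg_low_of_not fun h' => by have := h'.2; have := (m i).2; omega, zero_mul]
    rw [this]
    split_ifs <;> simp

theorem eg_trace_diag {ι : Type} [Fintype ι] [DecidableEq ι] (d : ι → ℝ) (A : Mat ι) :
    ((diagonal fun k => (d k : ℂ)) * A).trace.re = ∑ k, d k * (A k k).re := by
  rw [Matrix.trace, Complex.re_sum]
  refine sum_congr rfl fun k _ => ?_
  rw [diag_apply, diagonal_mul, Complex.re_ofReal_mul]

theorem egHs_low_rt (S : Sp (Ix n M)) (i : Fin n) :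
    egHs (low n M i * egRt S) = ∑ k, ((k i : ℕ) : ℝ) * (S.rho k k).re := by
  rw [egHs_eq_trace, conjTranspose_mul, ← eg_trace_diag, ← eg_lowH_low, ← egRt_mul]
  congr 1
  rw [← Matrix.mul_assoc, trace_mul_comm]
  simp only [Matrix.mul_assoc]

theorem egHs_rt_low (S : Sp (Ix n M)) (i : Fin n) :
    egHs (egRt S * low n M i) ≤ ∑ k, ((k i : ℕ) : ℝ) * (S.rho k k).re + 1 := by
  have h : egHs (egRt S * low n M i) =
      ∑ k, (if (k i : ℕ) < M then ((k i : ℕ) : ℝ) + 1 else 0) * (S.rho k k).re := by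
    rw [egHs_eq_trace, conjTranspose_mul, ← eg_trace_diag, ← eg_low_lowH, ← egRt_mul]
    congr 1
    rw [Matrix.mul_assoc, trace_mul_comm, egRt_herm]
    simp only [Matrix.mul_assoc]
  have e : ∑ k, ((k i : ℕ) : ℝ) * (S.rho k k).re + 1 =
      ∑ k, (((k i : ℕ) : ℝ) * (S.rho k k).re + (S.rho k k).re) := by
    rw [sum_add_distrib, eg_rho_trace]
  rw [h, e]
  refine sum_le_sum fun k _ => ?_
  have h0 : 0 ≤ (S.rho k k).re := by
    rw [eg_rho_diag]; exact sum_nonneg fun _ _ => by positivity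
  split_ifs
  · linarith
  · have : 0 ≤ ((k i : ℕ) : ℝ) * (S.rho k k).re := by positivity
    linarith

end

end

end Crest.Agent.R331.EP
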