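import Crest.Agent.R331.Defs

set_option autoImplicit false

open Matrix Kronecker Crest.Quantum Crest.MathPhysics.Bosonic
open scoped ComplexOrder

namespace Crest.Agent.R331.EP

section
variable {m n k l : Type} [Fintype m] [Fintype n] [Fintype k] [Fintype l]

theorem fr_nonneg (A : Matrix m n ℂ) : 0 ≤ fr A := Real.sqrt_nonneg _

theorem fr_sq (A : Matrix m n ℂ) : fr A ^ 2 = ∑ i, ∑ j, ‖A i j‖ ^ 2 := by
  exact Real.sq_sqrt (Finset.sum_nonneg fun _ _ => Finset.sum_nonneg fun _ _ => sq_nonneg _)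

theorem fr_sq_trace (A : Matrix m n ℂ) : fr A ^ 2 = ((Aᴴ * A).trace).re := by
  rw [fr_sq, Finset.sum_comm, Matrix.trace, Complex.re_sum]
  refine Finset.sum_congr rfl fun j _ => ?_
  rw [diag_apply, Matrix.mul_apply, Complex.re_sum]
  refine Finset.sum_congr rfl fun i _ => ?_
  rw [conjTranspose_apply, Complex.star_def, Complex.conj_mul', ← Complex.ofReal_pow,
    Complex.ofReal_re]

open scoped Matrix.Norms.Frobenius in
theorem fr_eq_norm (A : Matrix m n ℂ) : fr A = ‖A‖ := by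
  rw [frobenius_norm_def, fr, Real.sqrt_eq_rpow]
  simp only [Real.rpow_two]

theorem fr_eq_of_sq {m' n' : Type} [Fintype m'] [Fintype n'] {A : Matrix m n ℂ}
    {B : Matrix m' n' ℂ} (h : fr A ^ 2 = fr B ^ 2) : fr A = fr B :=
  (sq_eq_sq₀ (fr_nonneg A) (fr_nonneg B)).1 h

open scoped Matrix.Norms.Frobenius in
theorem fr_mul (A : Matrix m n ℂ) (B : Matrix n k ℂ) : fr (A * B) ≤ fr A * fr B := by
  simp only [fr_eq_norm]
  exact frobenius_norm_mul A B

open scoped Matrix.Norms.Frobenius in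
theorem fr_add (A B : Matrix m n ℂ) : fr (A + B) ≤ fr A + fr B := by
  simp only [fr_eq_norm]
  exact norm_add_le (E := Matrix m n ℂ) A B

open scoped Matrix.Norms.Frobenius in
theorem fr_sub (A B : Matrix m n ℂ) : fr (A - B) ≤ fr A + fr B := by
  simp only [fr_eq_norm]
  exact norm_sub_le (E := Matrix m n ℂ) A B

open scoped Matrix.Norms.Frobenius in
theorem fr_smul (c : ℂ) (A : Matrix m n ℂ) : fr (c • A) = ‖c‖ * fr A := by
  simp only [fr_eq_norm]
  exact norm_smul c A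

open scoped Matrix.Norms.Frobenius in
theorem fr_conjT (A : Matrix m n ℂ) : fr Aᴴ = fr A := by
  simp only [fr_eq_norm]
  exact frobenius_norm_conjTranspose A

theorem fr_kron (A : Matrix m n ℂ) (B : Matrix k l ℂ) : fr (A ⊗ₖ B) = fr A * fr B := by
  refine (sq_eq_sq₀ (fr_nonneg _) (mul_nonneg (fr_nonneg _) (fr_nonneg _))).1 ?_
  rw [mul_pow, fr_sq, fr_sq, fr_sq, Finset.sum_mul_sum, Fintype.sum_prod_type]
  refine Finset.sum_congr rfl fun i _ => Finset.sum_congr rfl fun i' _ => ?_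
  rw [Finset.sum_mul_sum, Fintype.sum_prod_type]
  refine Finset.sum_congr rfl fun j _ => Finset.sum_congr rfl fun j' _ => ?_
  rw [kroneckerMap_apply, norm_mul, mul_pow]

theorem fr_one [DecidableEq m] : fr (1 : Matrix m m ℂ) = √(Fintype.card m) := by
  rw [← Real.sqrt_sq (fr_nonneg (1 : Matrix m m ℂ)), fr_sq_trace]
  simp

theorem entry_le_fr (A : Matrix m n ℂ) (i : m) (j : n) : ‖A i j‖ ≤ fr A := by
  refine Real.le_sqrt_of_sq_le ?_
  calc ‖A i j‖ ^ 2 ≤ ∑ j, ‖A i j‖ ^ 2 :=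
        Finset.single_le_sum (f := fun j => ‖A i j‖ ^ 2) (fun _ _ => sq_nonneg _)
          (Finset.mem_univ j)
    _ ≤ _ := Finset.single_le_sum (f := fun i => ∑ j, ‖A i j‖ ^ 2)
          (fun _ _ => Finset.sum_nonneg fun _ _ => sq_nonneg _) (Finset.mem_univ i)

theorem trace_mul_le (A : Matrix m n ℂ) (B : Matrix n m ℂ) : ‖(A * B).trace‖ ≤ fr A * fr B := by
  have h1 : ‖(A * B).trace‖ ≤ ∑ p : m × n, ‖A p.1 p.2‖ * ‖B p.2 p.1‖ := by
    rw [Fintype.sum_prod_type, Matrix.trace]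
    refine (norm_sum_le _ _).trans (Finset.sum_le_sum fun i _ => ?_)
    rw [diag_apply, Matrix.mul_apply]
    exact (norm_sum_le _ _).trans (Finset.sum_le_sum fun j _ => (norm_mul _ _).le)
  refine h1.trans ((Real.sum_mul_le_sqrt_mul_sqrt _ _ _).trans (le_of_eq ?_))
  rw [Fintype.sum_prod_type, Fintype.sum_prod_type_right]
  rfl

theorem fr_le_of_entry (A : Matrix m n ℂ) (g : ℝ) (hg : 0 ≤ g) (h : ∀ i j, ‖A i j‖ ≤ g) :
    fr A ≤ √(Fintype.card m) * √(Fintype.card n) * g := by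
  refine (sq_le_sq₀ (fr_nonneg _) (by positivity)).1 ?_
  rw [fr_sq, mul_pow, mul_pow, Real.sq_sqrt (Nat.cast_nonneg _), Real.sq_sqrt (Nat.cast_nonneg _)]
  calc ∑ i, ∑ j, ‖A i j‖ ^ 2 ≤ ∑ _i : m, ∑ _j : n, g ^ 2 :=
        Finset.sum_le_sum fun i _ => Finset.sum_le_sum fun j _ =>
          pow_le_pow_left₀ (norm_nonneg _) (h i j) 2
    _ = _ := by simp [mul_assoc]

theorem fr_iso [DecidableEq n] (V : Matrix m n ℂ) (h : Vᴴ * V = 1) : fr V = √(Fintype.card n) := by
  rw [← Real.sqrt_sq (fr_nonneg V), fr_sq_trace, h]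
  simp

theorem fr_swp {A B C D : Type} [Fintype A] [Fintype B] [Fintype C] [Fintype D]
    (V : Matrix (C × D) (A × B) ℂ) : fr (swp V) = fr V := by
  refine fr_eq_of_sq ?_
  rw [fr_sq, fr_sq]
  refine Finset.sum_congr rfl fun i _ => ?_
  exact (Equiv.prodComm B A).sum_comp fun j => ‖V i j‖ ^ 2
end

section
variable {ι : Type} [Fintype ι] [DecidableEq ι]

theorem density_sub_sq {ρ : Mat ι} (h : IsDensity ρ) : (ρ - ρ * ρ).PosSemidef := by
  obtain ⟨U, d, h1, h2, hd, e, -⟩ := Crest.Agent.R341.exists_spec h.1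
  have hs : ∑ i, d i = 1 := by
    have := congrArg Complex.re h.2
    rwa [e, Crest.Agent.R341.trace_conj h1, Crest.Agent.R341.trace_rdiag, Complex.one_re] at this
  have hle : ∀ i, d i ≤ 1 := fun i =>
    hs ▸ Finset.single_le_sum (fun j _ => hd j) (Finset.mem_univ i)
  have e2 : ρ - ρ * ρ = U * Crest.Agent.R341.rdiag (fun i => d i * (1 - d i)) * Uᴴ := by
    have : Crest.Agent.R341.rdiag (fun i => d i * (1 - d i)) =
        Crest.Agent.R341.rdiag d - Crest.Agent.R341.rdiag d * Crest.Agent.R341.rdiag d := by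
      simp only [Crest.Agent.R341.rdiag, diagonal_mul_diagonal, diagonal_sub]
      congr 1
      funext i
      push_cast
      ring
    rw [this, Matrix.mul_sub, Matrix.sub_mul, ← e]
    congr 1
    rw [e]
    simp only [Matrix.mul_assoc]
    rw [← Matrix.mul_assoc Uᴴ U, h1, Matrix.one_mul]
  rw [e2]
  exact (Crest.Agent.R341.rdiag_psd fun i =>
    mul_nonneg (hd i) (sub_nonneg.2 (hle i))).mul_mul_conjTranspose_same U

theorem fr_density {ρ : Mat ι} (h : IsDensity ρ) : fr ρ ≤ 1 := by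
  have h1 := Crest.Agent.R341.trace_re_nonneg (density_sub_sq h)
  rw [trace_sub, h.2, Complex.sub_re, Complex.one_re] at h1
  refine (sq_le_one_iff₀ (fr_nonneg _)).1 ?_
  rw [fr_sq_trace, h.1.1.eq]
  linarith

theorem fr_proj {ρ P : Mat ι} (h : IsDensity ρ) (h1 : Pᴴ = P) (h2 : P * P = P) :
    fr (P * ρ) ≤ √((P * ρ).trace.re) := by
  refine Real.le_sqrt_of_sq_le ?_
  have h3 := Crest.Agent.R341.trace_re_nonneg ((density_sub_sq h).mul_mul_conjTranspose_same P)
  have e1 : (P * ρ * P).trace = (P * ρ).trace := by rw [trace_mul_cycle, h2]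
  have e2 : ((P * ρ)ᴴ * (P * ρ)).trace = (P * (ρ * ρ) * P).trace := by
    rw [trace_mul_comm, conjTranspose_mul, h.1.1.eq, h1]
    simp only [Matrix.mul_assoc]
  rw [h1, Matrix.mul_sub, Matrix.sub_mul, trace_sub, Complex.sub_re, e1] at h3
  rw [fr_sq_trace, e2]
  linarith

theorem fr_proj' {ρ P : Mat ι} (h : IsDensity ρ) (h1 : Pᴴ = P) (h2 : P * P = P) :
    fr (ρ * P) ≤ √((P * ρ).trace.re) := by
  have := fr_proj h h1 h2
  rwa [← fr_conjT, conjTranspose_mul, h.1.1.eq, h1] at this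

theorem fr_hat (S : Sp ι) (Y : Mat ι) : fr (S.hat Y) = fr Y := by
  refine fr_eq_of_sq ?_
  rw [fr_sq_trace, fr_sq_trace, Sp.hat]
  congr 1
  simp only [conjTranspose_mul, conjTranspose_conjTranspose, Matrix.mul_assoc]
  rw [← Matrix.mul_assoc S.U S.Uᴴ, S.U2, Matrix.one_mul, trace_mul_comm]
  simp only [Matrix.mul_assoc]
  rw [S.U2, Matrix.mul_one]
end

end Crest.Agent.R331.EP
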