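import Crest.Agent.R331.Sc
import Crest.Agent.R331.Fr

set_option autoImplicit false

open Matrix Kronecker Crest.Quantum Crest.MathPhysics.Bosonic
open scoped ComplexOrder

namespace Crest.Agent.R331.EP

variable {ι : Type} [Fintype ι] [DecidableEq ι]

theorem Sp.p_pos (S : Sp ι) (j : ι) : 0 < S.p j := Real.exp_pos _

theorem Sp.p_le_one (S : Sp ι) (j : ι) : S.p j ≤ 1 := by
  rw [← S.tr1]
  exact Finset.single_le_sum (f := fun j => Real.exp (S.h j))
    (fun i _ => (Real.exp_pos _).le) (Finset.mem_univ j)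

theorem fm_hat_mul (S : Sp ι) (X Y : Mat ι) : S.hat (X * Y) = S.hat X * S.hat Y := by
  have h : S.Uᴴ * X * S.U * (S.Uᴴ * Y * S.U) = S.Uᴴ * X * (S.U * S.Uᴴ) * Y * S.U := by
    simp only [Matrix.mul_assoc]
  unfold Sp.hat
  rw [h, S.U2]
  simp only [Matrix.mul_assoc, Matrix.mul_one]

theorem fm_hat_conj (S : Sp ι) (D : Mat ι) : S.hat (S.U * D * S.Uᴴ) = D := by
  have h : S.Uᴴ * (S.U * D * S.Uᴴ) * S.U = (S.Uᴴ * S.U) * D * (S.Uᴴ * S.U) := by
    simp only [Matrix.mul_assoc]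
  unfold Sp.hat
  rw [h, S.U1, Matrix.one_mul, Matrix.mul_one]

theorem fm_hat_rho (S : Sp ι) : S.hat S.rho = diagonal (fun j => (S.p j : ℂ)) :=
  fm_hat_conj S _

theorem fm_hat_H (S : Sp ι) : S.hat S.H = diagonal (fun j => (S.h j : ℂ)) :=
  fm_hat_conj S _

theorem fm_hat_trace (S : Sp ι) (Y : Mat ι) : (S.hat Y).trace = Y.trace := by
  unfold Sp.hat
  rw [Matrix.trace_mul_comm, ← Matrix.mul_assoc, S.U2, Matrix.one_mul]

theorem fm_hat_conjT (S : Sp ι) (Y : Mat ι) : S.hat Yᴴ = (S.hat Y)ᴴ := by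
  unfold Sp.hat
  simp only [Matrix.conjTranspose_mul, Matrix.conjTranspose_conjTranspose, Matrix.mul_assoc]

theorem fm_hat_add (S : Sp ι) (X Y : Mat ι) : S.hat (X + Y) = S.hat X + S.hat Y := by
  unfold Sp.hat
  rw [Matrix.mul_add, Matrix.add_mul]

theorem fm_hat_sub (S : Sp ι) (X Y : Mat ι) : S.hat (X - Y) = S.hat X - S.hat Y := by
  unfold Sp.hat
  rw [Matrix.mul_sub, Matrix.sub_mul]

theorem fm_hat_smul (S : Sp ι) (c : ℂ) (X : Mat ι) : S.hat (c • X) = c • S.hat X := by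
  unfold Sp.hat
  rw [Matrix.mul_smul, Matrix.smul_mul]

theorem fm_star_mul (z : ℂ) : star z * z = ((‖z‖ ^ 2 : ℝ) : ℂ) := by
  rw [Complex.star_def, Complex.conj_mul']
  push_cast
  rfl

theorem Sp.density (S : Sp ι) : IsDensity S.rho := by
  refine ⟨?_, ?_⟩
  · apply Matrix.PosSemidef.mul_mul_conjTranspose_same
    rw [Matrix.posSemidef_diagonal_iff]
    intro j
    exact Complex.zero_le_real.mpr (S.p_pos j).le
  · rw [← fm_hat_trace S, fm_hat_rho, Matrix.trace_diagonal]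
    have := S.tr1
    unfold Sp.p
    exact_mod_cast congrArg (fun t : ℝ => (t : ℂ)) this

theorem Sp.H_herm (S : Sp ι) : S.Hᴴ = S.H := by
  have hd : (diagonal (fun j => (S.h j : ℂ)))ᴴ = diagonal (fun j => (S.h j : ℂ)) := by
    rw [Matrix.diagonal_conjTranspose]
    congr 1
    funext j
    simp
  unfold Sp.H
  rw [Matrix.conjTranspose_mul, Matrix.conjTranspose_mul, Matrix.conjTranspose_conjTranspose, hd,
    Matrix.mul_assoc]

theorem Sp.comm_tr (S : Sp ι) (x : Mat ι) : (S.rho * (S.H * x - x * S.H)).trace = 0 := by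
  rw [← fm_hat_trace S, fm_hat_mul, fm_hat_sub, fm_hat_mul, fm_hat_mul, fm_hat_rho, fm_hat_H]
  simp only [Matrix.trace, Matrix.diag_apply, Matrix.diagonal_mul, Matrix.sub_apply,
    Matrix.mul_diagonal]
  refine Finset.sum_eq_zero fun j _ => ?_
  ring

theorem qf_L (S : Sp ι) (Y : Mat ι) : S.qf (fun x _ => x) Y = ((Yᴴ * S.rho * Y).trace).re := by
  rw [← fm_hat_trace S, fm_hat_mul, fm_hat_mul, fm_hat_rho, fm_hat_conjT]
  have h : ((S.hat Y)ᴴ * diagonal (fun j => (S.p j : ℂ)) * S.hat Y).trace =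
      ((∑ j, ∑ k, S.p j * ‖S.hat Y j k‖ ^ 2 : ℝ) : ℂ) := by
    simp only [Matrix.trace, Matrix.diag_apply]
    rw [Finset.sum_comm, Complex.ofReal_sum]
    refine Finset.sum_congr rfl fun k _ => ?_
    rw [Matrix.mul_apply, Complex.ofReal_sum]
    refine Finset.sum_congr rfl fun j _ => ?_
    rw [Matrix.mul_diagonal, Matrix.conjTranspose_apply, Complex.ofReal_mul, ← fm_star_mul]
    ring
  rw [h, Complex.ofReal_re]
  rfl

theorem qf_R (S : Sp ι) (Y : Mat ι) : S.qf (fun _ y => y) Y = ((Yᴴ * Y * S.rho).trace).re := by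
  rw [← fm_hat_trace S, fm_hat_mul, fm_hat_mul, fm_hat_rho, fm_hat_conjT]
  have h : ((S.hat Y)ᴴ * S.hat Y * diagonal (fun j => (S.p j : ℂ))).trace =
      ((∑ j, ∑ k, S.p k * ‖S.hat Y j k‖ ^ 2 : ℝ) : ℂ) := by
    simp only [Matrix.trace, Matrix.diag_apply]
    rw [Finset.sum_comm, Complex.ofReal_sum]
    refine Finset.sum_congr rfl fun k _ => ?_
    rw [Matrix.mul_diagonal, Matrix.mul_apply, Complex.ofReal_sum, Finset.sum_mul]
    refine Finset.sum_congr rfl fun j _ => ?_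
    rw [Matrix.conjTranspose_apply, Complex.ofReal_mul, ← fm_star_mul]
    ring
  rw [h, Complex.ofReal_re]
  rfl

theorem sf_self (S : Sp ι) (φ : ℝ → ℝ → ℝ) (Y : Mat ι) : S.sf φ Y Y = (S.qf φ Y : ℂ) := by
  unfold Sp.sf Sp.qf
  rw [Complex.ofReal_sum]
  refine Finset.sum_congr rfl fun j _ => ?_
  rw [Complex.ofReal_sum]
  refine Finset.sum_congr rfl fun k _ => ?_
  rw [fm_star_mul, Complex.ofReal_mul]

theorem sf_add_left (S : Sp ι) (φ : ℝ → ℝ → ℝ) (X Y Z : Mat ι) :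
    S.sf φ (X + Y) Z = S.sf φ X Z + S.sf φ Y Z := by
  unfold Sp.sf
  rw [fm_hat_add, ← Finset.sum_add_distrib]
  refine Finset.sum_congr rfl fun j _ => ?_
  rw [← Finset.sum_add_distrib]
  refine Finset.sum_congr rfl fun k _ => ?_
  rw [Matrix.add_apply, star_add]
  ring

theorem sf_add_right (S : Sp ι) (φ : ℝ → ℝ → ℝ) (X Y Z : Mat ι) :
    S.sf φ X (Y + Z) = S.sf φ X Y + S.sf φ X Z := by
  unfold Sp.sf
  rw [fm_hat_add, ← Finset.sum_add_distrib]
  refine Finset.sum_congr rfl fun j _ => ?_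
  rw [← Finset.sum_add_distrib]
  refine Finset.sum_congr rfl fun k _ => ?_
  rw [Matrix.add_apply]
  ring

theorem sf_smul_left (S : Sp ι) (φ : ℝ → ℝ → ℝ) (c : ℂ) (X Z : Mat ι) :
    S.sf φ (c • X) Z = star c * S.sf φ X Z := by
  unfold Sp.sf
  rw [fm_hat_smul, Finset.mul_sum]
  refine Finset.sum_congr rfl fun j _ => ?_
  rw [Finset.mul_sum]
  refine Finset.sum_congr rfl fun k _ => ?_
  rw [Matrix.smul_apply, smul_eq_mul, star_mul']
  ring

theorem sf_smul_right (S : Sp ι) (φ : ℝ → ℝ → ℝ) (c : ℂ) (X Z : Mat ι) :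
    S.sf φ X (c • Z) = c * S.sf φ X Z := by
  unfold Sp.sf
  rw [fm_hat_smul, Finset.mul_sum]
  refine Finset.sum_congr rfl fun j _ => ?_
  rw [Finset.mul_sum]
  refine Finset.sum_congr rfl fun k _ => ?_
  rw [Matrix.smul_apply, smul_eq_mul]
  ring

theorem sf_conj (S : Sp ι) (φ : ℝ → ℝ → ℝ) (X Z : Mat ι) : star (S.sf φ X Z) = S.sf φ Z X := by
  unfold Sp.sf
  rw [star_sum]
  refine Finset.sum_congr rfl fun j _ => ?_
  rw [star_sum]
  refine Finset.sum_congr rfl fun k _ => ?_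
  rw [star_mul', star_mul', star_star, Complex.star_def, Complex.conj_ofReal]
  ring

theorem qf_smul (S : Sp ι) (φ : ℝ → ℝ → ℝ) (c : ℂ) (Y : Mat ι) :
    S.qf φ (c • Y) = ‖c‖ ^ 2 * S.qf φ Y := by
  unfold Sp.qf
  rw [fm_hat_smul, Finset.mul_sum]
  refine Finset.sum_congr rfl fun j _ => ?_
  rw [Finset.mul_sum]
  refine Finset.sum_congr rfl fun k _ => ?_
  rw [Matrix.smul_apply, smul_eq_mul, norm_mul]
  ring

theorem qf_nonneg (S : Sp ι) (φ : ℝ → ℝ → ℝ) (h : ∀ x y, 0 < x → 0 < y → 0 ≤ φ x y) (Y : Mat ι) :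
    0 ≤ S.qf φ Y := by
  unfold Sp.qf
  refine Finset.sum_nonneg fun j _ => Finset.sum_nonneg fun k _ => ?_
  exact mul_nonneg (h _ _ (S.p_pos j) (S.p_pos k)) (sq_nonneg _)

theorem fm_hat_zeta (S : Sp ι) (N : ℝ) (x : Mat ι) (j k : ι) :
    S.hat (S.zeta N x) j k = (((bt N)⁻¹ * (S.h j - S.h k) - 1 : ℝ) : ℂ) * S.hat x j k := by
  unfold Sp.zeta
  rw [fm_hat_sub, fm_hat_smul, fm_hat_sub, fm_hat_mul, fm_hat_mul, fm_hat_H]
  simp only [Matrix.sub_apply, Matrix.smul_apply, smul_eq_mul, Matrix.diagonal_mul,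
    Matrix.mul_diagonal]
  push_cast
  ring

/-- `J ((U - 1) x, Y) = N tr (Y x* ρ) - (N+1) tr (Y ρ x*)`; use `phiJ_mul` entrywise. -/
theorem JZ (S : Sp ι) {N : ℝ} (hN : 0 < N) (x Y : Mat ι) :
    S.sf (phiJ N) (S.zeta N x) Y = -(Y * MM N S.rho x).trace := by
  rw [← fm_hat_trace S (Y * _), fm_hat_mul]
  unfold MM Sp.sf
  rw [fm_hat_sub, fm_hat_smul, fm_hat_smul, fm_hat_mul, fm_hat_mul, fm_hat_rho, fm_hat_conjT]
  simp only [Matrix.trace, Matrix.diag_apply]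
  rw [← Finset.sum_neg_distrib]
  refine Finset.sum_congr rfl fun j _ => ?_
  rw [Matrix.mul_apply, ← Finset.sum_neg_distrib]
  refine Finset.sum_congr rfl fun k _ => ?_
  have hm := phiJ_mul hN (S.p_pos j) (S.p_pos k)
  have hj : Real.log (S.p j) = S.h j := Real.log_exp _
  have hk : Real.log (S.p k) = S.h k := Real.log_exp _
  rw [hj, hk] at hm
  have hm' := congrArg (fun t : ℝ => (t : ℂ)) hm
  simp only [Complex.ofReal_mul (phiJ N _ _)] at hm'
  rw [fm_hat_zeta, star_mul', Complex.star_def, Complex.conj_ofReal]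
  simp only [Matrix.sub_apply, Matrix.smul_apply, smul_eq_mul, Matrix.diagonal_mul,
    Matrix.mul_diagonal, Matrix.conjTranspose_apply, Complex.star_def]
  have e : ∀ a b u v : ℂ, a * (b * u * v) = (a * b) * (u * v) := by intros; ring
  rw [e, hm']
  push_cast
  ring

theorem sf_cs (S : Sp ι) (φ sl : ℝ → ℝ → ℝ) (Cst : ℝ) (hC : 0 ≤ Cst)
    (h : ∀ x y, 0 < x → 0 < y → 0 ≤ sl x y ∧ φ x y ^ 2 ≤ Cst * (x + y) * sl x y) (Y Y' : Mat ι) :
    ‖S.sf φ Y Y'‖ ^ 2 ≤ 2 * Cst * S.qf sl Y * fr Y' ^ 2 := by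
  have h1 : ‖S.sf φ Y Y'‖ ≤ ∑ q : ι × ι,
      (|φ (S.p q.1) (S.p q.2)| * ‖S.hat Y q.1 q.2‖) * ‖S.hat Y' q.1 q.2‖ := by
    unfold Sp.sf
    rw [← Finset.sum_product', Finset.univ_product_univ]
    refine (norm_sum_le _ _).trans (le_of_eq ?_)
    refine Finset.sum_congr rfl fun q _ => ?_
    rw [norm_mul, norm_mul, norm_star, Complex.norm_real, Real.norm_eq_abs, mul_assoc]
  have h2 := Finset.sum_mul_sq_le_sq_mul_sq (Finset.univ : Finset (ι × ι))
    (fun q => |φ (S.p q.1) (S.p q.2)| * ‖S.hat Y q.1 q.2‖) (fun q => ‖S.hat Y' q.1 q.2‖)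
  have h3 : ∑ q : ι × ι, ‖S.hat Y' q.1 q.2‖ ^ 2 = fr Y' ^ 2 := by
    rw [← fr_hat S Y', fr_sq, ← Finset.univ_product_univ, Finset.sum_product]
  have h4 : ∑ q : ι × ι, (|φ (S.p q.1) (S.p q.2)| * ‖S.hat Y q.1 q.2‖) ^ 2 ≤
      2 * Cst * S.qf sl Y := by
    unfold Sp.qf
    rw [← Finset.sum_product', Finset.univ_product_univ, Finset.mul_sum]
    refine Finset.sum_le_sum fun q _ => ?_
    obtain ⟨hs, hφ⟩ := h _ _ (S.p_pos q.1) (S.p_pos q.2)
    have hp1 := S.p_le_one q.1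
    have hp2 := S.p_le_one q.2
    have h5 : φ (S.p q.1) (S.p q.2) ^ 2 ≤ 2 * Cst * sl (S.p q.1) (S.p q.2) := by
      refine hφ.trans ?_
      refine mul_le_mul_of_nonneg_right ?_ hs
      nlinarith
    rw [mul_pow, sq_abs, ← mul_assoc]
    exact mul_le_mul_of_nonneg_right h5 (sq_nonneg _)
  calc ‖S.sf φ Y Y'‖ ^ 2 ≤ _ := pow_le_pow_left₀ (norm_nonneg _) h1 2
    _ ≤ _ := h2
    _ ≤ _ := by
      rw [h3]
      exact mul_le_mul_of_nonneg_right h4 (sq_nonneg _)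

theorem MM_cen (N : ℝ) (ρ x : Mat ι) :
    MM N ρ (cen ρ x) = MM N ρ x - star ((ρ * x).trace) • ρ := by
  unfold MM cen
  rw [Matrix.conjTranspose_sub, Matrix.conjTranspose_smul, Matrix.conjTranspose_one,
    Matrix.mul_sub, Matrix.sub_mul, Matrix.mul_smul, Matrix.smul_mul, Matrix.mul_one,
    Matrix.one_mul]
  push_cast
  module

theorem MM_cen_trace (N : ℝ) {ρ : Mat ι} (h : IsDensity ρ) (x : Mat ι) :
    (MM N ρ (cen ρ x)).trace = 0 := by
  have hh : ρᴴ = ρ := h.1.1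
  have h1 : star ((ρ * x).trace) = (xᴴ * ρ).trace := by
    rw [← Matrix.trace_conjTranspose, Matrix.conjTranspose_mul, hh]
  rw [MM_cen, h1]
  unfold MM
  rw [Matrix.trace_sub, Matrix.trace_sub, Matrix.trace_smul, Matrix.trace_smul,
    Matrix.trace_smul, h.2, Matrix.trace_mul_comm ρ]
  simp only [smul_eq_mul]
  push_cast
  ring

end Crest.Agent.R331.EP
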