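import Mathlib

/-! Row 331: elementary limits for `lower_lim`. -/

set_option autoImplicit false

open Filter Topology

namespace Crest.Agent.R331.EP

theorem lim_poly (j : ℕ) {r : ℝ} (h0 : 0 ≤ r) (h1 : r < 1) :
    Tendsto (fun K : ℕ => (2 * K + 1 : ℝ) ^ j * r ^ K) atTop (𝓝 0) := by
  have h := (tendsto_pow_const_mul_const_pow_of_abs_lt_one j
    (r := r) (by rwa [abs_of_nonneg h0])).const_mul ((3 : ℝ) ^ j)
  rw [mul_zero] at h
  refine squeeze_zero' (Eventually.of_forall fun K => by positivity) ?_ h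
  filter_upwards [eventually_ge_atTop 1] with K hK
  have hK' : (1 : ℝ) ≤ K := by exact_mod_cast hK
  rw [← mul_assoc, ← mul_pow]
  gcongr
  linarith

theorem lim_geom {N : ℝ} (hN : 0 < N) :
    Tendsto (fun K : ℕ => Real.log (∑ k ∈ Finset.range (2 * K + 1), (N / (N + 1)) ^ k)) atTop
      (𝓝 (Real.log (N + 1))) := by
  have hq0 : 0 ≤ N / (N + 1) := by positivity
  have hq1 : N / (N + 1) < 1 := by rw [div_lt_one (by positivity)]; linarith
  have h := (hasSum_geometric_of_lt_one hq0 hq1).tendsto_sum_nat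
  have e : (1 - N / (N + 1))⁻¹ = N + 1 := by field_simp; ring
  rw [e] at h
  have h2 : Tendsto (fun K : ℕ => 2 * K + 1) atTop atTop :=
    tendsto_atTop_mono (fun K => by simp only [id]; omega) tendsto_id
  exact (h.comp h2).log (by positivity)

/-- the choice of `K` -/
theorem lim_choice (n m K0 : ℕ) {r κ N D M Cst : ℝ} (h0 : 0 ≤ r) (h1 : r < 1) (hκ : 0 < κ)
    (hN : 0 < N) :
    ∃ K : ℕ, K0 ≤ K ∧ 1 ≤ K ∧ r ^ (4 * K) ≤ κ ∧
      Real.negMulLog (r ^ (4 * K)) + Real.negMulLog (1 - r ^ (4 * K)) +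
        r ^ (4 * K) * (n * (2 * K + 1)) ≤ κ ∧
      (D * ((2 * K + 1) * r ^ K)) ^ 2 ≤ 1 ∧
      Cst * ((2 * K + 1) * M) ^ m * (D * ((2 * K + 1) * r ^ K)) ≤ κ / 2 ∧
      n * Real.log (N + 1) - κ / 2 ≤
        n * Real.log (∑ k ∈ Finset.range (2 * K + 1), (N / (N + 1)) ^ k) := by
  have h40 : 0 ≤ r ^ 4 := by positivity
  have h41 : r ^ 4 < 1 := pow_lt_one₀ h0 h1 (by norm_num)
  have t1 : Tendsto (fun K : ℕ => r ^ (4 * K)) atTop (𝓝 0) := by
    simp only [pow_mul]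
    exact tendsto_pow_atTop_nhds_zero_of_lt_one h40 h41
  have t2 : Tendsto (fun K : ℕ => Real.negMulLog (r ^ (4 * K)) + Real.negMulLog (1 - r ^ (4 * K)) +
      r ^ (4 * K) * (n * (2 * K + 1))) atTop (𝓝 0) := by
    have a1 := (Real.continuous_negMulLog.tendsto 0).comp t1
    have a2 := (Real.continuous_negMulLog.tendsto (1 - 0)).comp (t1.const_sub 1)
    have a3 := (lim_poly 1 h40 h41).const_mul (n : ℝ)
    have a4 := (a1.add a2).add a3
    simp only [Real.negMulLog_zero, sub_zero, Real.negMulLog_one, mul_zero, add_zero] at a4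
    refine a4.congr fun K => ?_
    simp only [Function.comp_apply, pow_one, pow_mul]
    ring
  have t3 : Tendsto (fun K : ℕ => (D * ((2 * K + 1) * r ^ K)) ^ 2) atTop (𝓝 0) := by
    have a1 := ((lim_poly 1 h0 h1).const_mul D).pow 2
    simp only [mul_zero, pow_one] at a1
    simpa using a1
  have t4 : Tendsto (fun K : ℕ => Cst * ((2 * K + 1) * M) ^ m * (D * ((2 * K + 1) * r ^ K)))
      atTop (𝓝 0) := by
    have a1 := (lim_poly (m + 1) h0 h1).const_mul (Cst * M ^ m * D)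
    rw [mul_zero] at a1
    refine a1.congr fun K => ?_
    rw [mul_pow, pow_succ]
    ring
  have t5 := (lim_geom hN).const_mul (n : ℝ)
  have e1 := t1.eventually (ge_mem_nhds hκ)
  have e2 := t2.eventually (ge_mem_nhds hκ)
  have e3 := t3.eventually (ge_mem_nhds one_pos)
  have e4 := t4.eventually (ge_mem_nhds (half_pos hκ))
  have e5 := t5.eventually (le_mem_nhds (a := n * Real.log (N + 1) - κ / 2) (by linarith))
  obtain ⟨K, hK⟩ := ((eventually_ge_atTop K0).and ((eventually_ge_atTop 1).and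
    (e1.and (e2.and (e3.and (e4.and e5)))))).exists
  exact ⟨K, hK⟩

/-- from the bound on the top level to the square root -/
theorem lim_top {K : ℕ} (hK : 1 ≤ K) {r γ t B D : ℝ} (h0 : 0 < r) (hγ : 0 < γ)
    (hr : r ^ 8 * γ = 1) (hD : 1 ≤ D) (hB : B * γ ≤ D)
    (h : r ^ (4 * K) * (γ ^ (K - 1) / (((K - 1 : ℕ) : ℝ) + 1)) * t ≤ B * (2 * K + 1)) :
    √t ≤ (D * ((2 * K + 1) * r ^ K)) ^ 2 := by
  obtain ⟨k, rfl⟩ : ∃ k, K = k + 1 := ⟨K - 1, by omega⟩
  rw [Nat.add_sub_cancel] at h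
  have hk : (0 : ℝ) ≤ k := Nat.cast_nonneg k
  obtain ⟨x, hx⟩ : ∃ x, x = r ^ (k + 1) := ⟨_, rfl⟩
  have hx0 : 0 < x := by rw [hx]; positivity
  have e1 : r ^ (4 * (k + 1)) = x ^ 4 := by rw [hx, ← pow_mul, mul_comm]
  have e2 : x ^ 8 * (γ ^ k * γ) = 1 := by
    rw [hx, ← pow_mul, mul_comm (k + 1) 8, pow_mul, ← pow_succ, ← mul_pow, hr, one_pow]
  rw [e1] at h
  rw [← hx]
  push_cast at h ⊢
  obtain ⟨y, hy⟩ : ∃ y : ℝ, y = 2 * (k + 1) + 1 := ⟨_, rfl⟩
  rw [← hy] at h ⊢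
  have hy1 : (k : ℝ) + 1 ≤ y := by rw [hy]; linarith
  have hy2 : 1 ≤ y := by linarith
  have h2 : t ≤ B * γ * (y * ((k + 1) * x ^ 4)) := by
    have h3 := mul_le_mul_of_nonneg_right h (show 0 ≤ γ * ((k + 1) * x ^ 4) by positivity)
    have e3 : x ^ 4 * (γ ^ k / (k + 1)) * t * (γ * ((k + 1) * x ^ 4)) =
        x ^ 8 * (γ ^ k * γ) * t := by
      field_simp
    rw [e3, e2, one_mul] at h3
    linarith
  refine Real.sqrt_le_iff.2 ⟨by positivity, h2.trans ?_⟩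
  have h4 : B * γ ≤ D ^ 4 := hB.trans (le_self_pow₀ hD (by norm_num))
  have h5 : y * (k + 1) ≤ y ^ 4 := by
    calc y * (k + 1) ≤ y * y := by gcongr
      _ = y ^ 2 := by ring
      _ ≤ y ^ 4 := pow_le_pow_right₀ hy2 (by norm_num)
  calc B * γ * (y * ((k + 1) * x ^ 4)) ≤ D ^ 4 * (y * ((k + 1) * x ^ 4)) := by gcongr
    _ = D ^ 4 * (y * (k + 1)) * x ^ 4 := by ring
    _ ≤ D ^ 4 * y ^ 4 * x ^ 4 := by gcongr
    _ = ((D * (y * x)) ^ 2) ^ 2 := by ring

end Crest.Agent.R331.EP
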