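import Crest.Agent.R331.Fr

set_option autoImplicit false
set_option linter.unusedSectionVars false

open Matrix Kronecker Crest.Quantum Crest.MathPhysics.Bosonic
open scoped ComplexOrder

namespace Crest.Agent.R331.EP

variable {A B C D : Type} [Fintype A] [DecidableEq A] [Fintype B] [DecidableEq B]
  [Fintype C] [DecidableEq C] [Fintype D] [DecidableEq D]

theorem mx_ptr_trace (M : Mat (C × D)) (Z : Mat C) :
    ((Matrix.of fun p p' => ∑ q, M (p, q) (p', q) : Mat C) * Z).trace =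
      (M * (Z ⊗ₖ (1 : Mat D))).trace := by
  simp only [Matrix.trace, Matrix.diag, Matrix.mul_apply, Matrix.of_apply, Fintype.sum_prod_type,
    Matrix.kroneckerMap_apply, Matrix.one_apply, mul_ite, mul_one, mul_zero, Finset.sum_ite_eq',
    Finset.mem_univ, if_true, Finset.sum_mul]
  exact Finset.sum_congr rfl fun p _ => Finset.sum_comm

theorem mx_swp_mul (V : Matrix (C × D) (A × B) ℂ) (M : Mat (A × B)) :
    swp V * M.submatrix Prod.swap Prod.swap = swp (V * M) := by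
  ext i j
  simp only [swp, Matrix.mul_apply, Matrix.submatrix_apply, id, Fintype.sum_prod_type,
    Prod.swap_prod_mk]
  exact Finset.sum_comm

theorem mx_kron_swap (X : Mat A) (Y : Mat B) :
    Y ⊗ₖ X = (X ⊗ₖ Y).submatrix Prod.swap Prod.swap := by
  ext i j
  simp [Matrix.kroneckerMap_apply, mul_comm]

theorem mx_swp_conj (V : Matrix (C × D) (A × B) ℂ) (W : Mat (C × D)) :
    (swp V)ᴴ * W * swp V = (Vᴴ * W * V).submatrix Prod.swap Prod.swap := by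
  ext i j
  simp [swp, Matrix.mul_apply]

theorem mx_swp_mul_conjT (V V' : Matrix (C × D) (A × B) ℂ) :
    swp V * (swp V')ᴴ = V * V'ᴴ := by
  ext i j
  simp only [swp, Matrix.mul_apply, Matrix.submatrix_apply, id, Fintype.sum_prod_type,
    Prod.swap_prod_mk, Matrix.conjTranspose_apply]
  exact Finset.sum_comm

theorem mx_trace_swap (M N : Mat (A × B)) :
    (M.submatrix Prod.swap Prod.swap * N.submatrix Prod.swap Prod.swap : Mat (B × A)).trace =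
      (M * N).trace := by
  have h : (M.submatrix Prod.swap Prod.swap * N.submatrix Prod.swap Prod.swap : Mat (B × A)) =
      (M * N).submatrix Prod.swap Prod.swap :=
    Matrix.submatrix_mul_equiv M N Prod.swap (Equiv.prodComm B A) Prod.swap
  rw [h]
  simp only [Matrix.trace, Matrix.diag, Matrix.submatrix_apply, Fintype.sum_prod_type,
    Prod.swap_prod_mk]
  exact Finset.sum_comm

theorem out_density (V : Matrix (C × D) (A × B) ℂ) (hV : Vᴴ * V = 1) {ρ1 : Mat A} {ρ2 : Mat B}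
    (h1 : IsDensity ρ1) (h2 : IsDensity ρ2) : IsDensity (out V ρ1 ρ2) := by
  have hM : (V * (ρ1 ⊗ₖ ρ2) * Vᴴ).PosSemidef :=
    (h1.1.kronecker h2.1).mul_mul_conjTranspose_same V
  constructor
  · have he : out V ρ1 ρ2 =
        ∑ q : D, (V * (ρ1 ⊗ₖ ρ2) * Vᴴ).submatrix (fun p => (p, q)) (fun p => (p, q)) := by
      ext p p'
      simp only [out, Matrix.of_apply, Matrix.sum_apply, Matrix.submatrix_apply]
    rw [he]
    exact Matrix.posSemidef_sum _ fun q _ => hM.submatrix _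
  · have h := mx_ptr_trace (V * (ρ1 ⊗ₖ ρ2) * Vᴴ) (1 : Mat C)
    rw [Matrix.mul_one, Matrix.one_kronecker_one, Matrix.mul_one, Matrix.trace_mul_cycle, hV,
      Matrix.one_mul, Matrix.trace_kronecker, h1.2, h2.2, mul_one] at h
    exact h

theorem out_swp (V : Matrix (C × D) (A × B) ℂ) (ρ1 : Mat A) (ρ2 : Mat B) :
    out (swp V) ρ2 ρ1 = out V ρ1 ρ2 := by
  unfold out
  rw [mx_kron_swap ρ1 ρ2, mx_swp_mul, mx_swp_mul_conjT]

theorem swp_iso (V : Matrix (C × D) (A × B) ℂ) (hV : Vᴴ * V = 1) : (swp V)ᴴ * swp V = 1 := by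
  have h := mx_swp_conj V 1
  rw [Matrix.mul_one, Matrix.mul_one, hV] at h
  rw [h]
  exact Matrix.submatrix_one_equiv (Equiv.prodComm B A)

theorem swp_c (V : Matrix (C × D) (A × B) ℂ) (c : Mat C) (a : Mat A) (b : Mat B) (e1 e2 : ℝ)
    (hc : (c ⊗ₖ (1 : Mat D)) * V =
      V * ((e1 : ℂ) • (a ⊗ₖ (1 : Mat B)) + (e2 : ℂ) • ((1 : Mat A) ⊗ₖ b))) :
    (c ⊗ₖ (1 : Mat D)) * swp V =
      swp V * ((e2 : ℂ) • (b ⊗ₖ (1 : Mat A)) + (e1 : ℂ) • ((1 : Mat B) ⊗ₖ a)) := by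
  have h : (e2 : ℂ) • (b ⊗ₖ (1 : Mat A)) + (e1 : ℂ) • ((1 : Mat B) ⊗ₖ a) =
      ((e1 : ℂ) • (a ⊗ₖ (1 : Mat B)) + (e2 : ℂ) • ((1 : Mat A) ⊗ₖ b)).submatrix
        Prod.swap Prod.swap := by
    rw [mx_kron_swap (1 : Mat A) b, mx_kron_swap a (1 : Mat B), add_comm]
    rfl
  rw [h, mx_swp_mul, ← hc]
  rfl

theorem out_lin (V : Matrix (C × D) (A × B) ℂ) (ρ2 : Mat B) :
    ∃ Φ : Mat A →ₗ[ℂ] Mat C, ∀ r, Φ r = out V r ρ2 := by
  refine ⟨⟨⟨fun r => out V r ρ2, fun r r' => ?_⟩, fun c r => ?_⟩, fun r => rfl⟩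
  · ext p p'
    simp only [out, Matrix.add_kronecker, Matrix.mul_add, Matrix.add_mul, Matrix.of_apply,
      Matrix.add_apply, Finset.sum_add_distrib]
  · ext p p'
    simp only [out, Matrix.smul_kronecker, Matrix.mul_smul, Matrix.smul_mul, Matrix.of_apply,
      Matrix.smul_apply, smul_eq_mul, Finset.mul_sum, RingHom.id_apply]

theorem out_cont (V : Matrix (C × D) (A × B) ℂ) :
    Continuous fun r : Mat A × Mat B => out V r.1 r.2 := by
  refine continuous_matrix fun p p' => ?_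
  simp only [out, Matrix.of_apply, Matrix.mul_apply, Matrix.kroneckerMap_apply]
  fun_prop

theorem out_trace (V : Matrix (C × D) (A × B) ℂ) (ρ1 : Mat A) (ρ2 : Mat B) (Z : Mat C) :
    (out V ρ1 ρ2 * Z).trace = ((ρ1 ⊗ₖ ρ2) * (Vᴴ * (Z ⊗ₖ (1 : Mat D)) * V)).trace := by
  unfold out
  rw [mx_ptr_trace, Matrix.mul_assoc, Matrix.mul_assoc, Matrix.trace_mul_comm, Matrix.mul_assoc]

/-- the defining property of the conditional expectation -/
theorem cnd_pair (V : Matrix (C × D) (A × B) ℂ) (ρ2 : Mat B) (Y : Mat A) (Z : Mat C) :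
    (Y * cnd V ρ2 Z).trace = ((Y ⊗ₖ ρ2) * (Vᴴ * (Z ⊗ₖ (1 : Mat D)) * V)).trace := by
  show (Y * (Matrix.of fun k k' =>
    ∑ l, ∑ l', ρ2 l l' * (Vᴴ * (Z ⊗ₖ (1 : Mat D)) * V) (k, l') (k', l) : Mat A)).trace = _
  generalize Vᴴ * (Z ⊗ₖ (1 : Mat D)) * V = W
  simp only [Matrix.trace, Matrix.diag, Matrix.mul_apply, Matrix.of_apply, Fintype.sum_prod_type,
    Matrix.kroneckerMap_apply, Finset.mul_sum, mul_assoc]
  exact Finset.sum_congr rfl fun k _ => Finset.sum_comm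

theorem cnd_pair_swp (V : Matrix (C × D) (A × B) ℂ) (ρ1 : Mat A) (Y : Mat B) (Z : Mat C) :
    (Y * cnd (swp V) ρ1 Z).trace = ((ρ1 ⊗ₖ Y) * (Vᴴ * (Z ⊗ₖ (1 : Mat D)) * V)).trace := by
  rw [cnd_pair, mx_swp_conj, mx_kron_swap ρ1 Y, mx_trace_swap]

theorem cnd_tr (V : Matrix (C × D) (A × B) ℂ) (ρ1 : Mat A) (ρ2 : Mat B) (Z : Mat C) :
    (ρ1 * cnd V ρ2 Z).trace = (out V ρ1 ρ2 * Z).trace := by
  rw [cnd_pair, out_trace]

theorem cnd_one (V : Matrix (C × D) (A × B) ℂ) (hV : Vᴴ * V = 1) {ρ2 : Mat B}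
    (h2 : IsDensity ρ2) : cnd V ρ2 1 = 1 := by
  refine Matrix.ext_iff_trace_mul_left.2 fun Y => ?_
  rw [cnd_pair, Matrix.one_kronecker_one, Matrix.mul_one, hV, Matrix.mul_one,
    Matrix.trace_kronecker, h2.2, mul_one, Matrix.mul_one]

theorem cnd_herm (V : Matrix (C × D) (A × B) ℂ) {ρ2 : Mat B} (h2 : ρ2ᴴ = ρ2) (Z : Mat C) :
    cnd V ρ2 Zᴴ = (cnd V ρ2 Z)ᴴ := by
  refine Matrix.ext_iff_trace_mul_left.2 fun Y => ?_
  have h1 : (Y * (cnd V ρ2 Z)ᴴ).trace = star ((Yᴴ * cnd V ρ2 Z).trace) := by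
    rw [← Matrix.trace_conjTranspose, Matrix.conjTranspose_mul, Matrix.conjTranspose_conjTranspose,
      Matrix.trace_mul_comm]
  rw [h1, cnd_pair, cnd_pair, ← Matrix.trace_conjTranspose, Matrix.conjTranspose_mul,
    Matrix.trace_mul_comm _ (_ ⊗ₖ ρ2)ᴴ]
  simp only [Matrix.conjTranspose_mul, Matrix.conjTranspose_kronecker, h2,
    Matrix.conjTranspose_conjTranspose, Matrix.conjTranspose_one, Matrix.mul_assoc]

theorem cnd_c (V : Matrix (C × D) (A × B) ℂ) (hV : Vᴴ * V = 1) {ρ2 : Mat B} (h2 : IsDensity ρ2)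
    (c : Mat C) (a : Mat A) (b : Mat B) (e1 e2 : ℝ)
    (hc : (c ⊗ₖ (1 : Mat D)) * V =
      V * ((e1 : ℂ) • (a ⊗ₖ (1 : Mat B)) + (e2 : ℂ) • ((1 : Mat A) ⊗ₖ b))) :
    cnd V ρ2 c = (e1 : ℂ) • a + ((e2 : ℂ) * (ρ2 * b).trace) • (1 : Mat A) := by
  refine Matrix.ext_iff_trace_mul_left.2 fun Y => ?_
  rw [cnd_pair, Matrix.mul_assoc, hc, ← Matrix.mul_assoc Vᴴ, hV, Matrix.one_mul]
  simp only [Matrix.mul_add, Matrix.mul_smul, ← Matrix.mul_kronecker_mul, Matrix.mul_one,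
    Matrix.trace_add, Matrix.trace_smul, Matrix.trace_kronecker, h2.2, smul_eq_mul]
  ring

theorem joint (V : Matrix (C × D) (A × B) ℂ) (ρ1 : Mat A) (ρ2 : Mat B)
    (c : Mat C) (a : Mat A) (b : Mat B) (e1 e2 : ℝ)
    (hc : (c ⊗ₖ (1 : Mat D)) * V =
      V * ((e1 : ℂ) • (a ⊗ₖ (1 : Mat B)) + (e2 : ℂ) • ((1 : Mat A) ⊗ₖ b))) (Z : Mat C) :
    (Z * out V ρ1 ρ2 * cᴴ).trace = (e1 : ℂ) * (cnd V ρ2 Z * ρ1 * aᴴ).trace +
      (e2 : ℂ) * (cnd (swp V) ρ1 Z * ρ2 * bᴴ).trace := by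
  have hc' : Vᴴ * (cᴴ ⊗ₖ (1 : Mat D)) =
      ((e1 : ℂ) • (aᴴ ⊗ₖ (1 : Mat B)) + (e2 : ℂ) • ((1 : Mat A) ⊗ₖ bᴴ)) * Vᴴ := by
    have h := congrArg Matrix.conjTranspose hc
    simpa only [Matrix.conjTranspose_mul, Matrix.conjTranspose_kronecker, Matrix.conjTranspose_add,
      Matrix.conjTranspose_smul, Matrix.conjTranspose_one, Complex.star_def,
      Complex.conj_ofReal] using h
  have h1 : (Z * out V ρ1 ρ2 * cᴴ).trace = (out V ρ1 ρ2 * (cᴴ * Z)).trace := by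
    rw [Matrix.mul_assoc, Matrix.trace_mul_comm, Matrix.mul_assoc]
  have h2 : (cnd V ρ2 Z * ρ1 * aᴴ).trace = ((ρ1 * aᴴ) * cnd V ρ2 Z).trace := by
    rw [Matrix.mul_assoc, Matrix.trace_mul_comm]
  have h3 : (cnd (swp V) ρ1 Z * ρ2 * bᴴ).trace = ((ρ2 * bᴴ) * cnd (swp V) ρ1 Z).trace := by
    rw [Matrix.mul_assoc, Matrix.trace_mul_comm]
  have h4 : (cᴴ * Z) ⊗ₖ (1 : Mat D) = (cᴴ ⊗ₖ (1 : Mat D)) * (Z ⊗ₖ (1 : Mat D)) := by
    rw [← Matrix.mul_kronecker_mul, Matrix.mul_one]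
  rw [h1, h2, h3, out_trace, cnd_pair, cnd_pair_swp, h4, ← Matrix.mul_assoc Vᴴ, hc',
    Matrix.mul_assoc _ Vᴴ, Matrix.mul_assoc _ (Vᴴ * _) V]
  generalize Vᴴ * (Z ⊗ₖ (1 : Mat D)) * V = W
  rw [← Matrix.mul_assoc]
  simp only [Matrix.mul_add, Matrix.add_mul, Matrix.mul_smul, Matrix.smul_mul,
    ← Matrix.mul_kronecker_mul, Matrix.mul_one, Matrix.trace_add, Matrix.trace_smul, smul_eq_mul]

theorem energy (V : Matrix (C × D) (A × B) ℂ) (hV : Vᴴ * V = 1) {ρ1 : Mat A} {ρ2 : Mat B}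
    (h1 : IsDensity ρ1) (h2 : IsDensity ρ2) (c : Mat C) (a : Mat A) (b : Mat B) (e1 e2 : ℝ)
    (hc : (c ⊗ₖ (1 : Mat D)) * V =
      V * ((e1 : ℂ) • (a ⊗ₖ (1 : Mat B)) + (e2 : ℂ) • ((1 : Mat A) ⊗ₖ b))) :
    e1 ^ 2 * (ρ1 * (aᴴ * a)).trace.re + e2 ^ 2 * (ρ2 * (bᴴ * b)).trace.re -
      2 * |e1| * |e2| * ‖(ρ1 * a).trace‖ * ‖(ρ2 * b).trace‖ ≤
      (out V ρ1 ρ2 * (cᴴ * c)).trace.re := by
  have hc' : Vᴴ * (cᴴ ⊗ₖ (1 : Mat D)) =
      ((e1 : ℂ) • (aᴴ ⊗ₖ (1 : Mat B)) + (e2 : ℂ) • ((1 : Mat A) ⊗ₖ bᴴ)) * Vᴴ := by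
    have h := congrArg Matrix.conjTranspose hc
    simpa only [Matrix.conjTranspose_mul, Matrix.conjTranspose_kronecker, Matrix.conjTranspose_add,
      Matrix.conjTranspose_smul, Matrix.conjTranspose_one, Complex.star_def,
      Complex.conj_ofReal] using h
  have h4 : (cᴴ * c) ⊗ₖ (1 : Mat D) = (cᴴ ⊗ₖ (1 : Mat D)) * (c ⊗ₖ (1 : Mat D)) := by
    rw [← Matrix.mul_kronecker_mul, Matrix.mul_one]
  have ha : (ρ1 * aᴴ).trace = star (ρ1 * a).trace := by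
    rw [← Matrix.trace_conjTranspose, Matrix.conjTranspose_mul, h1.1.1.eq, Matrix.trace_mul_comm]
  have hb : (ρ2 * bᴴ).trace = star (ρ2 * b).trace := by
    rw [← Matrix.trace_conjTranspose, Matrix.conjTranspose_mul, h2.1.1.eq, Matrix.trace_mul_comm]
  have key : (out V ρ1 ρ2 * (cᴴ * c)).trace =
      (e1 : ℂ) ^ 2 * (ρ1 * (aᴴ * a)).trace + (e2 : ℂ) ^ 2 * (ρ2 * (bᴴ * b)).trace +
        (e1 : ℂ) * e2 * (star (ρ1 * a).trace * (ρ2 * b).trace +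
          (ρ1 * a).trace * star (ρ2 * b).trace) := by
    rw [out_trace, h4, ← Matrix.mul_assoc Vᴴ, hc', Matrix.mul_assoc _ _ V, hc,
      Matrix.mul_assoc _ Vᴴ, ← Matrix.mul_assoc Vᴴ, hV, Matrix.one_mul, ← ha, ← hb]
    simp only [Matrix.mul_add, Matrix.add_mul, Matrix.mul_smul, Matrix.smul_mul,
      ← Matrix.mul_kronecker_mul, Matrix.mul_one, Matrix.one_mul, Matrix.trace_add,
      Matrix.trace_smul, smul_eq_mul, Matrix.trace_kronecker, h1.2, h2.2]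
    ring
  rw [key]
  generalize (ρ1 * (aᴴ * a)).trace = x
  generalize (ρ2 * (bᴴ * b)).trace = y
  generalize (ρ1 * a).trace = u
  generalize (ρ2 * b).trace = v
  have h5 : ‖(e1 : ℂ) * e2 * (star u * v + u * star v)‖ ≤ 2 * |e1| * |e2| * ‖u‖ * ‖v‖ := by
    have h6 : ‖star u * v + u * star v‖ ≤ 2 * (‖u‖ * ‖v‖) := by
      refine (norm_add_le _ _).trans ?_
      rw [norm_mul, norm_mul, norm_star, norm_star]
      linarith
    rw [norm_mul, norm_mul, Complex.norm_real, Complex.norm_real, Real.norm_eq_abs,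
      Real.norm_eq_abs]
    have h7 := mul_le_mul_of_nonneg_left h6 (mul_nonneg (abs_nonneg e1) (abs_nonneg e2))
    linarith
  have h8 := (abs_le.1 ((Complex.abs_re_le_norm _).trans h5)).1
  have h9 : ((e1 : ℂ) ^ 2 * x).re = e1 ^ 2 * x.re := by
    rw [← Complex.ofReal_pow, Complex.re_ofReal_mul]
  have h10 : ((e2 : ℂ) ^ 2 * y).re = e2 ^ 2 * y.re := by
    rw [← Complex.ofReal_pow, Complex.re_ofReal_mul]
  rw [Complex.add_re, Complex.add_re, h9, h10]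
  linarith

end Crest.Agent.R331.EP
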