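import Crest.Agent.R331.Min2
import Crest.Agent.R331.Mix1
import Crest.Agent.R331.BS

set_option autoImplicit false

open Matrix Kronecker Crest.Quantum Crest.MathPhysics.Bosonic
open scoped ComplexOrder

namespace Crest.Agent.R331.EP

theorem up_log (n K : ℕ) : Real.log (Fintype.card (Ix n K)) ≤ n * (K + 1 : ℝ) := by
  rw [card_Ix, Nat.cast_pow, Real.log_pow, Nat.cast_succ]
  exact mul_le_mul_of_nonneg_left (Real.log_le_self (by positivity)) (Nat.cast_nonneg n)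

theorem up_log2 (n K : ℕ) : Real.log (Fintype.card (Ix n (2 * K))) ≤ n * (2 * K + 1 : ℝ) := by
  have := up_log n (2 * K)
  rwa [Nat.cast_mul, Nat.cast_ofNat] at this

theorem up_bs {n K : ℕ} {η : ℝ} (hη : η ∈ Set.Icc (0 : ℝ) 1) {ρA ρB : Mat (Ix n K)}
    (hA : IsDensity ρA) (hB : IsDensity ρB) : IsDensity (bsOutput η ρA ρB) := by
  rw [bsOutput_eq]
  exact out_density _ (VV_iso n K hη) hA hB

theorem FF_min (n K : ℕ) {η : ℝ} (hη : η ∈ Set.Icc (0 : ℝ) 1) (lA lB : ℝ) {δ : ℝ} (h0 : 0 ≤ δ)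
    (h1 : δ ≤ 1) (ε cw γ : ℝ) :
    ∃ ρA ρB : Mat (Ix n K), IsDensity ρA ∧ IsDensity ρB ∧ ∀ r1 r2, IsDensity r1 → IsDensity r2 →
      FF n K η lA lB δ ε cw γ ρA ρB ≤ FF n K η lA lB δ ε cw γ r1 r2 := by
  refine exists_min (fun r => FF n K η lA lB δ ε cw γ r.1 r.2) ?_
  have c1 : Continuous fun r : Mat (Ix n K) × Mat (Ix n K) => mixd δ (bsOutput η r.1 r.2) := by
    simp only [bsOutput_eq, mixd]
    exact ((out_cont (VV n K η)).const_smul ((1 - δ : ℝ) : ℂ)).add continuous_const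
  have c2 : ∀ W : Mat (Ix n K), Continuous fun r : Mat (Ix n K) => (r * W).trace.re := fun W =>
    Complex.continuous_re.comp (continuous_id.matrix_mul continuous_const).matrix_trace
  unfold FF
  refine ((((vn_cont.comp c1.continuousOn fun r hr => ?_).sub
    (continuousOn_const.mul (vn_cont.comp continuous_fst.continuousOn fun r hr => hr.1))).sub
    (continuousOn_const.mul (vn_cont.comp continuous_snd.continuousOn fun r hr => hr.2))).add
    ((c2 _).comp continuous_fst).continuousOn).add ((c2 _).comp continuous_snd).continuousOn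
  exact mixd_density (up_bs hη hr.1 hr.2) h0 h1

/-- compare with the vacuum (`exists_vac`, `WW_le`, `vn_le_log`, `vn_nonneg'`, `WW_ge_top`) -/
theorem top_bound {n K : ℕ} (hK : 1 ≤ K) {η : ℝ} (hη : η ∈ Set.Icc (0 : ℝ) 1) {lA lB δ ε cw γ : ℝ}
    (hlA : 0 ≤ lA) (hlB : 0 ≤ lB) (h0 : 0 ≤ δ) (h1 : δ ≤ 1) (hε : 0 ≤ ε) (hcw : 0 ≤ cw) (hγ : 0 < γ)
    {ρA ρB : Mat (Ix n K)} (hA : IsDensity ρA) (hB : IsDensity ρB)
    (hmin : ∀ r1 r2, IsDensity r1 → IsDensity r2 →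
      FF n K η lA lB δ ε cw γ ρA ρB ≤ FF n K η lA lB δ ε cw γ r1 r2) (i : Fin n) :
    cw * w0 γ (K - 1) * (top n K i * ρA).trace.re ≤ (1 + lA + lB) * (n * (2 * K + 1)) ∧
      cw * w0 γ (K - 1) * (top n K i * ρB).trace.re ≤ (1 + lA + lB) * (n * (2 * K + 1)) := by
  obtain ⟨v, hv, sv⟩ := exists_vac n K
  have h := hmin v v hv hv
  unfold FF at h
  have w0' : W1 ε cw γ 0 = 0 := by
    rw [W1, Nat.cast_zero, mul_zero, Finset.sum_range_zero, mul_zero, add_zero]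
  have a1 := WW_le hv sv hε hcw hγ
  rw [w0', mul_zero] at a1
  have a2 := (vn_le_log (mixd_density (up_bs hη hv hv) h0 h1)).trans (up_log2 n K)
  have a3 := vn_nonneg' (mixd_density (up_bs hη hA hB) h0 h1)
  have a4 := mul_nonneg hlA (vn_nonneg' hv)
  have a5 := mul_nonneg hlB (vn_nonneg' hv)
  have a6 : (n : ℝ) * (K + 1) ≤ n * (2 * K + 1) :=
    mul_le_mul_of_nonneg_left (by linarith [Nat.cast_nonneg (α := ℝ) K]) (Nat.cast_nonneg n)
  have a7 := mul_le_mul_of_nonneg_left (((vn_le_log hA).trans (up_log n K)).trans a6) hlA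
  have a8 := mul_le_mul_of_nonneg_left (((vn_le_log hB).trans (up_log n K)).trans a6) hlB
  have a9 := (mul_nonneg hε (En_nonneg hA)).trans (WW_ge hA hcw hγ)
  have a10 := (mul_nonneg hε (En_nonneg hB)).trans (WW_ge hB hcw hγ)
  exact ⟨by linarith [WW_ge_top hK hA hε hcw hγ i], by linarith [WW_ge_top hK hB hε hcw hγ i]⟩

theorem upper {n K K0 : ℕ} {η : ℝ} (hη : η ∈ Set.Icc (0 : ℝ) 1) (lA lB : ℝ) {δ ε cw γ : ℝ}
    (h0 : 0 ≤ δ) (h1 : δ ≤ 1) (hε : 0 ≤ ε) (hcw : 0 ≤ cw) (hγ : 0 < γ)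
    {ρA ρB : Mat (Ix n K)} (hA : IsDensity ρA) (hB : IsDensity ρB) (sA : Supp K0 ρA)
    (sB : Supp K0 ρB) :
    FF n K η lA lB δ ε cw γ ρA ρB ≤ vnEntropy (bsOutput η ρA ρB) + Real.negMulLog δ +
      Real.negMulLog (1 - δ) + δ * (n * (2 * K + 1)) - lA * vnEntropy ρA - lB * vnEntropy ρB +
      2 * (n * W1 ε cw γ K0) := by
  unfold FF
  linarith [mix_le (up_bs hη hA hB) h0 h1, mul_le_mul_of_nonneg_left (up_log2 n K) h0,
    WW_le hA sA hε hcw hγ, WW_le hB sB hε hcw hγ]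

end Crest.Agent.R331.EP
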