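import Crest.Agent.R331.Low
import Crest.Agent.R331.Up
import Crest.Agent.R331.LimAux

set_option autoImplicit false

open Matrix Kronecker Crest.Quantum Crest.MathPhysics.Bosonic
open scoped ComplexOrder

namespace Crest.Agent.R331.EP

/-- `K → ∞` with `δ = γ^(-K/2)`, `s = poly(K) γ^(-K/4)`. -/
theorem lower_lim (n : ℕ) {η : ℝ} (hη : η ∈ Set.Icc (0 : ℝ) 1) {NA NB NC ε γ : ℝ} (hA : 0 < NA)
    (hB : 0 < NB) (hC : NC = η * NA + (1 - η) * NB) (hε : 0 < ε) (hγ : 1 < γ)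
    (hγA : γ ≤ (NA + 1) / NA) (hγB : γ ≤ (NB + 1) / NB) (K0 : ℕ) {κ : ℝ} (hκ : 0 < κ) :
    ∃ (K : ℕ) (δ : ℝ), K0 ≤ K ∧ 0 < δ ∧ δ ≤ 1 ∧ δ ≤ κ ∧
      Real.negMulLog δ + Real.negMulLog (1 - δ) + δ * (n * (2 * K + 1)) ≤ κ ∧
      ∀ ρA ρB : Mat (Ix n K), IsDensity ρA → IsDensity ρB →
        n * Real.log (NC + 1)
          - ((1 - δ) * η * bt NC + ε) / bt NA * (n * Real.log (NA + 1))
          - ((1 - δ) * (1 - η) * bt NC + ε) / bt NB * (n * Real.log (NB + 1)) - κ ≤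
        FF n K η (((1 - δ) * η * bt NC + ε) / bt NA) (((1 - δ) * (1 - η) * bt NC + ε) / bt NB)
          δ ε δ γ ρA ρB := by
  have hγ0 : 0 < γ := one_pos.trans hγ
  have hη0 := hη.1
  have hη1 : 0 ≤ 1 - η := sub_nonneg.2 hη.2
  have hNC : 0 < NC := by
    rw [hC]
    rcases hη0.eq_or_lt with h | h
    · rw [← h]; simpa using hB
    · positivity
  obtain ⟨Cst, m, hCst, hest⟩ := min_est n hη hA hB hC hε hγ0 hγA hγB
  obtain ⟨r, hr0, hr1, hr⟩ : ∃ r : ℝ, 0 < r ∧ r < 1 ∧ r ^ 8 * γ = 1 := by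
    have h8 : (γ⁻¹ ^ (((8 : ℕ) : ℝ)⁻¹)) ^ 8 = γ⁻¹ :=
      Real.rpow_inv_natCast_pow (by positivity) (by norm_num)
    refine ⟨γ⁻¹ ^ (((8 : ℕ) : ℝ)⁻¹), by positivity, ?_, by rw [h8, inv_mul_cancel₀ hγ0.ne']⟩
    exact Real.rpow_lt_one (by positivity) (inv_lt_one_of_one_lt₀ hγ) (by positivity)
  have bA := bt_pos hA
  have bB := bt_pos hB
  have bC := bt_pos hNC
  obtain ⟨L, hL⟩ : ∃ L, L = 1 + (bt NC + ε) / bt NA + (bt NC + ε) / bt NB := ⟨_, rfl⟩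
  have hL0 : 0 ≤ L := by rw [hL]; positivity
  obtain ⟨D, hD⟩ : ∃ D, D = 1 + L * n * γ := ⟨_, rfl⟩
  have hD0 : 0 ≤ L * n * γ := by positivity
  have hD1 : 1 ≤ D := by linarith
  obtain ⟨M, hM⟩ : ∃ M, M = 1 - 2 * Real.log r := ⟨_, rfl⟩
  have hlog : Real.log r < 0 := Real.log_neg hr0 hr1
  obtain ⟨K, hK0, hK1, c1, c2, c3, c4, c5⟩ :=
    lim_choice n m K0 (D := D) (M := M) (Cst := Cst) hr0.le hr1 hκ hNC
  have hKn : (0 : ℝ) ≤ K := Nat.cast_nonneg K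
  have hδ0 : 0 < r ^ (4 * K) := by positivity
  have hδ1 : r ^ (4 * K) ≤ 1 := pow_le_one₀ hr0.le hr1.le
  have hδs : r ^ (4 * K) ≤ (D * ((2 * K + 1) * r ^ K)) ^ 2 := by
    have h1 : r ^ (4 * K) ≤ (r ^ K) ^ 2 := by
      rw [← pow_mul]
      exact pow_le_pow_of_le_one hr0.le hr1.le (by omega)
    refine h1.trans ?_
    have h2 : r ^ K ≤ D * ((2 * K + 1) * r ^ K) := by
      rw [← mul_assoc]
      refine le_mul_of_one_le_left (by positivity) ?_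
      nlinarith
    gcongr
  have hΛ1 : (2 * K + 1 : ℝ) ≤ (2 * K + 1) * M :=
    le_mul_of_one_le_right (by positivity) (by linarith)
  have hΛ2 : -Real.log (r ^ (4 * K)) ≤ (2 * K + 1) * M := by
    rw [Real.log_pow, hM]
    push_cast
    nlinarith
  obtain ⟨δ, hδ⟩ : ∃ δ, δ = r ^ (4 * K) := ⟨_, rfl⟩
  have htop := fun t (h : δ * w0 γ (K - 1) * t ≤ L * n * (2 * K + 1)) =>
    lim_top hK1 (t := t) (B := L * n) hr0 hγ0 hr hD1 (by linarith) (by rw [← hδ]; exact h)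
  rw [← hδ] at c1 c2 hδ0 hδ1 hδs hΛ2
  refine ⟨K, δ, hK0, hδ0, hδ1, c1, c2, fun ρA ρB hρA hρB => ?_⟩
  have h1δ : 0 ≤ 1 - δ := sub_nonneg.2 hδ1
  have lA0 : 0 ≤ ((1 - δ) * η * bt NC + ε) / bt NA := by positivity
  have lB0 : 0 ≤ ((1 - δ) * (1 - η) * bt NC + ε) / bt NB := by positivity
  have lL : 1 + ((1 - δ) * η * bt NC + ε) / bt NA + ((1 - δ) * (1 - η) * bt NC + ε) / bt NB
      ≤ L := by
    have a1 : (1 - δ) * η ≤ 1 := mul_le_one₀ (by linarith) hη0 hη.2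
    have a2 : (1 - δ) * (1 - η) ≤ 1 := mul_le_one₀ (by linarith) hη1 (by linarith)
    have a3 : (1 - δ) * η * bt NC ≤ bt NC := mul_le_of_le_one_left bC.le a1
    have a4 : (1 - δ) * (1 - η) * bt NC ≤ bt NC := mul_le_of_le_one_left bC.le a2
    rw [hL]
    gcongr
  obtain ⟨σA, σB, hσA, hσB, hmin⟩ := FF_min n K hη (((1 - δ) * η * bt NC + ε) / bt NA)
    (((1 - δ) * (1 - η) * bt NC + ε) / bt NB) hδ0.le hδ1 ε δ γ
  have hbd : (1 + ((1 - δ) * η * bt NC + ε) / bt NA + ((1 - δ) * (1 - η) * bt NC + ε) / bt NB) *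
      (n * (2 * K + 1)) ≤ L * n * (2 * K + 1) := by
    rw [mul_assoc L]
    gcongr
  have h := hest K δ _ _ σA σB hδ0 hδs c3 hΛ1 hΛ2 hσA hσB hmin fun i => by
    obtain ⟨t1, t2⟩ := top_bound hK1 hη lA0 lB0 hδ0.le hδ1 hε.le hδ0.le hγ0 hσA hσB hmin i
    exact ⟨htop _ (t1.trans hbd), htop _ (t2.trans hbd)⟩
  rw [Real.sqrt_sq (by positivity)] at h
  have h' := hmin ρA ρB hρA hρB
  linarith

end Crest.Agent.R331.EP
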