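import Crest.Agent.R331.Mix1
import Crest.Agent.R331.Chan

set_option autoImplicit false

open Matrix Kronecker Crest.Quantum Crest.MathPhysics.Bosonic
open scoped ComplexOrder

namespace Crest.Agent.R331.EP

open Crest.Agent.R331.Ch

variable {A B C D : Type} [Fintype A] [DecidableEq A] [Fintype B] [DecidableEq B]
  [Fintype C] [DecidableEq C] [Fintype D] [DecidableEq D]

theorem anova_out_eq (V : Matrix (C × D) (A × B) ℂ) (ρ1 : Mat A) (ρ2 : Mat B) :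
    out V ρ1 ρ2 = outC V ρ1 ρ2 := rfl

theorem anova_cnd_eq (V : Matrix (C × D) (A × B) ℂ) (ρ2 : Mat B) (Z : Mat C) :
    cnd V ρ2 Z = EB ρ2 (liftX V Z) := by
  refine ext_trace fun W => ?_
  rw [← trace_mul_kron_B, Matrix.trace_mul_comm, cnd_pair, Matrix.trace_mul_comm]
  rfl

theorem anova_cnd_swp_eq (V : Matrix (C × D) (A × B) ℂ) (ρ1 : Mat A) (Z : Mat C) :
    cnd (swp V) ρ1 Z = EA ρ1 (liftX V Z) := by
  refine ext_trace fun W => ?_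
  rw [← trace_mul_kron_A, Matrix.trace_mul_comm, cnd_pair_swp, Matrix.trace_mul_comm]
  rfl

theorem anova_cen_A (V : Matrix (C × D) (A × B) ℂ) (ρ1 : Mat A) (ρ2 : Mat B) (Z : Mat C) :
    cen ρ1 (cnd V ρ2 Z) = EB ρ2 (liftX V Z) - (Z * outC V ρ1 ρ2).trace • 1 := by
  rw [trace_mul_outC_B, Matrix.trace_mul_comm, ← anova_cnd_eq]
  rfl

theorem anova_cen_B (V : Matrix (C × D) (A × B) ℂ) (ρ1 : Mat A) (ρ2 : Mat B) (Z : Mat C) :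
    cen ρ2 (cnd (swp V) ρ1 Z) = EA ρ1 (liftX V Z) - (Z * outC V ρ1 ρ2).trace • 1 := by
  rw [trace_mul_outC_A, Matrix.trace_mul_comm, ← anova_cnd_swp_eq]
  rfl

/-- ANOVA in the form `tr Y* Y ρ`: with `X = V* (Z ⊗ 1) V` one has `X* X ≤ V* (Z* Z ⊗ 1) V`, and
`cen ρ1 (E_A Z) ⊗ 1`, `1 ⊗ cen ρ2 (E_B Z)` are orthogonal projections of `X` onto orthogonal
subspaces for the form `tr (ρ1 ⊗ ρ2) Y* Y'` (expand `0 ≤ ‖X - P - Q‖²`). -/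
theorem anova_R (V : Matrix (C × D) (A × B) ℂ) (hV : Vᴴ * V = 1) {ρ1 : Mat A} {ρ2 : Mat B}
    (h1 : IsDensity ρ1) (h2 : IsDensity ρ2) (Z : Mat C) :
    (((cen ρ1 (cnd V ρ2 Z))ᴴ * cen ρ1 (cnd V ρ2 Z) * ρ1).trace).re +
      (((cen ρ2 (cnd (swp V) ρ1 Z))ᴴ * cen ρ2 (cnd (swp V) ρ1 Z) * ρ2).trace).re ≤
      ((Zᴴ * Z * out V ρ1 ρ2).trace).re := by
  have h := Crest.Agent.R331.Ch.anova_R V hV h1 h2 Z
  rw [anova_cen_A, anova_cen_B, anova_out_eq]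
  have := sq_nonneg ‖(Z * outC V ρ1 ρ2).trace‖
  linarith

/-- the adjoint form (apply `anova_R` to `Zᴴ`, `cnd_herm`) -/
theorem anova_L (V : Matrix (C × D) (A × B) ℂ) (hV : Vᴴ * V = 1) {ρ1 : Mat A} {ρ2 : Mat B}
    (h1 : IsDensity ρ1) (h2 : IsDensity ρ2) (Z : Mat C) :
    (((cen ρ1 (cnd V ρ2 Z))ᴴ * ρ1 * cen ρ1 (cnd V ρ2 Z)).trace).re +
      (((cen ρ2 (cnd (swp V) ρ1 Z))ᴴ * ρ2 * cen ρ2 (cnd (swp V) ρ1 Z)).trace).re ≤
      ((Zᴴ * out V ρ1 ρ2 * Z).trace).re := by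
  have h := Crest.Agent.R331.Ch.anova_L V hV h1 h2 Z
  rw [anova_cen_A, anova_cen_B, anova_out_eq]
  have := sq_nonneg ‖(Z * outC V ρ1 ρ2).trace‖
  linarith

end Crest.Agent.R331.EP
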