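import Crest.Agent.R331.Mix1

set_option autoImplicit false

open Matrix Kronecker Crest.Quantum Crest.MathPhysics.Bosonic
open scoped ComplexOrder

namespace Crest.Agent.R331.EP

variable {A B C D : Type} [Fintype A] [DecidableEq A] [Fintype B] [DecidableEq B]
  [Fintype C] [DecidableEq C] [Fintype D] [DecidableEq D]

/-- partial trace against `ρ2` -/
noncomputable def m3_pt (ρ2 : Mat B) (X : Mat (A × B)) : Mat A :=
  Matrix.of fun k k' => ∑ l, ∑ l', ρ2 l l' * X (k, l') (k', l)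

omit [Fintype A] [DecidableEq A] [DecidableEq B] [DecidableEq C] in
theorem m3_cnd (V : Matrix (C × D) (A × B) ℂ) (ρ2 : Mat B) (Z : Mat C) :
    cnd V ρ2 Z = m3_pt ρ2 (Vᴴ * (Z ⊗ₖ (1 : Mat D)) * V) := rfl

omit [Fintype A] [DecidableEq A] [DecidableEq B] in
theorem m3_pt_add (ρ2 : Mat B) (X Y : Mat (A × B)) :
    m3_pt ρ2 (X + Y) = m3_pt ρ2 X + m3_pt ρ2 Y := by
  ext k k'
  simp [m3_pt, mul_add, Finset.sum_add_distrib]

omit [Fintype A] [DecidableEq A] [DecidableEq B] in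
theorem m3_pt_sub (ρ2 : Mat B) (X Y : Mat (A × B)) :
    m3_pt ρ2 (X - Y) = m3_pt ρ2 X - m3_pt ρ2 Y := by
  ext k k'
  simp [m3_pt, mul_sub, Finset.sum_sub_distrib]

omit [Fintype A] [DecidableEq A] [DecidableEq B] in
theorem m3_pt_smul (ρ2 : Mat B) (z : ℂ) (X : Mat (A × B)) :
    m3_pt ρ2 (z • X) = z • m3_pt ρ2 X := by
  ext k k'
  simp [m3_pt, Finset.mul_sum, mul_left_comm]

omit [DecidableEq A] in
theorem m3_pt_mul_right (ρ2 : Mat B) (X : Mat (A × B)) (a : Mat A) :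
    m3_pt ρ2 (X * (a ⊗ₖ (1 : Mat B))) = m3_pt ρ2 X * a := by
  ext k k'
  simp only [m3_pt, Matrix.of_apply, Matrix.mul_apply, Fintype.sum_prod_type,
    Matrix.kronecker_apply, Matrix.one_apply, mul_ite, mul_one, mul_zero, Finset.sum_ite_eq',
    Finset.mem_univ, if_true, Finset.mul_sum, Finset.sum_mul]
  rw [Finset.sum_comm (γ := A)]
  refine Finset.sum_congr rfl fun l _ => ?_
  rw [Finset.sum_comm (γ := A)]
  refine Finset.sum_congr rfl fun l' _ => Finset.sum_congr rfl fun j _ => ?_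
  ring

omit [DecidableEq A] in
theorem m3_pt_mul_left (ρ2 : Mat B) (X : Mat (A × B)) (a : Mat A) :
    m3_pt ρ2 ((a ⊗ₖ (1 : Mat B)) * X) = a * m3_pt ρ2 X := by
  ext k k'
  simp only [m3_pt, Matrix.of_apply, Matrix.mul_apply, Fintype.sum_prod_type,
    Matrix.kronecker_apply, Matrix.one_apply, mul_ite, mul_one, mul_zero, ite_mul, zero_mul,
    Finset.sum_ite_eq, Finset.mem_univ, if_true, Finset.mul_sum]
  rw [Finset.sum_comm (γ := A)]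
  refine Finset.sum_congr rfl fun l _ => ?_
  rw [Finset.sum_comm (γ := A)]
  refine Finset.sum_congr rfl fun l' _ => Finset.sum_congr rfl fun j _ => ?_
  ring

omit [DecidableEq A] [DecidableEq B] in
theorem m3_pt_fr (ρ2 : Mat B) (X : Mat (A × B)) : fr (m3_pt ρ2 X) ≤ fr ρ2 * fr X := by
  refine (pow_le_pow_iff_left₀ (fr_nonneg _) (mul_nonneg (fr_nonneg _) (fr_nonneg _))
    two_ne_zero).1 ?_
  rw [mul_pow, fr_sq (m3_pt ρ2 X), fr_sq X]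
  have key : ∀ k k' : A, ‖m3_pt ρ2 X k k'‖ ^ 2 ≤
      fr ρ2 ^ 2 * ∑ l', ∑ l, ‖X (k, l') (k', l)‖ ^ 2 := by
    intro k k'
    have h1 : m3_pt ρ2 X k k' =
        (ρ2 * (Matrix.of fun l' l => X (k, l') (k', l) : Mat B)).trace := by
      simp [m3_pt, Matrix.trace, Matrix.mul_apply]
    have h2 := trace_mul_le ρ2 (Matrix.of fun l' l => X (k, l') (k', l) : Mat B)
    have h3 := fr_sq (Matrix.of fun l' l => X (k, l') (k', l) : Mat B)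
    simp only [Matrix.of_apply] at h3
    rw [h1, ← h3, ← mul_pow]
    exact pow_le_pow_left₀ (norm_nonneg _) h2 2
  calc ∑ k, ∑ k', ‖m3_pt ρ2 X k k'‖ ^ 2
      ≤ ∑ k, ∑ k', fr ρ2 ^ 2 * ∑ l', ∑ l, ‖X (k, l') (k', l)‖ ^ 2 :=
        Finset.sum_le_sum fun k _ => Finset.sum_le_sum fun k' _ => key k k'
    _ = fr ρ2 ^ 2 * ∑ i, ∑ j, ‖X i j‖ ^ 2 := by
        simp only [← Finset.mul_sum, Fintype.sum_prod_type]
        congr 1
        exact Finset.sum_congr rfl fun k _ => Finset.sum_comm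

omit [DecidableEq A] [DecidableEq C] in
theorem m3_bd {ρ2 : Mat B} (h2 : IsDensity ρ2) (G V : Matrix (C × D) (A × B) ℂ) (L : Mat C) :
    fr (m3_pt ρ2 (Gᴴ * (L ⊗ₖ (1 : Mat D)) * V)) ≤
      fr G * fr V * √(Fintype.card D) * fr L := by
  have e1 := m3_pt_fr ρ2 (Gᴴ * (L ⊗ₖ (1 : Mat D)) * V)
  have e2 := fr_mul (Gᴴ * (L ⊗ₖ (1 : Mat D))) V
  have e3 := fr_mul Gᴴ (L ⊗ₖ (1 : Mat D))
  rw [fr_conjT, fr_kron, fr_one] at e3
  have e4 := fr_density h2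
  have e5 := fr_nonneg (Gᴴ * (L ⊗ₖ (1 : Mat D)) * V)
  have e6 := mul_le_mul_of_nonneg_right e3 (fr_nonneg V)
  have e7 := mul_le_mul_of_nonneg_right e4 e5
  calc _ ≤ _ := e1
    _ ≤ _ := e7
    _ = fr (Gᴴ * (L ⊗ₖ (1 : Mat D)) * V) := one_mul _
    _ ≤ _ := e2
    _ ≤ _ := e6
    _ = _ := by ring

theorem m3_comm (L c : Mat C) (d : Mat D) (z : ℂ) :
    (L ⊗ₖ (1 : Mat D)) * (z • (c ⊗ₖ (1 : Mat D)) + (1 : Mat C) ⊗ₖ d) -
      (z • (c ⊗ₖ (1 : Mat D)) + (1 : Mat C) ⊗ₖ d) * (L ⊗ₖ (1 : Mat D)) =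
      z • ((L * c - c * L) ⊗ₖ (1 : Mat D)) := by
  have hs : (L * c - c * L) ⊗ₖ (1 : Mat D) = (L * c) ⊗ₖ (1 : Mat D) - (c * L) ⊗ₖ (1 : Mat D) := by
    ext i j
    simp [sub_mul]
  rw [hs, Matrix.mul_add, Matrix.add_mul, Matrix.mul_smul, Matrix.smul_mul,
    ← Matrix.mul_kronecker_mul, ← Matrix.mul_kronecker_mul, ← Matrix.mul_kronecker_mul,
    ← Matrix.mul_kronecker_mul, smul_sub]
  simp only [Matrix.mul_one, Matrix.one_mul]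
  abel

/-- `[E L, a] = e E [L, c] + P * Bd`, `Bd = tr_B (1 ⊗ ρ2) G* (L ⊗ 1) V` -/
theorem cnd_comm {V : Matrix (C × D) (A × B) ℂ} {c : Mat C} {a P : Mat A} {e : ℝ}
    {G : Matrix (C × D) (A × B) ℂ} (h : Itw V c a P e G) {ρ2 : Mat B} (h2 : IsDensity ρ2)
    (L : Mat C) :
    ∃ Bd : Mat A, cnd V ρ2 L * a - a * cnd V ρ2 L = (e : ℂ) • cnd V ρ2 (L * c - c * L) + P * Bd ∧
      fr Bd ≤ fr G * fr V * √(Fintype.card D) * fr L := by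
  obtain ⟨d, h1, h3⟩ := h.ex
  refine ⟨m3_pt ρ2 (Gᴴ * (L ⊗ₖ (1 : Mat D)) * V), ?_, m3_bd h2 G V L⟩
  have hc := m3_comm L c d (e : ℂ)
  set t : Mat (C × D) := (e : ℂ) • (c ⊗ₖ (1 : Mat D)) + (1 : Mat C) ⊗ₖ d with ht
  have h4 : (a ⊗ₖ (1 : Mat B)) * Vᴴ = Vᴴ * t - (P ⊗ₖ (1 : Mat B)) * Gᴴ := by
    have := congrArg Matrix.conjTranspose h3
    rw [Matrix.conjTranspose_mul, Matrix.conjTranspose_conjTranspose, Matrix.conjTranspose_add,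
      Matrix.conjTranspose_mul, Matrix.conjTranspose_mul, Matrix.conjTranspose_kronecker,
      Matrix.conjTranspose_kronecker, Matrix.conjTranspose_conjTranspose, Matrix.conjTranspose_one,
      h.Ph] at this
    rw [this]
    abel
  rw [m3_cnd, m3_cnd, ← m3_pt_mul_right, ← m3_pt_mul_left, ← m3_pt_mul_left, ← m3_pt_smul,
    ← m3_pt_sub, ← m3_pt_add]
  congr 1
  have e1 : Vᴴ * (L ⊗ₖ (1 : Mat D)) * V * (a ⊗ₖ (1 : Mat B)) =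
      Vᴴ * ((L ⊗ₖ (1 : Mat D)) * t) * V := by
    simp only [Matrix.mul_assoc]
    rw [h1]
  have e2 : (a ⊗ₖ (1 : Mat B)) * (Vᴴ * (L ⊗ₖ (1 : Mat D)) * V) =
      Vᴴ * (t * (L ⊗ₖ (1 : Mat D))) * V -
        (P ⊗ₖ (1 : Mat B)) * (Gᴴ * (L ⊗ₖ (1 : Mat D)) * V) := by
    rw [← Matrix.mul_assoc, ← Matrix.mul_assoc, h4]
    simp only [Matrix.sub_mul, Matrix.mul_assoc]
  rw [e1, e2, ← Matrix.smul_mul, ← Matrix.mul_smul, ← hc, Matrix.mul_sub, Matrix.sub_mul]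
  abel

theorem cnd_com2 {V : Matrix (C × D) (A × B) ℂ} {c : Mat C} {a P : Mat A} {e : ℝ}
    {G : Matrix (C × D) (A × B) ℂ} (h : Itw V c a P e G) {ρ1 : Mat A} {ρ2 : Mat B}
    (h1 : IsDensity ρ1) (h2 : IsDensity ρ2) (Z : Mat C) :
    ‖(e : ℂ) * (Z * (out V ρ1 ρ2 * cᴴ - cᴴ * out V ρ1 ρ2)).trace -
      (cnd V ρ2 Z * (ρ1 * aᴴ - aᴴ * ρ1)).trace‖ ≤
      √((P * ρ1).trace.re) * fr G * fr V * √(Fintype.card D) * fr Z := by
  obtain ⟨d, h4, h3⟩ := h.ex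
  have hc := m3_comm Z cᴴ dᴴ (e : ℂ)
  have ht' : ((e : ℂ) • (c ⊗ₖ (1 : Mat D)) + (1 : Mat C) ⊗ₖ d)ᴴ =
      (e : ℂ) • (cᴴ ⊗ₖ (1 : Mat D)) + (1 : Mat C) ⊗ₖ dᴴ := by
    rw [Matrix.conjTranspose_add, Matrix.conjTranspose_smul, Matrix.conjTranspose_kronecker,
      Matrix.conjTranspose_kronecker, Matrix.conjTranspose_one, Matrix.conjTranspose_one]
    simp
  have h5 := congrArg Matrix.conjTranspose h4
  rw [Matrix.conjTranspose_mul, Matrix.conjTranspose_mul, Matrix.conjTranspose_kronecker,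
    Matrix.conjTranspose_one] at h5
  rw [ht'] at h3 h5
  set t : Mat (C × D) := (e : ℂ) • (cᴴ ⊗ₖ (1 : Mat D)) + (1 : Mat C) ⊗ₖ dᴴ with ht
  have key : cnd V ρ2 Z * aᴴ - aᴴ * cnd V ρ2 Z = (e : ℂ) • cnd V ρ2 (Z * cᴴ - cᴴ * Z) -
      m3_pt ρ2 (Vᴴ * (Z ⊗ₖ (1 : Mat D)) * G) * P := by
    rw [m3_cnd, m3_cnd, ← m3_pt_mul_right, ← m3_pt_mul_left, ← m3_pt_mul_right, ← m3_pt_smul,
      ← m3_pt_sub, ← m3_pt_sub]
    congr 1
    have e1 : Vᴴ * (Z ⊗ₖ (1 : Mat D)) * V * (aᴴ ⊗ₖ (1 : Mat B)) =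
        Vᴴ * ((Z ⊗ₖ (1 : Mat D)) * t) * V -
          Vᴴ * (Z ⊗ₖ (1 : Mat D)) * G * (P ⊗ₖ (1 : Mat B)) := by
      simp only [Matrix.mul_assoc]
      rw [h3]
      simp only [Matrix.mul_add]
      abel
    have e2 : (aᴴ ⊗ₖ (1 : Mat B)) * (Vᴴ * (Z ⊗ₖ (1 : Mat D)) * V) =
        Vᴴ * (t * (Z ⊗ₖ (1 : Mat D))) * V := by
      rw [← Matrix.mul_assoc, ← Matrix.mul_assoc, ← h5]
      simp only [Matrix.mul_assoc]
    rw [e1, e2, ← Matrix.smul_mul, ← Matrix.mul_smul, ← hc, Matrix.mul_sub, Matrix.sub_mul]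
    abel
  have k2 := congrArg (fun X => (ρ1 * X).trace) key
  simp only [Matrix.mul_sub, Matrix.mul_smul, Matrix.trace_sub, Matrix.trace_smul, cnd_tr,
    smul_eq_mul] at k2
  have t1 : (Z * (out V ρ1 ρ2 * cᴴ - cᴴ * out V ρ1 ρ2)).trace =
      -((out V ρ1 ρ2 * (Z * cᴴ)).trace - (out V ρ1 ρ2 * (cᴴ * Z)).trace) := by
    rw [Matrix.mul_sub, Matrix.trace_sub, Matrix.trace_mul_comm Z, ← Matrix.mul_assoc Z,
      Matrix.trace_mul_comm (Z * cᴴ), Matrix.mul_assoc]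
    ring
  have t2 : (cnd V ρ2 Z * (ρ1 * aᴴ - aᴴ * ρ1)).trace =
      -((ρ1 * (cnd V ρ2 Z * aᴴ)).trace - (ρ1 * (aᴴ * cnd V ρ2 Z)).trace) := by
    rw [Matrix.mul_sub, Matrix.trace_sub, Matrix.trace_mul_comm (cnd V ρ2 Z),
      ← Matrix.mul_assoc (cnd V ρ2 Z), Matrix.trace_mul_comm (cnd V ρ2 Z * aᴴ), Matrix.mul_assoc]
    ring
  have t3 : (ρ1 * (m3_pt ρ2 (Vᴴ * (Z ⊗ₖ (1 : Mat D)) * G) * P)).trace =
      ((P * ρ1) * m3_pt ρ2 (Vᴴ * (Z ⊗ₖ (1 : Mat D)) * G)).trace := by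
    rw [← Matrix.mul_assoc ρ1, Matrix.trace_mul_comm, ← Matrix.mul_assoc P]
  have t4 : (e : ℂ) * (Z * (out V ρ1 ρ2 * cᴴ - cᴴ * out V ρ1 ρ2)).trace -
      (cnd V ρ2 Z * (ρ1 * aᴴ - aᴴ * ρ1)).trace =
      -((P * ρ1) * m3_pt ρ2 (Vᴴ * (Z ⊗ₖ (1 : Mat D)) * G)).trace := by
    rw [t1, t2, k2, t3]
    ring
  rw [t4, norm_neg]
  have b1 := trace_mul_le (P * ρ1) (m3_pt ρ2 (Vᴴ * (Z ⊗ₖ (1 : Mat D)) * G))
  have b2 := fr_proj h1 h.Ph h.PP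
  have b3 := m3_bd h2 V G Z
  calc _ ≤ _ := b1
    _ ≤ √((P * ρ1).trace.re) * (fr V * fr G * √(Fintype.card D) * fr Z) :=
        mul_le_mul b2 b3 (fr_nonneg _) (Real.sqrt_nonneg _)
    _ = _ := by ring

end Crest.Agent.R331.EP
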