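import Crest.Agent.R331.Min2
import Crest.Agent.R331.Mix3

set_option autoImplicit false

open Matrix Kronecker Crest.Quantum Crest.MathPhysics.Bosonic
open scoped ComplexOrder

namespace Crest.Agent.R331.EP

variable {A B C D : Type} [Fintype A] [DecidableEq A] [Fintype B] [DecidableEq B]
  [Fintype C] [DecidableEq C] [Fintype D] [DecidableEq D]

/-- A minimiser in the first input satisfies `Side`. -/
theorem side_mix (V : Matrix (C × D) (A × B) ℂ) (hV : Vᴴ * V = 1) {ρ1 : Mat A} {ρ2 : Mat B}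
    (h1 : IsDensity ρ1) (h2 : IsDensity ρ2) (SC : Sp C) {δ : ℝ} (h0 : 0 ≤ δ) (hδ : δ ≤ 1)
    (hσ : SC.rho = mixd δ (out V ρ1 ρ2)) (W : Mat A) (hW : Wᴴ = W) {e N β ε : ℝ} (hN : 0 < N)
    (hβ : 0 < β) (hε : 0 < ε)
    (hmin : ∀ r, IsDensity r →
      vnEntropy (mixd δ (out V ρ1 ρ2)) - ((1 - δ) * e ^ 2 * β + ε) / bt N * vnEntropy ρ1 +
          (ρ1 * W).trace.re ≤
        vnEntropy (mixd δ (out V r ρ2)) - ((1 - δ) * e ^ 2 * β + ε) / bt N * vnEntropy r +
          (r * W).trace.re) :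
    ∃ SA : Sp A, SA.rho = ρ1 ∧ ∀ (c : Mat C) (a P w : Mat A) (b : Mat B)
      (G : Matrix (C × D) (A × B) ℂ) (e' s : ℝ), Itw V c a P e G →
      (c ⊗ₖ (1 : Mat D)) * V =
        V * ((e : ℂ) • (a ⊗ₖ (1 : Mat B)) + (e' : ℂ) • ((1 : Mat A) ⊗ₖ b)) →
      a * W - W * a = (ε : ℂ) • a + (β : ℂ) • (w * a) →
      -((w * a * MM N ρ1 a).trace).re ≤ s →
      √((P * ρ1).trace.re) * fr G * fr V * √(Fintype.card D) ≤ s →
      N * (√((P * ρ1).trace.re) * fr G * fr V * √(Fintype.card D)) * fr SC.H * fr a ≤ s →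
      Side SA SC (out V ρ1 ρ2) c (cnd V ρ2) a e N β δ ε s := by
  obtain ⟨Φ0, hΦ0⟩ := out_lin (D := D) V ρ2
  have hbt : 0 < bt N := Real.log_pos (by have := one_div_pos.2 hN; linarith)
  have hd1 : 0 ≤ 1 - δ := by linarith
  have hlam : 0 < ((1 - δ) * e ^ 2 * β + ε) / bt N := by positivity
  have hmx : ∀ r, (((1 - δ : ℝ) : ℂ) • Φ0) r + ((δ / Fintype.card C : ℝ) : ℂ) • (1 : Mat C) =
      mixd δ (out V r ρ2) := fun r => by
    rw [LinearMap.smul_apply, hΦ0]; rfl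
  obtain ⟨SA, hSA, ⟨k, hk⟩, hq⟩ := el_sp (((1 - δ : ℝ) : ℂ) • Φ0) (((1 - δ : ℝ) : ℂ) • cnd V ρ2)
    (fun Z r => by
      rw [LinearMap.smul_apply, LinearMap.smul_apply, hΦ0, Matrix.mul_smul, Matrix.smul_mul,
        trace_smul, trace_smul, trace_mul_comm, ← cnd_tr, trace_mul_comm])
    (fun Z => by
      rw [LinearMap.smul_apply, LinearMap.smul_apply, cnd_herm V h2.1.1.eq, conjTranspose_smul,
        Complex.star_def, Complex.conj_ofReal])
    (((δ / Fintype.card C : ℝ) : ℂ) • (1 : Mat C))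
    (fun r hr => by rw [hmx]; exact mixd_density (out_density V hV hr h2) h0 hδ) W hW _ hlam ρ1 h1
    SC (by rw [hmx, hσ]) (fun r hr => by rw [hmx, hmx]; exact hmin r hr)
  refine ⟨SA, hSA, fun c a P w b G e' s hI hc hWa hs1 hs2 hs3 => ?_⟩
  subst hSA
  refine ⟨cnd_one V hV h2, fun Z => cnd_tr V _ ρ2 Z, ⟨_, cnd_c V hV h2 c a b e e' hc⟩, ?_,
    fun Z => (cnd_com2 hI h1 h2 Z).trans (mul_le_mul_of_nonneg_right hs2 (fr_nonneg _)),
    fun Z => ?_⟩
  · obtain ⟨B0, hB, hBn⟩ := cnd_comm hI h2 SC.H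
    refine ⟨w, ((1 - δ : ℝ) : ℂ) • (P * B0), ?_, hs1, ?_⟩
    · rw [smul_sub, ← Matrix.smul_mul, ← Matrix.mul_smul, hk, LinearMap.smul_apply]
      have e1 : (((1 - δ : ℝ) : ℂ) • cnd V ρ2 SC.H - W + (k : ℂ) • (1 : Mat A)) * a -
          a * (((1 - δ : ℝ) : ℂ) • cnd V ρ2 SC.H - W + (k : ℂ) • (1 : Mat A)) =
          ((1 - δ : ℝ) : ℂ) • (cnd V ρ2 SC.H * a - a * cnd V ρ2 SC.H) + (a * W - W * a) := by
        simp only [Matrix.add_mul, Matrix.sub_mul, Matrix.mul_add, Matrix.mul_sub, Matrix.smul_mul,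
          Matrix.mul_smul, Matrix.one_mul, Matrix.mul_one, smul_sub]
        abel
      rw [e1, hB, hWa, smul_add, smul_smul, ← Complex.ofReal_mul]
      abel
    · have z : (P * B0 * (SA.rho * aᴴ)).trace = 0 := by
        rw [← Matrix.mul_assoc, trace_mul_comm, ← Matrix.mul_assoc, ← Matrix.mul_assoc, hI.aP]
        simp
      have z2 : (P * B0 * (aᴴ * SA.rho)).trace = (SA.rho * P * (B0 * aᴴ)).trace := by
        rw [← Matrix.mul_assoc, trace_mul_comm]
        simp only [Matrix.mul_assoc]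
      have e2 : (((1 - δ : ℝ) : ℂ) • (P * B0) * MM N SA.rho a).trace =
          -((((1 - δ) * N : ℝ) : ℂ) * (SA.rho * P * (B0 * aᴴ)).trace) := by
        rw [MM, Matrix.smul_mul, Matrix.mul_sub, Matrix.mul_smul, Matrix.mul_smul, trace_smul,
          trace_sub, trace_smul, trace_smul, z, z2]
        simp only [smul_eq_mul]
        push_cast
        ring
      rw [e2, norm_neg, norm_mul, Complex.norm_real, Real.norm_of_nonneg (by positivity)]
      have b1 := trace_mul_le (SA.rho * P) (B0 * aᴴ)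
      have b2 := fr_proj' h1 hI.Ph hI.PP
      have b3 := fr_mul B0 aᴴ
      rw [fr_conjT] at b3
      have b4 : fr (B0 * aᴴ) ≤ fr G * fr V * √(Fintype.card D) * fr SC.H * fr a :=
        b3.trans (mul_le_mul_of_nonneg_right hBn (fr_nonneg _))
      have b5 := b1.trans (mul_le_mul b2 b4 (fr_nonneg _) (Real.sqrt_nonneg _))
      refine le_trans ?_ hs3
      calc (1 - δ) * N * ‖(SA.rho * P * (B0 * aᴴ)).trace‖
          ≤ N * ‖(SA.rho * P * (B0 * aᴴ)).trace‖ :=
            mul_le_mul_of_nonneg_right (by nlinarith) (norm_nonneg _)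
        _ ≤ N * (√((P * SA.rho).trace.re) *
            (fr G * fr V * √(Fintype.card D) * fr SC.H * fr a)) :=
            mul_le_mul_of_nonneg_left b5 hN.le
        _ = _ := by ring
  · have h := hq Z
    have e3 : cen SA.rho ((((1 - δ : ℝ) : ℂ) • cnd V ρ2) Z) =
        ((1 - δ : ℝ) : ℂ) • cen SA.rho (cnd V ρ2 Z) := by
      rw [LinearMap.smul_apply, cen, cen, Matrix.mul_smul, trace_smul, smul_sub, smul_smul,
        smul_eq_mul]
    have e4 : ∀ Y : Mat A, SA.qf LM (((1 - δ : ℝ) : ℂ) • Y) = (1 - δ) ^ 2 * SA.qf LM Y := fun Y => by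
      simp only [Sp.qf, Sp.hat, Matrix.mul_smul, Matrix.smul_mul, Matrix.smul_apply, smul_eq_mul,
        norm_mul, Complex.norm_real, Real.norm_of_nonneg hd1, Finset.mul_sum]
      exact Finset.sum_congr rfl fun j _ => Finset.sum_congr rfl fun l _ => by ring
    rwa [e3, e4] at h

end Crest.Agent.R331.EP
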