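import Crest.Agent.R331.Step
import Crest.Agent.R331.SideMix
import Crest.Agent.R331.Mix2
import Crest.Agent.R331.BS
import Crest.Agent.R331.End

set_option autoImplicit false

open Matrix Kronecker Crest.Quantum Crest.MathPhysics.Bosonic
open scoped ComplexOrder

namespace Crest.Agent.R331.EP

theorem low_drift {n K : ℕ} (i : Fin n) {ρ : Mat (Ix n K)} (h : IsDensity ρ) {N γ t : ℝ}
    (hN : 0 < N) (hγ : 0 < γ) (hγ' : γ ≤ (N + 1) / N) (ht : 0 ≤ t) :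
    -((((t : ℂ) • dg n K i (w0 γ)) * low n K i * MM N ρ (low n K i)).trace).re ≤ t * N := by
  have h1 := drift i h hN hγ hγ'
  rw [Matrix.smul_mul, Matrix.smul_mul, Matrix.trace_smul, smul_eq_mul, Complex.re_ofReal_mul]
  nlinarith

theorem low_comm (n K : ℕ) (ε γ : ℝ) {δ β : ℝ} (hβ : 0 < β) (i : Fin n) :
    low n K i * WW n K ε δ γ - WW n K ε δ γ * low n K i =
      (ε : ℂ) • low n K i + (β : ℂ) • ((((δ / β : ℝ) : ℂ) • dg n K i (w0 γ)) * low n K i) := by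
  rw [low_W, Matrix.smul_mul, smul_smul]
  congr 2
  have : (β : ℂ) ≠ 0 := by exact_mod_cast hβ.ne'
  push_cast
  field_simp

theorem low_card (n K : ℕ) {Λ : ℝ} (h : (K + 1 : ℝ) ≤ Λ) :
    (Fintype.card (Ix n K) : ℝ) ≤ Λ ^ n := by
  rw [card_Ix]
  push_cast
  exact pow_le_pow_left₀ (by positivity) h n

theorem low_sqrt_le {x y : ℝ} (hy : 1 ≤ y) (h : x ≤ y) : √x ≤ y := by
  refine Real.sqrt_le_iff.2 ⟨by linarith, ?_⟩
  nlinarith

/-- the size of the boundary terms -/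
theorem low_bd {t g v d s Λ : ℝ} {n : ℕ} (hΛ : 1 ≤ Λ) (ht : 0 ≤ t) (hg : 0 ≤ g) (hv : 0 ≤ v)
    (hd : 0 ≤ d) (h1 : t ≤ s) (h2 : g ≤ 3 * Λ ^ (3 * n + 1)) (h3 : v ≤ Λ ^ n) (h4 : d ≤ Λ ^ n) :
    t * g * v * d ≤ 3 * Λ ^ (5 * n + 1) * s := by
  have hs : 0 ≤ s := ht.trans h1
  have h0 : 0 ≤ Λ := by linarith
  calc t * g * v * d ≤ s * (3 * Λ ^ (3 * n + 1)) * Λ ^ n * Λ ^ n := by gcongr
    _ = 3 * Λ ^ (5 * n + 1) * s := by ring

/-- the value of the functional at a minimiser -/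
theorem min_est (n : ℕ) {η : ℝ} (hη : η ∈ Set.Icc (0 : ℝ) 1) {NA NB NC ε γ : ℝ} (hA : 0 < NA)
    (hB : 0 < NB) (hC : NC = η * NA + (1 - η) * NB) (hε : 0 < ε) (hγ : 0 < γ)
    (hγA : γ ≤ (NA + 1) / NA) (hγB : γ ≤ (NB + 1) / NB) :
    ∃ (Cst : ℝ) (m : ℕ), 0 ≤ Cst ∧ ∀ (K : ℕ) (δ s Λ : ℝ) (ρA ρB : Mat (Ix n K)),
      0 < δ → δ ≤ s → s ≤ 1 → (2 * K + 1 : ℝ) ≤ Λ → -Real.log δ ≤ Λ →
      IsDensity ρA → IsDensity ρB →
      (∀ r1 r2, IsDensity r1 → IsDensity r2 →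
        FF n K η (((1 - δ) * η * bt NC + ε) / bt NA) (((1 - δ) * (1 - η) * bt NC + ε) / bt NB)
          δ ε δ γ ρA ρB ≤
        FF n K η (((1 - δ) * η * bt NC + ε) / bt NA) (((1 - δ) * (1 - η) * bt NC + ε) / bt NB)
          δ ε δ γ r1 r2) →
      (∀ i, √((top n K i * ρA).trace.re) ≤ s ∧ √((top n K i * ρB).trace.re) ≤ s) →
      n * Real.log (∑ k ∈ Finset.range (2 * K + 1), (NC / (NC + 1)) ^ k)
        - ((1 - δ) * η * bt NC + ε) / bt NA * (n * Real.log (NA + 1))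
        - ((1 - δ) * (1 - η) * bt NC + ε) / bt NB * (n * Real.log (NB + 1))
        - Cst * Λ ^ m * √s ≤
      FF n K η (((1 - δ) * η * bt NC + ε) / bt NA) (((1 - δ) * (1 - η) * bt NC + ε) / bt NB)
          δ ε δ γ ρA ρB := by
  obtain ⟨hη0, hη1⟩ := hη
  have hη : η ∈ Set.Icc (0 : ℝ) 1 := ⟨hη0, hη1⟩
  have hNC : 0 < NC := by
    rw [hC]
    rcases eq_or_lt_of_le hη0 with h | h
    · rw [← h]; simpa using hB
    · have := mul_pos h hA
      have := mul_nonneg (sub_nonneg.2 hη1) hB.le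
      linarith
  have hβ := bt_pos hNC
  have hβA := bt_pos hA
  have hβB := bt_pos hB
  obtain ⟨C1, hC1, hstep⟩ := step NA NB NC ε hA hB hNC hε
  obtain ⟨C2, m2, hC2, hend⟩ := endgame n NC hNC
  obtain ⟨C0, hC0⟩ : ∃ C0 : ℝ, C0 = 3 + 6 * (NA + NB) + (NA + NB) / bt NC := ⟨_, rfl⟩
  have hq : 0 ≤ (NA + NB) / bt NC := by positivity
  have hC03 : 3 ≤ C0 := by rw [hC0]; linarith
  have hC3 : 0 ≤ 16 * C1 * C0 := by positivity
  refine ⟨3 * C2 * √(16 * C1 * C0) + 2 * n * bt NC * (16 * C1 * C0), m2 + 16 * n + 8,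
    by positivity, ?_⟩
  intro K δ s Λ ρA ρB hδ hδs hs1 hΛ hlog dA dB hmin htop
  have hK0 : (0 : ℝ) ≤ K := Nat.cast_nonneg K
  have hΛ1 : 1 ≤ Λ := by linarith
  have hΛ0 : 0 ≤ Λ := by linarith
  have hs0 : 0 ≤ s := by linarith
  have hδ1 : δ ≤ 1 := by linarith
  have hΛK : (K + 1 : ℝ) ≤ Λ := by linarith
  have hΛ2 : ((2 * K : ℕ) + 1 : ℝ) ≤ Λ := by push_cast; exact hΛ
  have pw : ∀ {a b : ℕ}, a ≤ b → Λ ^ a ≤ Λ ^ b := fun h => pow_le_pow_right₀ hΛ1 h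
  have pw1 : ∀ a : ℕ, 1 ≤ Λ ^ a := fun a => one_le_pow₀ hΛ1
  have hV := VV_iso n K hη
  have dC := out_density _ hV dA dB
  obtain ⟨SC, hSC, hH⟩ := sp_mix dC hδ hδ1
  have cardC := low_card n (2 * K) hΛ2
  have hH2 : fr SC.H ≤ 2 * Λ ^ (2 * n + 1) := by
    have c0 : (0 : ℝ) ≤ Fintype.card (Ix n (2 * K)) := Nat.cast_nonneg _
    have c1 : Real.log (Fintype.card (Ix n (2 * K))) ≤ Λ ^ (n + 1) :=
      ((Real.log_le_self c0).trans cardC).trans (pw (by omega))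
    have c2 : -Real.log δ ≤ Λ ^ (n + 1) := hlog.trans (by simpa using pw (a := 1) (b := n + 1) (by omega))
    have c3 : Real.log (Fintype.card (Ix n (2 * K))) - Real.log δ ≤ 2 * Λ ^ (n + 1) := by linarith
    calc fr SC.H ≤ _ := hH
      _ ≤ Fintype.card (Ix n (2 * K)) * (2 * Λ ^ (n + 1)) := mul_le_mul_of_nonneg_left c3 c0
      _ ≤ Λ ^ n * (2 * Λ ^ (n + 1)) := by gcongr
      _ = 2 * Λ ^ (2 * n + 1) := by ring
  have e1 : √η ^ 2 = η := Real.sq_sqrt hη0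
  have e2 : √(1 - η) ^ 2 = 1 - η := Real.sq_sqrt (by linarith)
  obtain ⟨SA, hSA, sideA⟩ := side_mix (VV n K η) hV dA dB SC hδ.le hδ1 hSC (WW n K ε δ γ)
    (WW_herm n K ε δ γ) (e := √η) hA hβ hε (fun r hr => by
      have := hmin r ρB hr dB
      simp only [FF, bsOutput_eq] at this
      rw [e1]
      linarith)
  obtain ⟨SB, hSB, sideB⟩ := side_mix (swp (VV n K η)) (swp_iso _ hV) dB dA SC hδ.le hδ1
    (by rw [out_swp]; exact hSC) (WW n K ε δ γ)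
    (WW_herm n K ε δ γ) (e := √(1 - η)) hB hβ hε (fun r hr => by
      have := hmin ρA r dA hr
      simp only [FF, bsOutput_eq] at this
      rw [e2, out_swp, out_swp]
      linarith)
  have frV : fr (VV n K η) ≤ Λ ^ n := by
    rw [fr_iso _ hV, Fintype.card_prod, Nat.cast_mul, Real.sqrt_mul_self (Nat.cast_nonneg _)]
    exact low_card n K hΛK
  have sqD : √(Fintype.card (Ix n (2 * K))) ≤ Λ ^ n := low_sqrt_le (pw1 n) cardC
  obtain ⟨s1, hs1d⟩ : ∃ s1 : ℝ, s1 = C0 * Λ ^ (8 * n + 3) * s := ⟨_, rfl⟩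
  have hL := pw1 (8 * n + 3)
  have hLs : s ≤ Λ ^ (8 * n + 3) * s := by nlinarith
  have hLs0 : 0 ≤ Λ ^ (8 * n + 3) * s := by positivity
  have hss1 : s ≤ s1 := by rw [hs1d]; nlinarith
  have dr : ∀ N : ℝ, 0 ≤ N → N ≤ NA + NB → δ / bt NC * N ≤ s1 := fun N h0 h1 => by
    have a1 : δ / bt NC * N = N / bt NC * δ := by ring
    have a2 : N / bt NC ≤ (NA + NB) / bt NC := by gcongr
    have a3 : N / bt NC * δ ≤ (NA + NB) / bt NC * (Λ ^ (8 * n + 3) * s) :=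
      mul_le_mul a2 (hδs.trans hLs) hδ.le hq
    have a4 : (NA + NB) / bt NC ≤ C0 := by rw [hC0]; linarith
    have a5 := mul_le_mul_of_nonneg_right a4 hLs0
    rw [a1, hs1d, mul_assoc]
    linarith
  have b3 : ∀ x : ℝ, x ≤ 3 * Λ ^ (5 * n + 1) * s → x ≤ s1 := fun x hx => by
    have a1 : Λ ^ (5 * n + 1) * s ≤ Λ ^ (8 * n + 3) * s :=
      mul_le_mul_of_nonneg_right (pw (by omega)) hs0
    have a5 := mul_le_mul_of_nonneg_right hC03 hLs0
    rw [hs1d, mul_assoc]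
    linarith
  have b4 : ∀ (N x : ℝ) (i : Fin n), 0 ≤ N → N ≤ NA + NB → 0 ≤ x → x ≤ 3 * Λ ^ (5 * n + 1) * s →
      N * x * fr SC.H * fr (low n K i) ≤ s1 := fun N x i h0 h1 h2 hx => by
    have a0 : fr (low n K i) ≤ Λ ^ (n + 1) :=
      (fr_low n K i).trans (pow_le_pow_left₀ (by positivity) hΛK _)
    have a1 := fr_nonneg SC.H
    have a2 := fr_nonneg (low n K i)
    have a4 : 6 * (NA + NB) ≤ C0 := by rw [hC0]; linarith
    have a5 := mul_le_mul_of_nonneg_right a4 hLs0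
    calc N * x * fr SC.H * fr (low n K i)
        ≤ (NA + NB) * (3 * Λ ^ (5 * n + 1) * s) * (2 * Λ ^ (2 * n + 1)) * Λ ^ (n + 1) := by gcongr
      _ = 6 * (NA + NB) * (Λ ^ (8 * n + 3) * s) := by ring
      _ ≤ s1 := by rw [hs1d, mul_assoc C0]; exact a5
  have hG : ∀ x : ℝ, x ≤ 3 * (2 * K + 1 : ℝ) ^ (3 * n + 1) → x ≤ 3 * Λ ^ (3 * n + 1) :=
    fun x hx => hx.trans (by gcongr)
  have mode : ∀ i : Fin n,
      fr (MM NC SC.rho (low n (2 * K) i)) ^ 2 ≤ C1 * (2 * Λ ^ (2 * n + 1)) ^ 4 * s1 ∧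
      ‖(ρA * low n K i).trace‖ ^ 2 ≤ C1 * (2 * Λ ^ (2 * n + 1)) ^ 4 * s1 ∧
      ‖(ρB * low n K i).trace‖ ^ 2 ≤ C1 * (2 * Λ ^ (2 * n + 1)) ^ 4 * s1 := fun i => by
    obtain ⟨GA, iA, gA⟩ := VV_itwA n K hη i
    obtain ⟨GB, iB, gB⟩ := VV_itwB n K hη i
    have xA := low_bd hΛ1 (Real.sqrt_nonneg _) (fr_nonneg GA) (fr_nonneg (VV n K η))
      (Real.sqrt_nonneg _) (htop i).1 (hG _ gA) frV sqD
    have xB := low_bd hΛ1 (Real.sqrt_nonneg _) (fr_nonneg GB) (fr_nonneg (swp (VV n K η)))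
      (Real.sqrt_nonneg _) (htop i).2 (hG _ gB) (by rw [fr_swp]; exact frV) sqD
    have pA : 0 ≤ √((top n K i * ρA).trace.re) * fr GA * fr (VV n K η) *
        √(Fintype.card (Ix n (2 * K))) :=
      mul_nonneg (mul_nonneg (mul_nonneg (Real.sqrt_nonneg _) (fr_nonneg _)) (fr_nonneg _))
        (Real.sqrt_nonneg _)
    have pB : 0 ≤ √((top n K i * ρB).trace.re) * fr GB * fr (swp (VV n K η)) *
        √(Fintype.card (Ix n (2 * K))) :=
      mul_nonneg (mul_nonneg (mul_nonneg (Real.sqrt_nonneg _) (fr_nonneg _)) (fr_nonneg _))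
        (Real.sqrt_nonneg _)
    have sA := sideA (low n (2 * K) i) (low n K i) (top n K i)
      (((δ / bt NC : ℝ) : ℂ) • dg n K i (w0 γ)) (low n K i) GA (√(1 - η)) s1 iA (VV_c n K hη i)
      (low_comm n K ε γ hβ i)
      ((low_drift i dA hA hγ hγA (by positivity)).trans (dr NA hA.le (by linarith)))
      (b3 _ xA) (b4 NA _ i hA.le (by linarith) pA xA)
    have sB := sideB (low n (2 * K) i) (low n K i) (top n K i)
      (((δ / bt NC : ℝ) : ℂ) • dg n K i (w0 γ)) (low n K i) GB (√η) s1 iB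
      (swp_c _ _ _ _ _ _ (VV_c n K hη i)) (low_comm n K ε γ hβ i)
      ((low_drift i dB hB hγ hγB (by positivity)).trans (dr NB hB.le (by linarith)))
      (b3 _ xB) (b4 NB _ i hB.le (by linarith) pB xB)
    rw [out_swp] at sB
    have p2 := pw1 (2 * n + 1)
    have := hstep _ _ _ SA SB SC _ _ _ _ _ _ (√η) (√(1 - η)) δ s1 (2 * Λ ^ (2 * n + 1)) sA sB hSC dC
      (by rw [e1, e2]; ring) (by rw [e1, e2]; exact hC) hδ.le hδ1 (hδs.trans hss1)
      (fun Z => by rw [hSA, hSB]; exact joint _ ρA ρB _ _ _ _ _ (VV_c n K hη i) Z)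
      (fun Z => by rw [hSA, hSB]; exact anova_L _ hV dA dB Z)
      (fun Z => by rw [hSA, hSB]; exact anova_R _ hV dA dB Z)
      (by linarith)
      (by
        have a0 : fr (low n (2 * K) i) ≤ Λ ^ (n + 1) :=
          (fr_low n (2 * K) i).trans (pow_le_pow_left₀ (by positivity) hΛ2 _)
        have a1 := pw (a := n + 1) (b := 2 * n + 1) (by omega)
        linarith)
      (by
        have a1 := pw (a := n) (b := 2 * n + 1) (by omega)
        linarith) hH2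
    rw [hSA, hSB] at this
    exact this
  obtain ⟨G2, hG2⟩ : ∃ G2 : ℝ, G2 = C1 * (2 * Λ ^ (2 * n + 1)) ^ 4 * s1 := ⟨_, rfl⟩
  rw [← hG2] at mode
  have hss : s ≤ √s := by
    refine Real.le_sqrt_of_sq_le ?_
    nlinarith
  have hsq := Real.sqrt_nonneg s
  have hG2e : G2 = 16 * C1 * C0 * (Λ ^ (16 * n + 7) * s) := by rw [hG2, hs1d]; ring
  have hG20 : 0 ≤ G2 := by rw [hG2e]; positivity
  have hG2a : G2 ≤ 16 * C1 * C0 * (Λ ^ (m2 + 16 * n + 8) * √s) := by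
    rw [hG2e]
    have := pw (a := 16 * n + 7) (b := m2 + 16 * n + 8) (by omega)
    gcongr
  have hg : √G2 ≤ √(16 * C1 * C0) * (Λ ^ (8 * n + 4) * √s) := by
    refine Real.sqrt_le_iff.2 ⟨by positivity, ?_⟩
    rw [mul_pow, mul_pow, Real.sq_sqrt hC3, Real.sq_sqrt hs0, hG2e, ← pow_mul]
    have := pw (a := 16 * n + 7) (b := (8 * n + 4) * 2) (by omega)
    gcongr
  have hE := hend (2 * K) SC (√G2) (Real.sqrt_nonneg _)
    (fun i => Real.le_sqrt_of_sq_le (mode i).1)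
  have err : C2 * ((2 * K : ℕ) + 1 : ℝ) ^ m2 * (1 + fr SC.H) * √G2 ≤
      3 * C2 * √(16 * C1 * C0) * (Λ ^ (m2 + 16 * n + 8) * √s) := by
    have a1 : 1 + fr SC.H ≤ 3 * Λ ^ (2 * n + 1) := by have := pw1 (2 * n + 1); linarith
    have a2 := fr_nonneg SC.H
    have a3 := pw (a := m2 + 10 * n + 5) (b := m2 + 16 * n + 8) (by omega)
    calc C2 * ((2 * K : ℕ) + 1 : ℝ) ^ m2 * (1 + fr SC.H) * √G2
        ≤ C2 * Λ ^ m2 * (3 * Λ ^ (2 * n + 1)) * (√(16 * C1 * C0) * (Λ ^ (8 * n + 4) * √s)) := by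
          gcongr
      _ = 3 * C2 * √(16 * C1 * C0) * (Λ ^ (m2 + 10 * n + 5) * √s) := by ring
      _ ≤ _ := by gcongr
  have en : η * En ρA + (1 - η) * En ρB - 2 * n * G2 ≤ En (out (VV n K η) ρA ρB) := by
    rw [← En_eq ρA, ← En_eq ρB, ← En_eq (out (VV n K η) ρA ρB), Finset.mul_sum, Finset.mul_sum,
      ← Finset.sum_add_distrib]
    have : 2 * n * G2 = ∑ _i : Fin n, 2 * G2 := by simp; ring
    rw [this, ← Finset.sum_sub_distrib]
    refine Finset.sum_le_sum fun i _ => ?_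
    have a0 := energy _ hV dA dB _ _ _ _ _ (VV_c n K hη i)
    rw [e1, e2] at a0
    have a1 : |√η| ≤ 1 := by
      rw [abs_of_nonneg (Real.sqrt_nonneg _)]; exact low_sqrt_le le_rfl hη1
    have a2 : |√(1 - η)| ≤ 1 := by
      rw [abs_of_nonneg (Real.sqrt_nonneg _)]; exact low_sqrt_le le_rfl (by linarith)
    have a3 : ‖(ρA * low n K i).trace‖ * ‖(ρB * low n K i).trace‖ ≤ G2 := by
      nlinarith [(mode i).2.1, (mode i).2.2,
        sq_nonneg (‖(ρA * low n K i).trace‖ - ‖(ρB * low n K i).trace‖)]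
    have a4 : 2 * |√η| * |√(1 - η)| * ‖(ρA * low n K i).trace‖ * ‖(ρB * low n K i).trace‖ ≤
        2 * G2 := by
      calc 2 * |√η| * |√(1 - η)| * ‖(ρA * low n K i).trace‖ * ‖(ρB * low n K i).trace‖
          = 2 * |√η| * |√(1 - η)| * (‖(ρA * low n K i).trace‖ * ‖(ρB * low n K i).trace‖) := by
            ring
        _ ≤ 2 * 1 * 1 * G2 := by gcongr
        _ = 2 * G2 := by ring
    linarith
  have em := En_mixd (out (VV n K η) ρA ρB) hδ.le
  rw [hSC] at hE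
  have gA := gibbs_num dA hA
  have gB := gibbs_num dB hB
  have wA := WW_ge dA (ε := ε) hδ.le hγ
  have wB := WW_ge dB (ε := ε) hδ.le hγ
  have h1δ : 0 ≤ 1 - δ := by linarith
  have h1η : 0 ≤ 1 - η := by linarith
  have lA0 : 0 ≤ ((1 - δ) * η * bt NC + ε) / bt NA := by positivity
  have lB0 : 0 ≤ ((1 - δ) * (1 - η) * bt NC + ε) / bt NB := by positivity
  have gA' := mul_le_mul_of_nonneg_left gA lA0
  have gB' := mul_le_mul_of_nonneg_left gB lB0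
  have cA : ((1 - δ) * η * bt NC + ε) / bt NA * (bt NA * En ρA + n * Real.log (NA + 1)) =
      ((1 - δ) * η * bt NC + ε) * En ρA +
        ((1 - δ) * η * bt NC + ε) / bt NA * (n * Real.log (NA + 1)) := by
    field_simp
  have cB : ((1 - δ) * (1 - η) * bt NC + ε) / bt NB * (bt NB * En ρB + n * Real.log (NB + 1)) =
      ((1 - δ) * (1 - η) * bt NC + ε) * En ρB +
        ((1 - δ) * (1 - η) * bt NC + ε) / bt NB * (n * Real.log (NB + 1)) := by
    field_simp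
  rw [cA] at gA'
  rw [cB] at gB'
  have f1 := mul_le_mul_of_nonneg_left em hβ.le
  have f2 := mul_le_mul_of_nonneg_left en (mul_nonneg hβ.le h1δ)
  have f3 : bt NC * (1 - δ) * (2 * n * G2) ≤
      2 * n * bt NC * (16 * C1 * C0) * (Λ ^ (m2 + 16 * n + 8) * √s) := by
    have a1 : 1 - δ ≤ 1 := by linarith
    calc bt NC * (1 - δ) * (2 * n * G2)
        ≤ bt NC * 1 * (2 * n * (16 * C1 * C0 * (Λ ^ (m2 + 16 * n + 8) * √s))) := by gcongr
      _ = _ := by ring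
  simp only [FF, bsOutput_eq]
  nlinarith

end Crest.Agent.R331.EP
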