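import Crest.Agent.R331.Forms

set_option autoImplicit false

open Matrix Kronecker Crest.Quantum Crest.MathPhysics.Bosonic
open scoped ComplexOrder

namespace Crest.Agent.R331.EP

variable {ι : Type} [Fintype ι] [DecidableEq ι]

open R341 in
theorem min_spec {ρ : Mat ι} (h : IsDensity ρ) : ∃ (U : Mat ι) (d : ι → ℝ), Uᴴ * U = 1 ∧
    U * Uᴴ = 1 ∧ (∀ i, 0 ≤ d i) ∧ ∑ i, d i = 1 ∧ (0 : ℝ) < Fintype.card ι ∧
    vnEntropy ρ = ∑ i, Real.negMulLog (d i) ∧
    ∀ δ : ℝ, mixd δ ρ = U * rdiag (fun i => (1 - δ) * d i + δ / Fintype.card ι) * Uᴴ := by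
  obtain ⟨U, d, h1, h2, hd, e, hS⟩ := exists_spec h.1
  have hs : ∑ i, d i = 1 := by
    rw [← trace_rdiag, ← trace_conj h1, ← e, h.2, Complex.one_re]
  refine ⟨U, d, h1, h2, hd, hs, ?_, hS, fun δ => ?_⟩
  · rcases isEmpty_or_nonempty ι with hι | hι
    · simp at hs
    · exact_mod_cast Fintype.card_pos
  · have e2 : rdiag (fun i => (1 - δ) * d i + δ / Fintype.card ι) =
        ((1 - δ : ℝ) : ℂ) • rdiag d + ((δ / Fintype.card ι : ℝ) : ℂ) • (1 : Mat ι) := by
      ext i j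
      by_cases hij : i = j
      · subst hij; simp [rdiag]
      · simp [rdiag, hij]
    rw [e2, Matrix.mul_add, Matrix.add_mul, Matrix.mul_smul, Matrix.smul_mul, ← e, Matrix.mul_smul,
      Matrix.smul_mul, Matrix.mul_one, h2, mixd]

theorem min_gibbs {t : ℝ} (ht : 0 ≤ t) (h : ℝ) :
    Real.negMulLog t ≤ -(t * h) + (Real.exp h - t) := by
  rcases ht.eq_or_lt with rfl | ht
  · simpa using (Real.exp_pos h).le
  · have h1 := Real.log_le_sub_one_of_pos (div_pos (Real.exp_pos h) ht)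
    rw [Real.log_div (Real.exp_pos h).ne' ht.ne', Real.log_exp] at h1
    have h2 := mul_le_mul_of_nonneg_left h1 ht.le
    rw [mul_sub t (_ / _), mul_div_cancel₀ _ ht.ne'] at h2
    rw [Real.negMulLog]
    linarith

theorem min_subadd {a b : ℝ} (ha : 0 ≤ a) (hb : 0 ≤ b) :
    Real.negMulLog (a + b) ≤ Real.negMulLog a + Real.negMulLog b := by
  have k : ∀ {x y : ℝ}, 0 ≤ x → x ≤ y → x * Real.log x ≤ x * Real.log y := fun {x y} hx hy => by
    rcases hx.eq_or_lt with rfl | hx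
    · simp
    · exact mul_le_mul_of_nonneg_left (Real.log_le_log hx hy) hx.le
  have h1 := k ha (le_add_of_nonneg_right hb)
  have h2 := k hb (le_add_of_nonneg_left ha)
  simp only [Real.negMulLog]
  linarith

theorem min_trace (S : Sp ι) (τ : Mat ι) :
    ((τ * S.H).trace).re = ∑ j, ((S.Uᴴ * τ * S.U) j j).re * S.h j := by
  rw [Sp.H, ← Matrix.mul_assoc, ← Matrix.mul_assoc, trace_mul_comm, ← Matrix.mul_assoc,
    ← Matrix.mul_assoc, Matrix.trace, Complex.re_sum]
  refine Finset.sum_congr rfl fun j _ => ?_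
  rw [diag_apply, mul_diagonal, Complex.re_mul_ofReal]

theorem mixd_density {ρ : Mat ι} (h : IsDensity ρ) {δ : ℝ} (h0 : 0 ≤ δ) (h1 : δ ≤ 1) :
    IsDensity (mixd δ ρ) := by
  obtain ⟨U, d, u1, u2, hd, hs, hc, -, e⟩ := min_spec h
  rw [e]
  refine ⟨(R341.rdiag_psd fun i => add_nonneg (mul_nonneg (sub_nonneg.2 h1) (hd i))
    (div_nonneg h0 hc.le)).mul_mul_conjTranspose_same U, ?_⟩
  rw [R341.trace_conj u1, R341.rdiag, trace_diagonal, ← Complex.ofReal_sum, Finset.sum_add_distrib,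
    ← Finset.mul_sum, hs, Finset.sum_const, Finset.card_univ, nsmul_eq_mul,
    mul_div_cancel₀ _ hc.ne']
  simp

theorem sp_mix {ρ : Mat ι} (h : IsDensity ρ) {δ : ℝ} (h0 : 0 < δ) (h1 : δ ≤ 1) :
    ∃ S : Sp ι, S.rho = mixd δ ρ ∧
      fr S.H ≤ Fintype.card ι * (Real.log (Fintype.card ι) - Real.log δ) := by
  obtain ⟨U, d, u1, u2, hd, hs, hc, -, e⟩ := min_spec h
  have q0 : ∀ i, δ / Fintype.card ι ≤ (1 - δ) * d i + δ / Fintype.card ι := fun i =>
    le_add_of_nonneg_left (mul_nonneg (sub_nonneg.2 h1) (hd i))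
  have q1 : ∀ i, 0 < (1 - δ) * d i + δ / Fintype.card ι := fun i => (div_pos h0 hc).trans_le (q0 i)
  have q2 : ∑ i, ((1 - δ) * d i + δ / Fintype.card ι) = 1 := by
    rw [Finset.sum_add_distrib, ← Finset.mul_sum, hs, Finset.sum_const, Finset.card_univ,
      nsmul_eq_mul, mul_div_cancel₀ _ hc.ne']
    ring
  have q3 : ∀ i, (1 - δ) * d i + δ / Fintype.card ι ≤ 1 := fun i =>
    (Finset.single_le_sum (f := fun i => (1 - δ) * d i + δ / Fintype.card ι)
      (fun i _ => (q1 i).le) (Finset.mem_univ i)).trans_eq q2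
  have q4 : ∀ i, |Real.log ((1 - δ) * d i + δ / Fintype.card ι)| ≤
      Real.log (Fintype.card ι) - Real.log δ := fun i => by
    have := Real.log_le_log (div_pos h0 hc) (q0 i)
    rw [Real.log_div h0.ne' hc.ne'] at this
    rw [abs_of_nonpos (Real.log_nonpos (q1 i).le (q3 i))]
    linarith
  have q5 : 0 ≤ Real.log (Fintype.card ι) - Real.log δ := by
    have : (1 : ℝ) ≤ Fintype.card ι := by exact_mod_cast Nat.cast_pos.1 hc
    exact sub_nonneg.2 (Real.log_le_log h0 (h1.trans this))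
  obtain ⟨S, hU, hh⟩ : ∃ S : Sp ι, S.U = U ∧
      S.h = fun i => Real.log ((1 - δ) * d i + δ / Fintype.card ι) :=
    ⟨⟨U, fun i => Real.log ((1 - δ) * d i + δ / Fintype.card ι), u1, u2,
      by simpa only [Real.exp_log (q1 _)] using q2⟩, rfl, rfl⟩
  refine ⟨S, ?_, ?_⟩
  · rw [e, Sp.rho, hU]
    simp only [Sp.p, hh, Real.exp_log (q1 _), R341.rdiag]
  · rw [← fr_hat S, Sp.hat, Sp.H, R341.conj_conj S.U1]
    refine (fr_le_of_entry _ _ q5 fun i j => ?_).trans_eq (by rw [Real.mul_self_sqrt hc.le])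
    by_cases hij : i = j
    · subst hij
      rw [diagonal_apply_eq, Complex.norm_real, Real.norm_eq_abs, hh]
      exact q4 i
    · rw [diagonal_apply_ne _ hij, norm_zero]
      exact q5

theorem vn_sp (S : Sp ι) : vnEntropy S.rho = -((S.rho * S.H).trace).re := by
  have hp : ∀ j, 0 ≤ S.p j := fun j => (S.p_pos j).le
  rw [min_trace, Sp.rho, R341.conj_conj S.U1, ← Finset.sum_neg_distrib]
  refine ((R341.vn_conj (R341.rdiag_psd hp) S.U1 S.U2).trans (R341.vn_rdiag hp)).trans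
    (Finset.sum_congr rfl fun j _ => ?_)
  rw [diagonal_apply_eq, Complex.ofReal_re, Real.negMulLog, Sp.p, Real.log_exp, neg_mul]

/-- Klein's inequality -/
theorem klein (S : Sp ι) {τ : Mat ι} (h : IsDensity τ) : vnEntropy τ ≤ -((τ * S.H).trace).re := by
  refine (R341.vn_le_diag_conj h.1 S.U1 S.U2).trans ((Finset.sum_le_sum fun j _ =>
    min_gibbs (R341.diag_re_nonneg (h.1.conjTranspose_mul_mul_same S.U) j) (S.h j)).trans_eq ?_)
  rw [Finset.sum_add_distrib, Finset.sum_sub_distrib, S.tr1, R341.sum_diag_conj S.U2, h.2,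
    Finset.sum_neg_distrib, min_trace]
  simp

theorem vn_nonneg' {ρ : Mat ι} (h : IsDensity ρ) : 0 ≤ vnEntropy ρ := by
  obtain ⟨U, d, -, -, hd, hs, -, e, -⟩ := min_spec h
  rw [e]
  exact Finset.sum_nonneg fun i _ => Real.negMulLog_nonneg (hd i)
    ((Finset.single_le_sum (fun i _ => hd i) (Finset.mem_univ i)).trans_eq hs)

theorem vn_le_log {ρ : Mat ι} (h : IsDensity ρ) : vnEntropy ρ ≤ Real.log (Fintype.card ι) := by
  obtain ⟨U, d, -, -, hd, hs, hc, e, -⟩ := min_spec h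
  rw [e]
  refine (Finset.sum_le_sum fun i _ => min_gibbs (hd i) (-Real.log (Fintype.card ι))).trans_eq ?_
  rw [Finset.sum_add_distrib, Finset.sum_sub_distrib, Finset.sum_neg_distrib, ← Finset.sum_mul, hs,
    Finset.sum_const, Finset.card_univ, nsmul_eq_mul, Real.exp_neg, Real.exp_log hc,
    mul_inv_cancel₀ hc.ne']
  ring

theorem mix_le {ρ : Mat ι} (h : IsDensity ρ) {δ : ℝ} (h0 : 0 ≤ δ) (h1 : δ ≤ 1) :
    vnEntropy (mixd δ ρ) ≤ vnEntropy ρ + Real.negMulLog δ + Real.negMulLog (1 - δ) +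
      δ * Real.log (Fintype.card ι) := by
  have hn := vn_nonneg' h
  obtain ⟨U, d, u1, u2, hd, hs, hc, hS, e⟩ := min_spec h
  have a : ∀ i, 0 ≤ (1 - δ) * d i := fun i => mul_nonneg (sub_nonneg.2 h1) (hd i)
  have b : 0 ≤ δ / Fintype.card ι := div_nonneg h0 hc.le
  have c : (Fintype.card ι : ℝ) * Real.negMulLog (δ / Fintype.card ι) =
      Real.negMulLog δ + δ * Real.log (Fintype.card ι) := by
    rcases h0.eq_or_lt with rfl | h0
    · simp
    · rw [Real.negMulLog, Real.negMulLog, Real.log_div h0.ne' hc.ne']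
      field_simp
      ring
  rw [e, R341.vn_conj (R341.rdiag_psd fun i => add_nonneg (a i) b) u1 u2,
    R341.vn_rdiag fun i => add_nonneg (a i) b]
  refine (Finset.sum_le_sum fun i _ => min_subadd (a i) b).trans ?_
  simp only [Finset.sum_add_distrib, Real.negMulLog_mul, ← Finset.sum_mul, ← Finset.mul_sum, hs,
    ← hS, Finset.sum_const, Finset.card_univ, nsmul_eq_mul, c]
  nlinarith [mul_nonneg h0 hn]

end Crest.Agent.R331.EP
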