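import Crest.Agent.R331.VarC

/-! Row 331, variational module, part D: Euler-Lagrange equation and Hessian inequality. -/

set_option autoImplicit false
set_option linter.unusedSectionVars false

namespace Crest.Agent.R331.Var

open Real Finset Matrix Crest.Quantum Crest.Agent.R341
open scoped ComplexOrder

section
variable {n : Type*} [Fintype n] [DecidableEq n]

theorem cj_affine {W : Matrix n n ℂ} (hW : Uni W) (h : n → ℝ) (a b : ℝ) :
    cj W (fun i => a * h i + b) = (a : ℂ) • cj W h + (b : ℂ) • (1 : Matrix n n ℂ) := by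
  have : rdiag (fun i => a * h i + b) = (a : ℂ) • rdiag h + (b : ℂ) • (1 : Matrix n n ℂ) := by
    ext i j
    by_cases hij : i = j
    · subst hij; simp [rdiag]
    · simp [rdiag, hij]
  rw [cj, cj, this, Matrix.mul_add, Matrix.add_mul, Matrix.mul_smul, Matrix.smul_mul,
    Matrix.mul_smul, Matrix.smul_mul, Matrix.mul_one, hW.h2]

theorem density_sum {V : Matrix n n ℂ} (hV : Uni V) {q : n → ℝ} (h : IsDensity (cj V q)) :
    ∑ i, q i = 1 := by
  have := h.2
  rw [trace_cj hV] at this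
  exact_mod_cast this

theorem density_cj {V : Matrix n n ℂ} (hV : Uni V) {q : n → ℝ} (h0 : ∀ i, 0 ≤ q i)
    (h : ∑ i, q i = 1) : IsDensity (cj V q) :=
  ⟨cj_psd V h0, by rw [trace_cj hV, h]; simp⟩

/-- Gibbs variational principle -/
theorem gibbs {ρ W : Matrix n n ℂ} (hρ : IsDensity ρ) (hW : Uni W) (h : n → ℝ) :
    vnEntropy ρ ≤ (ρ * cj W h).trace.re + log (∑ i, exp (-h i)) := by
  have hne : Nonempty n := by
    by_contra hc
    rw [not_nonempty_iff] at hc
    have := hρ.2
    simp [Matrix.trace] at this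
  set Z := ∑ i, exp (-h i) with hZ
  have hZ0 : 0 < Z := sum_pos (fun i _ => exp_pos _) univ_nonempty
  have k := klein hρ.1 hW (p := fun i => exp (-h i) / Z) fun i => by positivity
  have e1 : (cj W fun i => log (exp (-h i) / Z)) =
      ((-1 : ℝ) : ℂ) • cj W h + ((-log Z : ℝ) : ℂ) • (1 : Matrix n n ℂ) := by
    rw [← cj_affine hW]
    congr 1
    funext i
    rw [log_div (exp_pos _).ne' hZ0.ne', log_exp]; ring
  rw [e1, trace_cj hW, ← sum_div, ← hZ, div_self hZ0.ne', Matrix.mul_add, Matrix.mul_smul,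
    Matrix.mul_smul, Matrix.mul_one, trace_add, trace_smul, trace_smul, hρ.2, smul_eq_mul,
    smul_eq_mul, Complex.add_re, Complex.re_ofReal_mul, mul_one, Complex.ofReal_re] at k
  simp only [Complex.one_re, Complex.ofReal_re] at k
  linarith

theorem qf_herm_add {lam : n → n → ℝ} (hl : ∀ j k, lam j k = lam k j) {A B : Matrix n n ℂ}
    (hA : A.IsHermitian) (hB : B.IsHermitian) :
    qf lam (A + Complex.I • B) = qf lam A + qf lam B := by
  have h1 : qf lam (A + Complex.I • B) = ∑ j, ∑ k, lam j k * ‖(A + Complex.I • B) k j‖ ^ 2 := by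
    rw [qf, sum_comm]
    exact sum_congr rfl fun j _ => sum_congr rfl fun k _ => by rw [hl]
  have h2 : qf lam (A + Complex.I • B) + qf lam (A + Complex.I • B) =
      2 * (qf lam A + qf lam B) := by
    nth_rewrite 2 [h1]
    simp only [qf, ← sum_add_distrib, mul_sum]
    refine sum_congr rfl fun j _ => sum_congr rfl fun k _ => ?_
    rw [Matrix.add_apply, Matrix.add_apply, Matrix.smul_apply, Matrix.smul_apply,
      ← hA.apply k j, ← hB.apply k j]
    simp only [Complex.sq_norm, Complex.normSq_apply, smul_eq_mul, Complex.star_def,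
      Complex.add_re, Complex.add_im, Complex.mul_re, Complex.mul_im, Complex.I_re, Complex.I_im,
      Complex.conj_re, Complex.conj_im]
    ring
  linarith

theorem herm_decomp (Z : Matrix n n ℂ) :
    ∃ A B : Matrix n n ℂ, A.IsHermitian ∧ B.IsHermitian ∧ Z = A + Complex.I • B := by
  refine ⟨(1 / 2 : ℂ) • (Z + Zᴴ), (-Complex.I / 2) • (Z - Zᴴ), ?_, ?_, ?_⟩
  · unfold IsHermitian
    rw [conjTranspose_smul, conjTranspose_add, conjTranspose_conjTranspose, add_comm]
    simp
  · unfold IsHermitian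
    rw [conjTranspose_smul, conjTranspose_sub, conjTranspose_conjTranspose]
    ext i j
    simp
    ring
  · ext i j
    simp only [Matrix.add_apply, Matrix.smul_apply, Matrix.sub_apply, smul_eq_mul]
    linear_combination ((Z i j - Zᴴ i j) / 2) * Complex.I_mul_I

theorem trace_herm_real {A B : Matrix n n ℂ} (hA : A.IsHermitian) (hB : B.IsHermitian) :
    (((A * B).trace.re : ℝ) : ℂ) = (A * B).trace := by
  have : star (A * B).trace = (A * B).trace := by
    rw [← trace_conjTranspose, conjTranspose_mul, hA.eq, hB.eq, trace_mul_comm]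
  exact Complex.conj_eq_iff_re.1 this

theorem trace_hat {U : Matrix n n ℂ} (hU : Uni U) (A B : Matrix n n ℂ) :
    (A * B).trace = ∑ j, ∑ k, (Uᴴ * A * U) j k * (Uᴴ * B * U) k j := by
  have : (A * B).trace = ((Uᴴ * A * U) * (Uᴴ * B * U)).trace := by
    simp only [Matrix.mul_assoc]
    rw [← Matrix.mul_assoc U, hU.h2, Matrix.one_mul, trace_mul_comm Uᴴ]
    simp only [Matrix.mul_assoc]
    rw [hU.h2, Matrix.mul_one]
  rw [this]
  rfl

end

variable {I J : Type*} [Fintype I] [DecidableEq I] [Fintype J] [DecidableEq J]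

/-- the data of a one-sided minimisation problem -/
structure MinData (Φ : Matrix I I ℂ →ₗ[ℂ] Matrix J J ℂ) (E : Matrix J J ℂ →ₗ[ℂ] Matrix I I ℂ)
    (C0 : Matrix J J ℂ) (Γ : Matrix I I ℂ) (α : ℝ) (ρ : Matrix I I ℂ) : Prop where
  dual : ∀ Z r, (Z * Φ r).trace = (E Z * r).trace
  star : ∀ Z, E Zᴴ = (E Z)ᴴ
  dens : ∀ r, IsDensity r → IsDensity (Φ r + C0)
  herm : Γ.IsHermitian
  pos : 0 < α
  rho : IsDensity ρ
  mini : ∀ r, IsDensity r → vnEntropy (Φ ρ + C0) - α * vnEntropy ρ + (ρ * Γ).trace.re ≤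
    vnEntropy (Φ r + C0) - α * vnEntropy r + (r * Γ).trace.re

variable {Φ : Matrix I I ℂ →ₗ[ℂ] Matrix J J ℂ} {E : Matrix J J ℂ →ₗ[ℂ] Matrix I I ℂ}
  {C0 : Matrix J J ℂ} {Γ : Matrix I I ℂ} {α : ℝ} {V : Matrix I I ℂ} {q : I → ℝ}
  {U : Matrix J J ℂ} {p : J → ℝ}

theorem MinData.herm_E {ρ : Matrix I I ℂ} (h : MinData Φ E C0 Γ α ρ) {Z : Matrix J J ℂ}
    (hZ : Z.IsHermitian) : (E Z).IsHermitian := by
  unfold IsHermitian
  rw [← h.star, hZ.eq]

/-- Euler-Lagrange equation -/
theorem MinData.el (h : MinData Φ E C0 Γ α (cj V q)) (hV : Uni V) (hU : Uni U)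
    (hp : ∀ j, 0 < p j) (hC : Φ (cj V q) + C0 = cj U p) :
    (∀ i, 0 < q i) ∧ ∃ c : ℝ, (α : ℂ) • cj V (fun i => log (q i)) =
      E (cj U fun j => log (p j)) - Γ + (c : ℂ) • (1 : Matrix I I ℂ) := by
  set L := cj U fun j => log (p j) with hL
  have hα := h.pos
  have hH : (Γ - E L).IsHermitian := h.herm.sub (h.herm_E (cj_herm _ _))
  obtain ⟨W, g, hW, hg⟩ := exists_cj hH
  have hq := nonneg_of_cj_psd hV h.rho.1
  have hq1 := density_sum hV h.rho
  have hne : Nonempty I := by
    by_contra hc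
    rw [not_nonempty_iff] at hc
    simp at hq1
  set Z := ∑ i, exp (-(g i / α)) with hZ
  have hZ0 : 0 < Z := sum_pos (fun i _ => exp_pos _) univ_nonempty
  set s : I → ℝ := fun i => exp (-(g i / α)) / Z with hs
  have hs0 : ∀ i, 0 < s i := fun i => by positivity
  have hs1 : ∑ i, s i = 1 := by rw [hs, ← sum_div, ← hZ, div_self hZ0.ne']
  have hσ := density_cj hW (fun i => (hs0 i).le) hs1
  have e1 : (cj W fun i => log (s i)) =
      ((-α⁻¹ : ℝ) : ℂ) • (Γ - E L) + ((-log Z : ℝ) : ℂ) • (1 : Matrix I I ℂ) := by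
    rw [hg, ← cj_affine hW]
    congr 1
    funext i
    rw [hs]
    dsimp only
    rw [log_div (exp_pos _).ne' hZ0.ne', log_exp]; ring
  have tr1 : ∀ r : Matrix I I ℂ, IsDensity r → (r * cj W fun i => log (s i)).trace.re =
      -α⁻¹ * ((r * Γ).trace.re - (E L * r).trace.re) - log Z := by
    intro r hr
    rw [e1, Matrix.mul_add, Matrix.mul_smul, Matrix.mul_smul, Matrix.mul_one, trace_add,
      trace_smul, trace_smul, hr.2, smul_eq_mul, smul_eq_mul, Complex.add_re,
      Complex.re_ofReal_mul, mul_one, Complex.ofReal_re, Matrix.mul_sub, trace_sub,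
      Complex.sub_re, trace_mul_comm r (E L)]
    ring
  have tr2 : ∀ r : Matrix I I ℂ, ((Φ r + C0) * L).trace.re =
      (E L * r).trace.re + (C0 * L).trace.re := by
    intro r
    rw [Matrix.add_mul, trace_add, Complex.add_re, trace_mul_comm, h.dual]
  have k1 := klein (h.dens _ hσ).1 hU hp
  have k2 := vn_eq_log hU fun j => (hp j).le
  have k3 := vn_eq_log hW fun j => (hs0 j).le
  have k4 := h.mini _ hσ
  have t1 := (h.dens _ hσ).2
  have t2 := (h.dens _ h.rho).2
  rw [← hL, tr2, t1, ← hC, t2] at k1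
  rw [← hL, ← hC, tr2] at k2
  rw [tr1 _ hσ] at k3
  have key : -(cj V q * cj W fun j => log (s j)).trace.re - (cj V q).trace.re +
      (cj W s).trace.re ≤ vnEntropy (cj V q) := by
    rw [tr1 _ h.rho, h.rho.2, hσ.2]
    have a1 : α * α⁻¹ = 1 := mul_inv_cancel₀ hα.ne'
    refine le_of_mul_le_mul_left ?_ hα
    rw [k3] at k4
    linear_combination k4 + k1 - k2 +
      ((cj V q * Γ).trace.re - (E L * cj V q).trace.re -
        ((cj W s * Γ).trace.re - (E L * cj W s).trace.re)) * a1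
  obtain ⟨c1, c2⟩ := klein_eq hV hW hq hs0 key
  refine ⟨c1, -(α * log Z), ?_⟩
  rw [c2 log, e1, smul_add, smul_smul, smul_smul]
  have a1 : (α : ℂ) * ((-α⁻¹ : ℝ) : ℂ) = -1 := by
    have : (α : ℂ) ≠ 0 := by exact_mod_cast hα.ne'
    push_cast; field_simp
  rw [a1]
  congr 1
  · simp
  · push_cast; ring_nf

/-- Hessian inequality, primal form -/
theorem MinData.hess_primal (h : MinData Φ E C0 Γ α (cj V q)) (hV : Uni V) (hU : Uni U)
    (hp : ∀ j, 0 < p j) (hC : Φ (cj V q) + C0 = cj U p) {D : Matrix I I ℂ} (hD : D.IsHermitian)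
    (hD0 : D.trace = 0) :
    qf (fun j k => 1 / lm (p j) (p k)) (Uᴴ * Φ D * U) ≤
      α * qf (fun j k => 1 / lm (q j) (q k)) (Vᴴ * D * V) := by
  obtain ⟨hq, c, hel⟩ := h.el hV hU hp hC
  have hα := h.pos
  have hden : ∀ t : ℝ, (cj V q + (t : ℂ) • D).PosSemidef → IsDensity (cj V q + (t : ℂ) • D) :=
    fun t ht => ⟨ht, by rw [trace_add, trace_smul, hD0, h.rho.2]; simp⟩
  have hΦ : ∀ t : ℝ, Φ (cj V q + (t : ℂ) • D) + C0 = cj U p + (t : ℂ) • Φ D := by
    intro t
    rw [map_add, map_smul, ← hC]; abel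
  obtain ⟨δ0, hδ0, h0⟩ := second_order hV hq hD one_pos
  have ht0 : |δ0 / 2| < δ0 := by rw [abs_of_pos (by positivity)]; linarith
  have hd0 := h.dens _ (hden _ (h0 _ ht0).1)
  rw [hΦ] at hd0
  have hne : ((δ0 / 2 : ℝ) : ℂ) ≠ 0 := by exact_mod_cast (by positivity : δ0 / 2 ≠ 0)
  have hΦD : (Φ D).IsHermitian := by
    have a1 : (((δ0 / 2 : ℝ) : ℂ) • Φ D).IsHermitian := by
      have := hd0.1.1.sub (cj_herm U p)
      rwa [add_sub_cancel_left] at this
    have a2 := herm_smul a1 (δ0 / 2)⁻¹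
    rwa [smul_smul, ← Complex.ofReal_mul, inv_mul_cancel₀ (by positivity), Complex.ofReal_one,
      one_smul] at a2
  have hΦ0 : (Φ D).trace = 0 := by
    have a1 := hd0.2
    have a2 := (h.dens _ h.rho).2
    rw [hC] at a2
    rw [trace_add, a2, trace_smul, smul_eq_mul, add_eq_left] at a1
    exact (mul_eq_zero.1 a1).resolve_left hne
  have first : α * (D * cj V fun i => log (q i)).trace.re =
      (Φ D * cj U fun j => log (p j)).trace.re - (D * Γ).trace.re := by
    rw [← Complex.re_ofReal_mul, ← smul_eq_mul, ← trace_smul, ← Matrix.mul_smul, hel,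
      Matrix.mul_add, Matrix.mul_sub, Matrix.mul_smul, Matrix.mul_one, trace_add, trace_sub,
      trace_smul, hD0, smul_zero, add_zero, Complex.sub_re, trace_mul_comm (Φ D), h.dual,
      trace_mul_comm D]
  refine le_of_forall_pos_le_add fun ε hε => ?_
  set e := ε / (2 * (1 + α)) with he
  have he0 : 0 < e := by positivity
  obtain ⟨δ1, hδ1, h1⟩ := second_order hV hq hD he0
  obtain ⟨δ2, hδ2, h2⟩ := second_order hU hp hΦD he0
  set t := min δ1 δ2 / 2 with ht
  have htp : 0 < t := by positivity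
  have hm : 0 < min δ1 δ2 := by positivity
  have ht1 : |t| < δ1 := by
    rw [abs_of_pos htp]; have := min_le_left δ1 δ2; linarith
  have ht2 : |t| < δ2 := by
    rw [abs_of_pos htp]; have := min_le_right δ1 δ2; linarith
  obtain ⟨b1, b2⟩ := h1 t ht1
  obtain ⟨-, b3⟩ := h2 t ht2
  have k := h.mini _ (hden t b1)
  rw [hΦ, hC, Matrix.add_mul, trace_add, Matrix.smul_mul, trace_smul, smul_eq_mul,
    Complex.add_re, Complex.re_ofReal_mul] at k
  rw [hD0] at b2
  rw [hΦ0] at b3
  have b2' := (abs_le.1 b2).2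
  have b3' := (abs_le.1 b3).1
  simp only [Complex.zero_re, mul_zero, sub_zero] at b2' b3'
  have b4 := mul_le_mul_of_nonneg_left b2' hα.le
  have e2 : 2 * (1 + α) * e = ε := by rw [he]; field_simp
  refine le_of_mul_le_mul_left ?_ (pow_pos htp 2)
  linear_combination 2 * k + 2 * b3' + 2 * b4 + 2 * t * first + t ^ 2 * e2

/-- Hessian inequality for Hermitian observables -/
theorem MinData.hess_herm (h : MinData Φ E C0 Γ α (cj V q)) (hV : Uni V) (hU : Uni U)
    (hp : ∀ j, 0 < p j) (hC : Φ (cj V q) + C0 = cj U p) {Z : Matrix J J ℂ} (hZ : Z.IsHermitian) :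
    qf (fun j k => lm (q j) (q k))
        (Vᴴ * (E Z - (cj V q * E Z).trace • (1 : Matrix I I ℂ)) * V) ≤
      α * qf (fun j k => lm (p j) (p k)) (Uᴴ * Z * U) := by
  obtain ⟨hq, -⟩ := h.el hV hU hp hC
  have hα := h.pos
  have hEZ := h.herm_E hZ
  set m := (cj V q * E Z).trace with hm
  have hmr : ((m.re : ℝ) : ℂ) = m := trace_herm_real (cj_herm V q) hEZ
  have hY : (E Z - m • (1 : Matrix I I ℂ)).IsHermitian := by
    rw [← hmr]; exact hEZ.sub (herm_smul isHermitian_one _)
  set Y := Vᴴ * (E Z - m • (1 : Matrix I I ℂ)) * V with hYdef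
  have hYh : Y.IsHermitian := herm_conj hY V
  set K : Matrix I I ℂ := Matrix.of fun j k => (lm (q j) (q k) : ℂ) * Y j k with hK
  have hKh : K.IsHermitian := by
    ext j k
    rw [conjTranspose_apply, hK, of_apply, of_apply, star_mul', hYh.apply, lm_comm (hq k) (hq j)]
    simp
  set D := V * K * Vᴴ with hDdef
  have hD : D.IsHermitian := isHermitian_mul_mul_conjTranspose V hKh
  have hDK : Vᴴ * D * V = K := conj_conj hV.h1 K
  have hD0 : D.trace = 0 := by
    rw [hDdef, trace_conj hV.h1]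
    have a1 : K.trace = (cj V q * (E Z - m • (1 : Matrix I I ℂ))).trace := by
      rw [trace_hat hV, conj_cj hV, ← hYdef, Matrix.trace]
      refine sum_congr rfl fun j _ => ?_
      rw [diag_apply, hK, of_apply, lm_self (hq j), sum_eq_single j]
      · simp [rdiag]
      · intro k _ hk; simp [rdiag, Ne.symm hk]
      · simp
    rw [a1, Matrix.mul_sub, Matrix.mul_smul, Matrix.mul_one, trace_sub, trace_smul, h.rho.2, ← hm]
    simp
  have hprim := h.hess_primal hV hU hp hC hD hD0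
  set cov := qf (fun j k => lm (q j) (q k)) Y with hcov
  have q1 : qf (fun j k => 1 / lm (q j) (q k)) (Vᴴ * D * V) = cov := by
    rw [hDK, hcov, qf, qf]
    refine sum_congr rfl fun j _ => sum_congr rfl fun k _ => ?_
    have := lm_pos (hq j) (hq k)
    rw [hK, of_apply, norm_mul, mul_pow, Complex.norm_real, Real.norm_eq_abs, sq_abs]
    field_simp
  have q2 : (Z * Φ D).trace.re = cov := by
    have a1 : (E Z * D).trace = ((E Z - m • (1 : Matrix I I ℂ)) * D).trace := by
      rw [Matrix.sub_mul, Matrix.smul_mul, Matrix.one_mul, trace_sub, trace_smul, hD0]; simp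
    rw [h.dual, a1, trace_hat hV, hDK, ← hYdef, hcov, qf, Complex.re_sum]
    refine sum_congr rfl fun j _ => ?_
    rw [Complex.re_sum]
    refine sum_congr rfl fun k _ => ?_
    rw [hK, of_apply, ← hYh.apply k j, lm_comm (hq k) (hq j), mul_left_comm, Complex.star_def,
      Complex.mul_conj, ← Complex.ofReal_mul, Complex.ofReal_re, Complex.sq_norm]
  have q3 : (Z * Φ D).trace.re ≤ (α * qf (fun j k => lm (p j) (p k)) (Uᴴ * Z * U) +
      α⁻¹ * qf (fun j k => 1 / lm (p j) (p k)) (Uᴴ * Φ D * U)) / 2 := by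
    have a1 : qf (fun j k => 1 / lm (p j) (p k)) (Uᴴ * Φ D * U) =
        ∑ j, ∑ k, 1 / lm (p j) (p k) * ‖(Uᴴ * Φ D * U) k j‖ ^ 2 := by
      rw [qf, sum_comm]
      exact sum_congr rfl fun j _ => sum_congr rfl fun k _ => by rw [lm_comm (hp k) (hp j)]
    rw [trace_hat hU, a1, qf, mul_sum, mul_sum, ← sum_add_distrib, sum_div, Complex.re_sum]
    refine sum_le_sum fun j _ => ?_
    rw [mul_sum, mul_sum, ← sum_add_distrib, sum_div, Complex.re_sum]
    refine sum_le_sum fun k _ => ?_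
    refine (Complex.re_le_norm _).trans ?_
    rw [norm_mul]
    have hl := lm_pos (hp j) (hp k)
    set x := ‖(Uᴴ * Z * U) j k‖
    set y := ‖(Uᴴ * Φ D * U) k j‖
    set l := lm (p j) (p k)
    have : 0 ≤ (α * l * x - y) ^ 2 / (α * l) := by positivity
    have e : (α * (l * x ^ 2) + α⁻¹ * (1 / l * y ^ 2)) / 2 - x * y =
        (α * l * x - y) ^ 2 / (α * l) / 2 := by field_simp; ring
    linarith
  rw [q1] at hprim
  have q4 : α⁻¹ * qf (fun j k => 1 / lm (p j) (p k)) (Uᴴ * Φ D * U) ≤ cov := by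
    rw [inv_mul_le_iff₀ hα]; exact hprim
  linarith

/-- Hessian inequality (BKM covariance) -/
theorem MinData.hess (h : MinData Φ E C0 Γ α (cj V q)) (hV : Uni V) (hU : Uni U)
    (hp : ∀ j, 0 < p j) (hC : Φ (cj V q) + C0 = cj U p) (Z : Matrix J J ℂ) :
    qf (fun j k => lm (q j) (q k))
        (Vᴴ * (E Z - (cj V q * E Z).trace • (1 : Matrix I I ℂ)) * V) ≤
      α * qf (fun j k => lm (p j) (p k)) (Uᴴ * Z * U) := by
  obtain ⟨hq, -⟩ := h.el hV hU hp hC
  obtain ⟨A, B, hA, hB, rfl⟩ := herm_decomp Z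
  have hY : ∀ {X : Matrix J J ℂ}, X.IsHermitian →
      (Vᴴ * (E X - (cj V q * E X).trace • (1 : Matrix I I ℂ)) * V).IsHermitian := by
    intro X hX
    refine herm_conj ?_ V
    rw [← trace_herm_real (cj_herm V q) (h.herm_E hX)]
    exact (h.herm_E hX).sub (herm_smul isHermitian_one _)
  have e1 : Vᴴ * (E (A + Complex.I • B) - (cj V q * E (A + Complex.I • B)).trace •
      (1 : Matrix I I ℂ)) * V =
      Vᴴ * (E A - (cj V q * E A).trace • (1 : Matrix I I ℂ)) * V +
        Complex.I • (Vᴴ * (E B - (cj V q * E B).trace • (1 : Matrix I I ℂ)) * V) := by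
    rw [← Matrix.smul_mul, ← Matrix.mul_smul, ← Matrix.add_mul, ← Matrix.mul_add, map_add,
      map_smul, Matrix.mul_add (cj V q), Matrix.mul_smul, trace_add, trace_smul, add_smul,
      smul_sub, smul_smul, smul_eq_mul]
    congr 2
    abel
  have e2 : Uᴴ * (A + Complex.I • B) * U = Uᴴ * A * U + Complex.I • (Uᴴ * B * U) := by
    rw [Matrix.mul_add, Matrix.add_mul, Matrix.mul_smul, Matrix.smul_mul]
  rw [e1, e2, qf_herm_add (fun j k => lm_comm (hq j) (hq k)) (hY hA) (hY hB),
    qf_herm_add (fun j k => lm_comm (hp j) (hp k)) (herm_conj hA U) (herm_conj hB U), mul_add]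
  exact add_le_add (h.hess_herm hV hU hp hC hA) (h.hess_herm hV hU hp hC hB)

end Crest.Agent.R331.Var
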