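import Crest.Agent.R331.Min
import Crest.Agent.R331.VarD

set_option autoImplicit false

open Matrix Kronecker Crest.Quantum Crest.MathPhysics.Bosonic
open scoped ComplexOrder

namespace Crest.Agent.R331.EP

variable {ι : Type} [Fintype ι] [DecidableEq ι]

theorem vn_cont : ContinuousOn (fun ρ : Mat ι => vnEntropy ρ) {ρ | IsDensity ρ} :=
  Var.continuousOn_vn.mono fun _ h => h.1

theorem exists_min [Nonempty ι] (F : Mat ι × Mat ι → ℝ)
    (hF : ContinuousOn F {r | IsDensity r.1 ∧ IsDensity r.2}) :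
    ∃ ρ1 ρ2 : Mat ι, IsDensity ρ1 ∧ IsDensity ρ2 ∧
      ∀ r1 r2 : Mat ι, IsDensity r1 → IsDensity r2 → F (ρ1, ρ2) ≤ F (r1, r2) := by
  have hc : IsCompact {r : Mat ι × Mat ι | IsDensity r.1 ∧ IsDensity r.2} :=
    (Var.isCompact_density (n := ι)).prod (Var.isCompact_density (n := ι))
  have hU : Var.Uni (1 : Mat ι) := ⟨by simp, by simp⟩
  have hN : (0 : ℝ) < Fintype.card ι := by exact_mod_cast Fintype.card_pos
  have hd : IsDensity (Var.cj (1 : Mat ι) fun _ => (Fintype.card ι : ℝ)⁻¹) :=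
    Var.density_cj hU (fun _ => by positivity) (by simp [hN.ne'])
  obtain ⟨r, hr, hmin⟩ := hc.exists_isMinOn ⟨(_, _), hd, hd⟩ hF
  exact ⟨r.1, r.2, hr.1, hr.2, fun r1 r2 h1 h2 => hmin (a := (r1, r2)) ⟨h1, h2⟩⟩

/-- first and second order conditions at a minimiser -/
theorem el_sp {A C : Type} [Fintype A] [DecidableEq A] [Fintype C] [DecidableEq C]
    (Φ : Mat A →ₗ[ℂ] Mat C) (E : Mat C →ₗ[ℂ] Mat A)
    (hE : ∀ Z r, (Z * Φ r).trace = (E Z * r).trace) (hEh : ∀ Z, E Zᴴ = (E Z)ᴴ) (C0 : Mat C)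
    (hΦ : ∀ r, IsDensity r → IsDensity (Φ r + C0)) (W : Mat A) (hW : Wᴴ = W) (lam : ℝ)
    (hl : 0 < lam) (ρ : Mat A) (hρ : IsDensity ρ) (SC : Sp C) (hC : SC.rho = Φ ρ + C0)
    (hmin : ∀ r, IsDensity r → vnEntropy (Φ ρ + C0) - lam * vnEntropy ρ + (ρ * W).trace.re ≤
      vnEntropy (Φ r + C0) - lam * vnEntropy r + (r * W).trace.re) :
    ∃ SA : Sp A, SA.rho = ρ ∧
      (∃ k : ℝ, (lam : ℂ) • SA.H = E SC.H - W + (k : ℂ) • (1 : Mat A)) ∧
      ∀ Z, SA.qf LM (cen ρ (E Z)) ≤ lam * SC.qf LM Z := by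
  obtain ⟨V, q, hV, -, rfl⟩ := Var.exists_cj_psd hρ.1
  have h : Var.MinData Φ E C0 W lam (Var.cj V q) := ⟨hE, hEh, hΦ, hW, hl, hρ, hmin⟩
  have hU : Var.Uni SC.U := ⟨SC.U1, SC.U2⟩
  have hp : ∀ j, 0 < SC.p j := fun j => Real.exp_pos _
  have hC' : Φ (Var.cj V q) + C0 = Var.cj SC.U SC.p := hC.symm
  obtain ⟨hq, c, hel⟩ := h.el hV hU hp hC'
  have hexp : ∀ j, Real.exp (Real.log (q j)) = q j := fun j => Real.exp_log (hq j)
  let SA : Sp A := ⟨V, fun j => Real.log (q j), hV.h1, hV.h2, by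
    simp only [hexp]; exact Var.density_sum hV hρ⟩
  have hpA : SA.p = q := funext hexp
  have hH : (Var.cj SC.U fun j => Real.log (SC.p j)) = SC.H := by
    have : (fun j => Real.log (SC.p j)) = SC.h := funext fun j => Real.log_exp _
    rw [this]; rfl
  refine ⟨SA, ?_, ⟨c, ?_⟩, fun Z => ?_⟩
  · change Var.cj V SA.p = _
    rw [hpA]
  · rw [← hH]; exact hel
  · have := h.hess hV hU hp hC' Z
    change Var.qf (fun j k => Var.lm (SA.p j) (SA.p k)) _ ≤ _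
    rw [hpA]
    exact this

end Crest.Agent.R331.EP
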