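import Mathlib
import Crest.Prelude.Def_Bosonic

/-!
Row 331, endgame by a one-parameter path (real-variable part).

Fix `cA, cB > 0` and `η ∈ [0,1]`.  Along `s` the thermal inputs have inverse temperatures
`cA s`, `cB s`; the weights `lA = η / cA`, `lB = (1-η) / cB` are constant (`lX bX = ηX s`);
`pathNC` is the output photon number, `pathEps s = s - b(NC s)` the energy penalty and `pathM` the
thermal value of `S(C) - lA S(A) - lB S(B) + eps (η EA + (1-η) EB)` per mode.
-/

set_option autoImplicit false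

namespace Crest.Agent.R331

open Set Filter Topology Crest.MathPhysics.Bosonic

/-- photon number of the thermal state with inverse temperature `b`. -/
noncomputable def pathNb (b : ℝ) : ℝ := 1 / (Real.exp b - 1)

/-- inverse temperature of the thermal state with photon number `N`. -/
noncomputable def pathB (N : ℝ) : ℝ := Real.log (1 + 1 / N)

noncomputable def pathNC (η cA cB s : ℝ) : ℝ := η * pathNb (cA * s) + (1 - η) * pathNb (cB * s)

noncomputable def pathEps (η cA cB s : ℝ) : ℝ := s - pathB (pathNC η cA cB s)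

noncomputable def pathM (η cA cB s : ℝ) : ℝ :=
  Real.log (1 + pathNC η cA cB s) - η / cA * Real.log (1 + pathNb (cA * s))
    - (1 - η) / cB * Real.log (1 + pathNb (cB * s))

theorem exp_sub_one_pos' {b : ℝ} (hb : 0 < b) : 0 < Real.exp b - 1 := by
  have := Real.add_one_lt_exp hb.ne'
  linarith

theorem pathNb_pos {b : ℝ} (hb : 0 < b) : 0 < pathNb b :=
  one_div_pos.2 (exp_sub_one_pos' hb)

theorem pathB_pos {N : ℝ} (hN : 0 < N) : 0 < pathB N :=
  Real.log_pos (by have := one_div_pos.2 hN; linarith)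

theorem pathB_Nb {b : ℝ} (_hb : 0 < b) : pathB (pathNb b) = b := by
  unfold pathB pathNb
  rw [one_div_one_div]
  simp

theorem pathNb_B {N : ℝ} (hN : 0 < N) : pathNb (pathB N) = N := by
  unfold pathB pathNb
  rw [Real.exp_log (by have := one_div_pos.2 hN; linarith)]
  simp

theorem pathNb_anti {b b' : ℝ} (hb : 0 < b) (h : b ≤ b') : pathNb b' ≤ pathNb b := by
  unfold pathNb
  apply one_div_le_one_div_of_le (exp_sub_one_pos' hb)
  have := Real.exp_le_exp.2 h
  linarith

theorem pathB_anti {N N' : ℝ} (hN : 0 < N) (h : N ≤ N') : pathB N' ≤ pathB N := by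
  unfold pathB
  have h1 : 0 < 1 / N' := one_div_pos.2 (lt_of_lt_of_le hN h)
  apply Real.log_le_log (by linarith)
  have := one_div_le_one_div_of_le hN h
  linarith

theorem pathB_eq {N : ℝ} (hN : 0 < N) : pathB N = Real.log (N + 1) - Real.log N := by
  unfold pathB
  rw [← Real.log_div (by linarith) hN.ne']
  congr 1
  field_simp

theorem gBose_eq_pathB {N : ℝ} (hN : 0 < N) :
    gBose N = Real.log (1 + N) + N * pathB N := by
  rw [pathB_eq hN, gBose, add_comm 1 N]
  ring

theorem tendsto_pathNb : Tendsto pathNb atTop (𝓝 0) := by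
  have h : Tendsto (fun b => Real.exp b - 1) atTop atTop :=
    tendsto_atTop_add_const_right _ (-1) Real.tendsto_exp_atTop
  have := h.inv_tendsto_atTop
  refine this.congr fun b => ?_
  simp [pathNb]

theorem hasDerivAt_pathNb {b : ℝ} (hb : 0 < b) :
    HasDerivAt pathNb (-(pathNb b * (pathNb b + 1))) b := by
  have h0 := exp_sub_one_pos' hb
  have h1 : HasDerivAt (fun x => Real.exp x - 1) (Real.exp b) b :=
    (Real.hasDerivAt_exp b).sub_const 1
  have h2 := h1.inv h0.ne'
  have h3 : pathNb = fun x => (Real.exp x - 1)⁻¹ := by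
    funext x; simp [pathNb]
  have h4 : -(pathNb b * (pathNb b + 1)) = -Real.exp b / (Real.exp b - 1) ^ 2 := by
    unfold pathNb
    field_simp
    ring
  rw [h4, h3]
  exact h2

theorem hasDerivAt_pathB {N : ℝ} (hN : 0 < N) :
    HasDerivAt pathB (-(1 / (N * (N + 1)))) N := by
  have h1 : HasDerivAt (fun x => Real.log (x + 1) - Real.log x) (1 / (N + 1) - N⁻¹) N := by
    have a1 : HasDerivAt (fun x : ℝ => x + 1) 1 N := (hasDerivAt_id N).add_const 1
    exact (a1.log (by linarith)).sub (Real.hasDerivAt_log hN.ne')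
  have h2 : pathB =ᶠ[𝓝 N] fun x => Real.log (x + 1) - Real.log x := by
    filter_upwards [Ioi_mem_nhds hN] with x hx using pathB_eq hx
  refine (h1.congr_of_eventuallyEq h2).congr_deriv ?_
  field_simp
  ring

theorem two_pathB_le {N : ℝ} (hN : 0 < N) : 2 * pathB N ≤ (2 * N + 1) / (N * (N + 1)) := by
  have h1 : 0 < 1 + 1 / N := by have := one_div_pos.2 hN; linarith
  have h2 : pathB N ≤ Real.sinh (pathB N) := Real.self_le_sinh_iff.2 (pathB_pos hN).le
  have h3 : Real.sinh (pathB N) = ((1 + 1 / N) - (1 + 1 / N)⁻¹) / 2 := Real.sinh_log h1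
  have h4 : ((1 + 1 / N) - (1 + 1 / N)⁻¹) = (2 * N + 1) / (N * (N + 1)) := by
    field_simp
    ring
  rw [h3, h4] at h2
  linarith

/-- `N (N+1) log (1 + 1/N)` is concave. -/
theorem concaveOn_PB : ConcaveOn ℝ (Ioi 0) (fun N : ℝ => N * (N + 1) * pathB N) := by
  have d1 : ∀ x : ℝ, 0 < x → HasDerivAt (fun N : ℝ => N * (N + 1) * pathB N)
      ((2 * x + 1) * pathB x - 1) x := by
    intro x hx
    have a1 : HasDerivAt (fun N : ℝ => N * (N + 1)) (1 * (x + 1) + x * 1) x :=
      (hasDerivAt_id x).mul ((hasDerivAt_id x).add_const 1)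
    refine (a1.mul (hasDerivAt_pathB hx)).congr_deriv ?_
    field_simp
    ring
  have d2 : ∀ x : ℝ, 0 < x → HasDerivAt (fun x : ℝ => (2 * x + 1) * pathB x - 1)
      (2 * pathB x - (2 * x + 1) / (x * (x + 1))) x := by
    intro x hx
    have a1 : HasDerivAt (fun N : ℝ => 2 * N + 1) (2 * 1) x :=
      ((hasDerivAt_id x).const_mul 2).add_const 1
    refine ((a1.mul (hasDerivAt_pathB hx)).sub_const 1).congr_deriv ?_
    field_simp
    ring
  refine concaveOn_of_hasDerivWithinAt2_nonpos (convex_Ioi 0)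
    (f' := fun x => (2 * x + 1) * pathB x - 1)
    (f'' := fun x => 2 * pathB x - (2 * x + 1) / (x * (x + 1))) ?_ ?_ ?_ ?_
  · intro x hx
    exact (d1 x hx).continuousAt.continuousWithinAt
  · intro x hx
    rw [interior_Ioi] at hx
    exact (d1 x hx).hasDerivWithinAt
  · intro x hx
    rw [interior_Ioi] at hx
    exact (d2 x hx).hasDerivWithinAt
  · intro x hx
    rw [interior_Ioi] at hx
    have := two_pathB_le hx
    linarith

section path

variable {η cA cB : ℝ}

theorem pathNC_pos (hη : η ∈ Icc (0 : ℝ) 1) (hA : 0 < cA) (hB : 0 < cB) {s : ℝ} (hs : 0 < s) :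
    0 < pathNC η cA cB s := by
  have h1 := pathNb_pos (mul_pos hA hs)
  have h2 := pathNb_pos (mul_pos hB hs)
  unfold pathNC
  rcases eq_or_lt_of_le hη.1 with h | h
  · rw [← h]; simpa using h2
  · have := mul_pos h h1
    have := mul_nonneg (sub_nonneg.2 hη.2) h2.le
    linarith

theorem pathNC_anti (hη : η ∈ Icc (0 : ℝ) 1) (hA : 0 < cA) (hB : 0 < cB) {s s' : ℝ}
    (hs : 0 < s) (h : s ≤ s') : pathNC η cA cB s' ≤ pathNC η cA cB s := by
  unfold pathNC
  have h1 := pathNb_anti (mul_pos hA hs) (mul_le_mul_of_nonneg_left h hA.le)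
  have h2 := pathNb_anti (mul_pos hB hs) (mul_le_mul_of_nonneg_left h hB.le)
  have := mul_le_mul_of_nonneg_left h1 hη.1
  have := mul_le_mul_of_nonneg_left h2 (sub_nonneg.2 hη.2)
  linarith

theorem tendsto_pathNC (hA : 0 < cA) (hB : 0 < cB) :
    Tendsto (pathNC η cA cB) atTop (𝓝 0) := by
  have h1 := (tendsto_pathNb.comp (tendsto_id.const_mul_atTop hA)).const_mul η
  have h2 := (tendsto_pathNb.comp (tendsto_id.const_mul_atTop hB)).const_mul (1 - η)
  have := h1.add h2
  simp only [mul_zero, add_zero] at this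
  exact this

/-- derivative of the output photon number -/
noncomputable def pathNC' (η cA cB s : ℝ) : ℝ :=
  -(η * cA * (pathNb (cA * s) * (pathNb (cA * s) + 1))
    + (1 - η) * cB * (pathNb (cB * s) * (pathNb (cB * s) + 1)))

theorem hasDerivAt_pathNb_mul {c s : ℝ} (hc : 0 < c) (hs : 0 < s) :
    HasDerivAt (fun t => pathNb (c * t)) (-(pathNb (c * s) * (pathNb (c * s) + 1)) * c) s := by
  have a1 : HasDerivAt (fun t : ℝ => c * t) c s := by
    simpa using (hasDerivAt_id s).const_mul c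
  exact (hasDerivAt_pathNb (mul_pos hc hs)).comp s a1

theorem hasDerivAt_pathNC (hA : 0 < cA) (hB : 0 < cB) {s : ℝ} (hs : 0 < s) :
    HasDerivAt (pathNC η cA cB) (pathNC' η cA cB s) s := by
  have h1 := ((hasDerivAt_pathNb_mul hA hs).const_mul η).add
    ((hasDerivAt_pathNb_mul hB hs).const_mul (1 - η))
  refine HasDerivAt.congr_deriv h1 ?_
  unfold pathNC'
  ring

/-- derivative of the output inverse temperature -/
noncomputable def pathBC' (η cA cB s : ℝ) : ℝ :=
  -(1 / (pathNC η cA cB s * (pathNC η cA cB s + 1))) * pathNC' η cA cB s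

theorem hasDerivAt_pathBC (hη : η ∈ Icc (0 : ℝ) 1) (hA : 0 < cA) (hB : 0 < cB) {s : ℝ}
    (hs : 0 < s) :
    HasDerivAt (fun t => pathB (pathNC η cA cB t)) (pathBC' η cA cB s) s :=
  (hasDerivAt_pathB (pathNC_pos hη hA hB hs)).comp s (hasDerivAt_pathNC hA hB hs)

theorem pathBC'_mul_le (hη : η ∈ Icc (0 : ℝ) 1) (hA : 0 < cA) (hB : 0 < cB) {s : ℝ}
    (hs : 0 < s) : pathBC' η cA cB s * s ≤ pathB (pathNC η cA cB s) := by
  have hC := pathNC_pos hη hA hB hs
  have hNA := pathNb_pos (mul_pos hA hs)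
  have hNB := pathNb_pos (mul_pos hB hs)
  have hcv := concaveOn_PB.2 (mem_Ioi.2 hNA) (mem_Ioi.2 hNB) hη.1 (sub_nonneg.2 hη.2)
    (by ring)
  simp only [smul_eq_mul] at hcv
  rw [pathB_Nb (mul_pos hA hs), pathB_Nb (mul_pos hB hs)] at hcv
  have hP : 0 < pathNC η cA cB s * (pathNC η cA cB s + 1) := by positivity
  have e : pathBC' η cA cB s * s =
      (η * (pathNb (cA * s) * (pathNb (cA * s) + 1) * (cA * s))
        + (1 - η) * (pathNb (cB * s) * (pathNb (cB * s) + 1) * (cB * s)))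
        / (pathNC η cA cB s * (pathNC η cA cB s + 1)) := by
    unfold pathBC' pathNC'
    field_simp
  rw [e, div_le_iff₀ hP]
  refine hcv.trans (le_of_eq ?_)
  unfold pathNC
  ring

/-- `b_C(s) / s` is nonincreasing, i.e. `κ(s) = s / b_C(s)` is nondecreasing. -/
theorem pathBC_div_anti (hη : η ∈ Icc (0 : ℝ) 1) (hA : 0 < cA) (hB : 0 < cB) {s s' : ℝ}
    (hs : 0 < s) (h : s ≤ s') :
    pathB (pathNC η cA cB s') / s' ≤ pathB (pathNC η cA cB s) / s := by
  have d : ∀ x : ℝ, 0 < x → HasDerivAt (fun t => pathB (pathNC η cA cB t) / t)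
      ((pathBC' η cA cB x * x - pathB (pathNC η cA cB x) * 1) / x ^ 2) x := fun x hx =>
    (hasDerivAt_pathBC hη hA hB hx).div (hasDerivAt_id x) hx.ne'
  have hm : AntitoneOn (fun t => pathB (pathNC η cA cB t) / t) (Ioi 0) := by
    refine antitoneOn_of_deriv_nonpos (convex_Ioi 0)
      (fun y hy => (d y hy).continuousAt.continuousWithinAt)
      (fun y hy => ?_) (fun y hy => ?_)
    · rw [interior_Ioi] at hy
      exact (d y hy).differentiableAt.differentiableWithinAt
    · rw [interior_Ioi] at hy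
      rw [(d y hy).deriv]
      apply div_nonpos_of_nonpos_of_nonneg _ (sq_nonneg y)
      have := pathBC'_mul_le hη hA hB hy
      linarith
  exact hm (mem_Ioi.2 hs) (mem_Ioi.2 (lt_of_lt_of_le hs h)) h

/-- the penalty grows at least linearly. -/
theorem pathEps_ge (hη : η ∈ Icc (0 : ℝ) 1) (hA : 0 < cA) (hB : 0 < cB) {s s' : ℝ}
    (hs : 0 < s) (h : s ≤ s') : pathEps η cA cB s / s * s' ≤ pathEps η cA cB s' := by
  have hs' : 0 < s' := lt_of_lt_of_le hs h
  have h1 := pathBC_div_anti hη hA hB hs h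
  rw [div_le_iff₀ hs'] at h1
  unfold pathEps
  rw [sub_div, div_self hs.ne']
  linarith

theorem pathEps_pos (hη : η ∈ Icc (0 : ℝ) 1) (hA : 0 < cA) (hB : 0 < cB) {s0 s : ℝ}
    (hs : 0 < s0) (h0 : 0 < pathEps η cA cB s0) (h : s0 ≤ s) : 0 < pathEps η cA cB s :=
  lt_of_lt_of_le (mul_pos (div_pos h0 hs) (lt_of_lt_of_le hs h)) (pathEps_ge hη hA hB hs h)

theorem tendsto_pathEps (hη : η ∈ Icc (0 : ℝ) 1) (hA : 0 < cA) (hB : 0 < cB) {s0 : ℝ}
    (hs : 0 < s0) (h0 : 0 < pathEps η cA cB s0) : Tendsto (pathEps η cA cB) atTop atTop := by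
  refine tendsto_atTop_mono' _ ?_ (tendsto_id.const_mul_atTop (div_pos h0 hs))
  filter_upwards [eventually_ge_atTop s0] with s h using pathEps_ge hη hA hB hs h

theorem pathEps_sub_le (hη : η ∈ Icc (0 : ℝ) 1) (hA : 0 < cA) (hB : 0 < cB) {s s' : ℝ}
    (hs : 0 < s) (h : s ≤ s') : pathEps η cA cB s' - pathEps η cA cB s ≤ s' - s := by
  have := pathB_anti (pathNC_pos hη hA hB (lt_of_lt_of_le hs h)) (pathNC_anti hη hA hB hs h)
  unfold pathEps
  linarith

theorem hasDerivAt_pathEps (hη : η ∈ Icc (0 : ℝ) 1) (hA : 0 < cA) (hB : 0 < cB) {s : ℝ}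
    (hs : 0 < s) : HasDerivAt (pathEps η cA cB) (1 - pathBC' η cA cB s) s :=
  (hasDerivAt_id s).sub (hasDerivAt_pathBC hη hA hB hs)

theorem pathBC'_le_one (hη : η ∈ Icc (0 : ℝ) 1) (hA : 0 < cA) (hB : 0 < cB) {s : ℝ}
    (hs : 0 < s) (h0 : 0 ≤ pathEps η cA cB s) : pathBC' η cA cB s ≤ 1 := by
  have h1 := pathBC'_mul_le hη hA hB hs
  unfold pathEps at h0
  have h2 : pathBC' η cA cB s * s ≤ 1 * s := by linarith
  exact le_of_mul_le_mul_right h2 hs

theorem pathEps_mono (hη : η ∈ Icc (0 : ℝ) 1) (hA : 0 < cA) (hB : 0 < cB) {s s' : ℝ}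
    (hs : 0 < s) (h0 : 0 ≤ pathEps η cA cB s) (h : s ≤ s') :
    pathEps η cA cB s ≤ pathEps η cA cB s' := by
  refine le_trans ?_ (pathEps_ge hη hA hB hs h)
  have := mul_le_mul_of_nonneg_left h (div_nonneg h0 hs.le)
  rwa [div_mul_cancel₀ _ hs.ne'] at this

theorem hasDerivAt_log_pathNb_mul {c s : ℝ} (hc : 0 < c) (hs : 0 < s) :
    HasDerivAt (fun t => Real.log (1 + pathNb (c * t))) (-(c * pathNb (c * s))) s := by
  have hN := pathNb_pos (mul_pos hc hs)
  have h1 := ((hasDerivAt_pathNb_mul hc hs).const_add 1).log (by linarith)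
  refine h1.congr_deriv ?_
  field_simp
  ring

theorem hasDerivAt_pathM (hη : η ∈ Icc (0 : ℝ) 1) (hA : 0 < cA) (hB : 0 < cB) {s : ℝ}
    (hs : 0 < s) :
    HasDerivAt (pathM η cA cB) (pathNC η cA cB s * (1 - pathBC' η cA cB s)) s := by
  have hC := pathNC_pos hη hA hB hs
  have h1 := ((hasDerivAt_pathNC (η := η) hA hB hs).const_add 1).log (by linarith)
  have h2 := (hasDerivAt_log_pathNb_mul hA hs).const_mul (η / cA)
  have h3 := (hasDerivAt_log_pathNb_mul hB hs).const_mul ((1 - η) / cB)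
  refine ((h1.sub h2).sub h3).congr_deriv ?_
  have e : pathNC η cA cB s = η * pathNb (cA * s) + (1 - η) * pathNb (cB * s) := rfl
  have e2 : η / cA * -(cA * pathNb (cA * s)) = -(η * pathNb (cA * s)) := by field_simp
  have e3 : (1 - η) / cB * -(cB * pathNb (cB * s)) = -((1 - η) * pathNb (cB * s)) := by
    field_simp
  rw [e2, e3]
  have e4 : pathNC η cA cB s * (1 - pathBC' η cA cB s)
      = pathNC' η cA cB s / (1 + pathNC η cA cB s) + pathNC η cA cB s := by
    unfold pathBC'
    field_simp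
    ring
  rw [e4, e]
  ring

theorem pathM_step (hη : η ∈ Icc (0 : ℝ) 1) (hA : 0 < cA) (hB : 0 < cB) {s s' : ℝ}
    (hs : 0 < s) (h0 : 0 ≤ pathEps η cA cB s) (h : s ≤ s') :
    (pathEps η cA cB s' - pathEps η cA cB s) * pathNC η cA cB s'
      ≤ pathM η cA cB s' - pathM η cA cB s := by
  have d : ∀ x : ℝ, 0 < x → HasDerivAt
      (fun t => pathM η cA cB t - pathNC η cA cB s' * pathEps η cA cB t)
      (pathNC η cA cB x * (1 - pathBC' η cA cB x)
        - pathNC η cA cB s' * (1 - pathBC' η cA cB x)) x := fun x hx =>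
    (hasDerivAt_pathM hη hA hB hx).sub ((hasDerivAt_pathEps hη hA hB hx).const_mul _)
  have hm : MonotoneOn (fun t => pathM η cA cB t - pathNC η cA cB s' * pathEps η cA cB t)
      (Icc s s') := by
    refine monotoneOn_of_deriv_nonneg (convex_Icc s s')
      (fun y hy => (d y (lt_of_lt_of_le hs hy.1)).continuousAt.continuousWithinAt)
      (fun y hy => ?_) (fun y hy => ?_)
    · have hy' := interior_subset hy
      exact (d y (lt_of_lt_of_le hs hy'.1)).differentiableAt.differentiableWithinAt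
    · have hy' := interior_subset hy
      have hy0 : 0 < y := lt_of_lt_of_le hs hy'.1
      rw [(d y hy0).deriv, ← sub_mul]
      apply mul_nonneg
      · exact sub_nonneg.2 (pathNC_anti hη hA hB hy0 hy'.2)
      · exact sub_nonneg.2
          (pathBC'_le_one hη hA hB hy0 (h0.trans (pathEps_mono hη hA hB hs h0 hy'.1)))
  have := hm (left_mem_Icc.2 h) (right_mem_Icc.2 h) h
  simp only at this
  linarith

theorem pathM_le (hη : η ∈ Icc (0 : ℝ) 1) (hA : 0 < cA) (hB : 0 < cB) {s : ℝ} (hs : 0 < s) :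
    pathM η cA cB s ≤ pathNC η cA cB s := by
  have hC := pathNC_pos hη hA hB hs
  have h1 : Real.log (1 + pathNC η cA cB s) ≤ pathNC η cA cB s := by
    have := Real.log_le_sub_one_of_pos (show 0 < 1 + pathNC η cA cB s by linarith)
    linarith
  have h2 : 0 ≤ η / cA * Real.log (1 + pathNb (cA * s)) :=
    mul_nonneg (div_nonneg hη.1 hA.le)
      (Real.log_nonneg (by have := pathNb_pos (mul_pos hA hs); linarith))
  have h3 : 0 ≤ (1 - η) / cB * Real.log (1 + pathNb (cB * s)) :=
    mul_nonneg (div_nonneg (sub_nonneg.2 hη.2) hB.le)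
      (Real.log_nonneg (by have := pathNb_pos (mul_pos hB hs); linarith))
  unfold pathM
  linarith

/-- telescoping along a partition with mesh `h`. -/
theorem path_tele {ι : Type*} (F : Filter ι) (a : ι → ℝ → ℝ) {n s0 : ℝ} (hn : 0 ≤ n)
    (hη : η ∈ Icc (0 : ℝ) 1) (hA : 0 < cA) (hB : 0 < cB) (hs : 0 < s0)
    (h0 : 0 < pathEps η cA cB s0)
    (step : ∀ s s', s0 ≤ s → s ≤ s' → ∀ k > 0, ∀ᶠ i in F,
      a i s' ≤ a i s + n * ((pathEps η cA cB s' - pathEps η cA cB s) * pathNC η cA cB s) + k)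
    {h k : ℝ} (hh : 0 ≤ h) (hk : 0 < k) (j : ℕ) :
    ∀ᶠ i in F, a i (s0 + j * h) - n * pathM η cA cB (s0 + j * h)
        + n * (h * pathNC η cA cB (s0 + j * h))
      ≤ a i s0 - n * pathM η cA cB s0 + n * (h * pathNC η cA cB s0) + j * k := by
  induction j with
  | zero => simp
  | succ j ih =>
    have hj : s0 ≤ s0 + j * h := by
      have : 0 ≤ (j : ℝ) * h := by positivity
      linarith
    have hj' : s0 + j * h ≤ s0 + ((j + 1 : ℕ) : ℝ) * h := by
      push_cast; linarith
    have hpos : 0 < s0 + j * h := lt_of_lt_of_le hs hj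
    have he := (pathEps_pos hη hA hB hs h0 hj).le
    have m1 := pathM_step hη hA hB hpos he hj'
    have m2 := pathEps_sub_le hη hA hB hpos hj'
    have m3 := pathNC_anti hη hA hB hpos hj'
    have m4 : s0 + ((j + 1 : ℕ) : ℝ) * h - (s0 + j * h) = h := by push_cast; ring
    rw [m4] at m2
    filter_upwards [ih, step _ _ hj hj' k hk] with i h1 h2
    set t := s0 + j * h
    set t' := s0 + ((j + 1 : ℕ) : ℝ) * h
    have m5 : (pathEps η cA cB t' - pathEps η cA cB t) * (pathNC η cA cB t - pathNC η cA cB t')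
        ≤ h * (pathNC η cA cB t - pathNC η cA cB t') :=
      mul_le_mul_of_nonneg_right m2 (sub_nonneg.2 m3)
    have m6 : (pathEps η cA cB t' - pathEps η cA cB t) * pathNC η cA cB t
        ≤ pathM η cA cB t' - pathM η cA cB t + h * (pathNC η cA cB t - pathNC η cA cB t') := by
      linarith
    have m7 := mul_le_mul_of_nonneg_left m6 hn
    push_cast
    linarith

/-- **Path lemma.**  `a i s` is the minimum of the regularised functional at parameter `s`. -/
theorem path' {ι : Type*} (F : Filter ι) (a : ι → ℝ → ℝ) {n s0 : ℝ} (hn : 0 ≤ n)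
    (hη : η ∈ Icc (0 : ℝ) 1) (hA : 0 < cA) (hB : 0 < cB) (hs : 0 < s0)
    (h0 : 0 < pathEps η cA cB s0)
    (step : ∀ s s', s0 ≤ s → s ≤ s' → ∀ k > 0, ∀ᶠ i in F,
      a i s' ≤ a i s + n * ((pathEps η cA cB s' - pathEps η cA cB s) * pathNC η cA cB s) + k)
    (far : ∀ k > 0, ∀ᶠ S in atTop, ∀ᶠ i in F, -k ≤ a i S)
    {k : ℝ} (hk : 0 < k) : ∀ᶠ i in F, n * pathM η cA cB s0 - k ≤ a i s0 := by
  have hk4 : 0 < k / 4 := by positivity
  have t1 : ∀ᶠ S in atTop, n * pathNC η cA cB S < k / 4 := by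
    have := (tendsto_pathNC (η := η) hA hB).const_mul n
    rw [mul_zero] at this
    exact this.eventually (gt_mem_nhds hk4)
  obtain ⟨S, hS1, hS2, hS3⟩ := ((far _ hk4).and (t1.and (eventually_ge_atTop s0))).exists
  have hC := pathNC_pos hη hA hB hs
  obtain ⟨J, hJ⟩ := exists_nat_gt (n * ((S - s0) * pathNC η cA cB s0) / (k / 4))
  have hnn : 0 ≤ n * ((S - s0) * pathNC η cA cB s0) / (k / 4) :=
    div_nonneg (mul_nonneg hn (mul_nonneg (sub_nonneg.2 hS3) hC.le)) hk4.le
  have hJ0 : (0 : ℝ) < J := lt_of_le_of_lt hnn hJ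
  have hh : 0 ≤ (S - s0) / J := div_nonneg (sub_nonneg.2 hS3) hJ0.le
  have ht := path_tele F a hn hη hA hB hs h0 step hh (div_pos hk4 hJ0) J
  have e1 : s0 + J * ((S - s0) / J) = S := by field_simp; ring
  have e2 : (J : ℝ) * (k / 4 / J) = k / 4 := by field_simp
  rw [e1, e2] at ht
  have hSpos : 0 < S := lt_of_lt_of_le hs hS3
  have b1 : n * ((S - s0) / J * pathNC η cA cB s0) ≤ k / 4 := by
    rw [div_lt_iff₀ hk4] at hJ
    have : n * ((S - s0) / J * pathNC η cA cB s0) = n * ((S - s0) * pathNC η cA cB s0) / J := by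
      field_simp
    rw [this, div_le_iff₀ hJ0]
    linarith
  have b2 : n * pathM η cA cB S ≤ n * pathNC η cA cB S :=
    mul_le_mul_of_nonneg_left (pathM_le hη hA hB hSpos) hn
  have b3 : 0 ≤ n * ((S - s0) / J * pathNC η cA cB S) :=
    mul_nonneg hn (mul_nonneg hh (pathNC_pos hη hA hB hSpos).le)
  filter_upwards [ht, hS1] with i h1 h2
  linarith

/-- The Gibbs lower bound at the far end tends to `0`. -/
theorem tendsto_pathFar (hη : η ∈ Icc (0 : ℝ) 1) (hA : 0 < cA) (hB : 0 < cB) {s0 : ℝ}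
    (hs : 0 < s0) (h0 : 0 < pathEps η cA cB s0) (n : ℝ) :
    Tendsto (fun S => n * (η / cA * Real.log (1 + pathNb (cA * pathEps η cA cB S))
      + (1 - η) / cB * Real.log (1 + pathNb (cB * pathEps η cA cB S)))) atTop (𝓝 0) := by
  have hE := tendsto_pathEps hη hA hB hs h0
  have key : ∀ c : ℝ, 0 < c →
      Tendsto (fun S => Real.log (1 + pathNb (c * pathEps η cA cB S))) atTop (𝓝 0) := by
    intro c hc
    have h1 := (tendsto_pathNb.comp (hE.const_mul_atTop hc)).const_add 1
    have h2 := h1.log (by norm_num)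
    simpa using h2
  have := (((key cA hA).const_mul (η / cA)).add ((key cB hB).const_mul ((1 - η) / cB))).const_mul n
  simpa using this

/-- **Path lemma**, with the far end given by the Gibbs bound. -/
theorem path {ι : Type*} (F : Filter ι) (a : ι → ℝ → ℝ) {n s0 : ℝ} (hn : 0 ≤ n)
    (hη : η ∈ Icc (0 : ℝ) 1) (hA : 0 < cA) (hB : 0 < cB) (hs : 0 < s0)
    (h0 : 0 < pathEps η cA cB s0)
    (step : ∀ s s', s0 ≤ s → s ≤ s' → ∀ k > 0, ∀ᶠ i in F,
      a i s' ≤ a i s + n * ((pathEps η cA cB s' - pathEps η cA cB s) * pathNC η cA cB s) + k)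
    (far : ∀ S, s0 ≤ S → ∀ᶠ i in F,
      -(n * (η / cA * Real.log (1 + pathNb (cA * pathEps η cA cB S))
        + (1 - η) / cB * Real.log (1 + pathNb (cB * pathEps η cA cB S)))) ≤ a i S)
    {k : ℝ} (hk : 0 < k) : ∀ᶠ i in F, n * pathM η cA cB s0 - k ≤ a i s0 := by
  refine path' F a hn hη hA hB hs h0 step (fun k hk => ?_) hk
  filter_upwards [(tendsto_pathFar hη hA hB hs h0 n).eventually (gt_mem_nhds hk),
    eventually_ge_atTop s0] with S h1 h2
  filter_upwards [far S h2] with i h3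
  linarith

end path

/-! The start of the path: `s0 = b(NC) + e`, `cX = b(NX) / s0`. -/

section start

variable {η NA NB s0 : ℝ}

theorem pathNb_start {N : ℝ} (hN : 0 < N) (hs : 0 < s0) : pathNb (pathB N / s0 * s0) = N := by
  rw [div_mul_cancel₀ _ hs.ne', pathNb_B hN]

theorem pathNC_start (hA : 0 < NA) (hB : 0 < NB) (hs : 0 < s0) :
    pathNC η (pathB NA / s0) (pathB NB / s0) s0 = η * NA + (1 - η) * NB := by
  unfold pathNC
  rw [pathNb_start hA hs, pathNb_start hB hs]

theorem pathEps_start (hA : 0 < NA) (hB : 0 < NB) (hs : 0 < s0) :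
    pathEps η (pathB NA / s0) (pathB NB / s0) s0 = s0 - pathB (η * NA + (1 - η) * NB) := by
  unfold pathEps
  rw [pathNC_start hA hB hs]

theorem pathM_start (hA : 0 < NA) (hB : 0 < NB) (hC : 0 < η * NA + (1 - η) * NB)
    (hs : 0 < s0) :
    pathM η (pathB NA / s0) (pathB NB / s0) s0 =
      gBose (η * NA + (1 - η) * NB) - η * s0 / pathB NA * gBose NA
        - (1 - η) * s0 / pathB NB * gBose NB
        + (s0 - pathB (η * NA + (1 - η) * NB)) * (η * NA + (1 - η) * NB) := by
  unfold pathM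
  rw [pathNC_start hA hB hs, pathNb_start hA hs, pathNb_start hB hs, gBose_eq_pathB hA,
    gBose_eq_pathB hB, gBose_eq_pathB hC]
  have h1 := (pathB_pos hA).ne'
  have h2 := (pathB_pos hB).ne'
  field_simp
  ring

end start

end Crest.Agent.R331
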