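import Crest.Agent.R331.Defs

set_option autoImplicit false

open Matrix Kronecker Crest.Quantum Crest.MathPhysics.Bosonic
open scoped ComplexOrder

namespace Crest.Agent.R331.EP

theorem bt_pos {N : ℝ} (h : 0 < N) : 0 < bt N := by
  unfold bt
  apply Real.log_pos
  have : 0 < 1 / N := by positivity
  linarith

theorem exp_bt {N : ℝ} (h : 0 < N) : Real.exp (bt N) = (N + 1) / N := by
  unfold bt
  rw [Real.exp_log (by positivity)]
  field_simp

theorem LM_pos {x y : ℝ} (hx : 0 < x) (hy : 0 < y) : 0 < LM x y := by
  unfold LM
  apply intervalIntegral.intervalIntegral_pos_of_pos_on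
  · apply Continuous.intervalIntegrable
    exact (continuous_const.rpow continuous_id (fun _ => Or.inl hx.ne')).mul
      (continuous_const.rpow (continuous_const.sub continuous_id) (fun _ => Or.inl hy.ne'))
  · intro s _
    exact mul_pos (Real.rpow_pos_of_pos hx _) (Real.rpow_pos_of_pos hy _)
  · exact one_pos

theorem LM_log {x y : ℝ} (hx : 0 < x) (hy : 0 < y) :
    LM x y * (Real.log x - Real.log y) = x - y := by
  unfold LM
  have e : ∀ s : ℝ, x ^ s * y ^ (1 - s) = Real.exp (s * Real.log x + (1 - s) * Real.log y) := by
    intro s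
    rw [Real.rpow_def_of_pos hx, Real.rpow_def_of_pos hy, ← Real.exp_add]
    congr 1
    ring
  simp_rw [e]
  rw [← intervalIntegral.integral_mul_const]
  have hd : ∀ s ∈ Set.uIcc (0 : ℝ) 1,
      HasDerivAt (fun s : ℝ => Real.exp (s * Real.log x + (1 - s) * Real.log y))
        (Real.exp (s * Real.log x + (1 - s) * Real.log y) * (Real.log x - Real.log y)) s := by
    intro s _
    have h1 : HasDerivAt (fun s : ℝ => s * Real.log x + (1 - s) * Real.log y)
        (Real.log x - Real.log y) s := by
      have h2 := ((hasDerivAt_id s).mul_const (Real.log x)).add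
        (((hasDerivAt_const s (1 : ℝ)).sub (hasDerivAt_id s)).mul_const (Real.log y))
      have h3 : (1 * Real.log x + (0 - 1) * Real.log y) = Real.log x - Real.log y := by ring
      rw [h3] at h2
      exact h2
    exact h1.exp
  rw [intervalIntegral.integral_eq_sub_of_hasDerivAt hd
    (by apply Continuous.intervalIntegrable; fun_prop)]
  simp [Real.exp_log hx, Real.exp_log hy]

theorem phiJ_pos {N x y : ℝ} (h : 0 < N) (hx : 0 < x) (hy : 0 < y) : 0 < phiJ N x y := by
  unfold phiJ
  exact mul_pos (bt_pos h) (LM_pos (by positivity) (by positivity))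

theorem phiJ_mul {N x y : ℝ} (h : 0 < N) (hx : 0 < x) (hy : 0 < y) :
    phiJ N x y * ((bt N)⁻¹ * (Real.log x - Real.log y) - 1) = N * x - (N + 1) * y := by
  have hb := bt_pos h
  have h1 := LM_log (x := N * x) (y := (N + 1) * y) (by positivity) (by positivity)
  have h2 : Real.log (N * x) - Real.log ((N + 1) * y) = Real.log x - Real.log y - bt N := by
    rw [Real.log_mul h.ne' hx.ne', Real.log_mul (by positivity) hy.ne']
    have h3 : bt N = Real.log (N + 1) - Real.log N := by
      unfold bt
      rw [← Real.log_div (by positivity) h.ne']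
      congr 1
      field_simp
    rw [h3]
    ring
  rw [h2] at h1
  rw [← h1]
  unfold phiJ
  field_simp

theorem gBose_eq {N : ℝ} (h : 0 < N) : gBose N = bt N * N + Real.log (N + 1) := by
  have h3 : bt N = Real.log (N + 1) - Real.log N := by
    unfold bt
    rw [← Real.log_div (by positivity) h.ne']
    congr 1
    field_simp
  rw [h3]
  unfold gBose
  ring

end Crest.Agent.R331.EP
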