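import Crest.Agent.R331.ShOut

/-! Row 331, shell: for inputs on a box the output is `bsOutput`. -/

set_option autoImplicit false

open Crest.MathPhysics.Bosonic Crest.Quantum Filter Topology
open scoped ComplexOrder InnerProductSpace

noncomputable section

namespace Crest.Agent.R331.Sh

theorem outBlock_zero_aux {n K : ℕ} {m : Occ n} (a : Splitting m) (h1 : InBox K a.fst)
    (h2 : InBox K a.snd) : InBox (2 * K) m := by
  intro j
  have e := congrFun (Splitting.add a) j
  have := h1 j
  have := h2 j
  rw [Pi.add_apply] at e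
  omega

/-- A block vanishes unless `k + e` and `l + e` are in the box of size `2K`. -/
theorem outBlock_zero {n K : ℕ} (η : ℝ) {A B : FockState n} (hA : Supp A K) (hB : Supp B K)
    (k l e : Occ n) (h : ¬ (InBox (2 * K) (k + e) ∧ InBox (2 * K) (l + e))) :
    outBlock η A B k l e = 0 := by
  refine Finset.sum_eq_zero fun a _ => Finset.sum_eq_zero fun b _ => ?_
  by_cases h1 : InBox K a.fst ∧ InBox K b.fst
  · by_cases h2 : InBox K a.snd ∧ InBox K b.snd
    · exact absurd ⟨outBlock_zero_aux a h1.1 h2.1, outBlock_zero_aux b h1.2 h2.2⟩ h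
    · rw [hB _ _ h2, mul_zero, zero_mul]
  · rw [hA _ _ h1, mul_zero, zero_mul, zero_mul]

theorem out_supp {n K : ℕ} {η : ℝ} {A B C : FockState n} (hA : Supp A K) (hB : Supp B K)
    (h : IsBeamSplitterOutput η A B C) : Supp C (2 * K) := by
  intro k l hkl
  refine (h k l).unique ?_
  have : (fun e : Occ n => outBlock η A B k l e) = fun _ => 0 := by
    funext e
    refine outBlock_zero η hA hB k l e fun hh => hkl ⟨fun j => ?_, fun j => ?_⟩
    · exact (Nat.le_add_right _ _).trans (hh.1 j)
    · exact (Nat.le_add_right _ _).trans (hh.2 j)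
  rw [this]
  exact hasSum_zero

theorem sum_split_box_aux {X ι : Type} [Fintype ι] (F : X → ℂ) (e : ι → X)
    (he : Function.Injective e) (h : ∀ x, F x ≠ 0 → ∃ i, e i = x) :
    ∑ i, F (e i) = ∑ᶠ x, F x := by
  rw [finsum_eq_sum_of_support_subset F (s := Finset.univ.map ⟨e, he⟩), Finset.sum_map]
  · rfl
  · intro x hx
    obtain ⟨i, rfl⟩ := h x hx
    exact Finset.mem_coe.2 (Finset.mem_map_of_mem ⟨e, he⟩ (Finset.mem_univ i))

/-- A sum over the splittings of `p + q` against the amplitude is a sum over pairs of box tuples: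
the amplitude vanishes unless `k + l = p + q`, and `g` vanishes off the box. -/
theorem sum_split_box {n K : ℕ} (η : ℝ) (p q : Box n (2 * K)) (g : Occ n → Occ n → ℂ)
    (hg : ∀ a a', ¬ (InBox K a ∧ InBox K a') → g a a' = 0) :
    ∑ a : Splitting (toOcc p + toOcc q), (ampOcc η a.fst a.snd (toOcc p) (toOcc q) : ℂ) * g a.fst a.snd =
      ∑ k : Box n K, ∑ l : Box n K, (bsAmpN η k l p q : ℂ) * g (toOcc k) (toOcc l) := by
  classical
  let F : Occ n × Occ n → ℂ := fun x => (ampOcc η x.1 x.2 (toOcc p) (toOcc q) : ℂ) * g x.1 x.2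
  have h1 := sum_split_box_aux F (fun a : Splitting (toOcc p + toOcc q) => (a.fst, a.snd))
    (fun a b h => funext fun j => Fin.ext (congrFun (congrArg Prod.fst h) j)) (fun x hx => by
      have hs : ∀ j, (toOcc p + toOcc q) j = x.1 j + x.2 j := fun j => by
        by_contra hj
        refine hx (mul_eq_zero_of_left ?_ _)
        rw [Complex.ofReal_eq_zero]
        exact Finset.prod_eq_zero (Finset.mem_univ j) (if_neg hj)
      refine ⟨fun j => ⟨x.1 j, by rw [hs j]; omega⟩, Prod.ext rfl (funext fun j => ?_)⟩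
      change (toOcc p + toOcc q) j - x.1 j = x.2 j
      rw [hs j]
      omega)
  have h2 := sum_split_box_aux F (fun x : Box n K × Box n K => (toOcc x.1, toOcc x.2))
    (fun a b h => Prod.ext (toOcc_injective (congrArg Prod.fst h))
      (toOcc_injective (congrArg Prod.snd h))) (fun x hx => by
      have hb : InBox K x.1 ∧ InBox K x.2 := by
        by_contra hb
        exact hx (mul_eq_zero_of_right _ (hg _ _ hb))
      obtain ⟨k, hk⟩ := exists_toOcc hb.1
      obtain ⟨l, hl⟩ := exists_toOcc hb.2
      exact ⟨(k, l), Prod.ext hk hl⟩)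
  rw [Fintype.sum_prod_type] at h2
  exact h1.trans h2.symm

theorem outBlock_box {n K : ℕ} (η : ℝ) {A B : FockState n} (hA : Supp A K) (hB : Supp B K)
    (p p' q : Box n (2 * K)) :
    outBlock η A B (toOcc p) (toOcc p') (toOcc q) =
      ∑ k : Box n K, ∑ l : Box n K, ∑ k' : Box n K, ∑ l' : Box n K,
        (bsAmpN η k l p q : ℂ) * mat A K k k' * mat B K l l' * (bsAmpN η k' l' p' q : ℂ) := by
  have h1 := sum_split_box (K := K) η p q
    (fun a a' => ∑ b : Splitting (toOcc p' + toOcc q),
      (ampOcc η b.fst b.snd (toOcc p') (toOcc q) : ℂ) * (entry A.op a b.fst * entry B.op a' b.snd))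
    (fun a a' h => Finset.sum_eq_zero fun b _ => by
      by_cases ha : InBox K a
      · rw [hB a' b.snd fun hh => h ⟨ha, hh.1⟩, mul_zero, mul_zero]
      · rw [hA a b.fst fun hh => ha hh.1, zero_mul, mul_zero])
  have h2 : ∀ k l : Box n K, ∑ b : Splitting (toOcc p' + toOcc q),
      (ampOcc η b.fst b.snd (toOcc p') (toOcc q) : ℂ) *
        (entry A.op (toOcc k) b.fst * entry B.op (toOcc l) b.snd) =
      ∑ k' : Box n K, ∑ l' : Box n K, (bsAmpN η k' l' p' q : ℂ) * (mat A K k k' * mat B K l l') :=
    fun k l => sum_split_box (K := K) η p' q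
      (fun b b' => entry A.op (toOcc k) b * entry B.op (toOcc l) b') fun b b' h => by
        by_cases hb : InBox K b
        · rw [hB (toOcc l) b' fun hh => h ⟨hb, hh.2⟩, mul_zero]
        · rw [hA (toOcc k) b fun hh => hb hh.2, zero_mul]
  simp only [h2, Finset.mul_sum] at h1
  refine Eq.trans ?_ (h1.trans ?_)
  · refine Finset.sum_congr rfl fun a _ => Finset.sum_congr rfl fun b _ => ?_
    ring
  · refine Finset.sum_congr rfl fun k _ => Finset.sum_congr rfl fun l _ =>
      Finset.sum_congr rfl fun k' _ => Finset.sum_congr rfl fun l' _ => ?_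
    ring

theorem out_mat {n K : ℕ} {η : ℝ} {A B C : FockState n} (hA : Supp A K) (hB : Supp B K)
    (h : IsBeamSplitterOutput η A B C) : mat C (2 * K) = bsOutput η (mat A K) (mat B K) := by
  ext p p'
  have h1 : HasSum ((fun e : Occ n => outBlock η A B (toOcc p) (toOcc p') e) ∘
      toOcc (K := 2 * K))
      (entry C.op (toOcc p) (toOcc p')) := by
    refine ((toOcc_injective (K := 2 * K)).hasSum_iff fun e he => ?_).2 (h _ _)
    refine outBlock_zero η hA hB _ _ e fun hh => he (exists_toOcc fun j => ?_)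
    exact (Nat.le_add_left _ _).trans (hh.1 j)
  refine (h1.unique (hasSum_fintype _)).trans ?_
  exact Finset.sum_congr rfl fun q _ => outBlock_box η hA hB p p' q

end Crest.Agent.R331.Sh

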