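import Crest.Agent.R331.ShMain
import Crest.Agent.R331.Core

/-! Row 331, shell: the core in the form used by the shell. -/

set_option autoImplicit false

namespace Crest.Agent.R331.Sh

theorem coreStmt : CoreStmt := by
  intro n η hη NA NB hA hB K0 κ hκ
  obtain ⟨K, hK, H⟩ := Crest.Agent.R331.EP.core n η hη NA NB hA hB K0 κ hκ
  refine ⟨K, hK, fun A B dA dB sA sB => H A B dA dB ?_ ?_⟩
  · intro k l h
    by_contra hh
    exact h (sA k l hh)
  · intro k l h
    by_contra hh
    exact h (sB k l hh)

end Crest.Agent.R331.Sh
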