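import Mathlib
import Crest.Prelude.Def_FockState

/-! Row 331, shell: definitions used to pass from the Fock space to finite matrices. -/

set_option autoImplicit false

open Crest.MathPhysics.Bosonic Crest.Quantum Filter Topology
open scoped ComplexOrder InnerProductSpace

noncomputable section

namespace Crest.Agent.R331.Sh

/-- Occupation tuples with at most `K` photons per mode. -/
abbrev Box (n K : ℕ) : Type := Fin n → Fin (K + 1)

/-- A bounded tuple as an occupation tuple. -/
def toOcc {n K : ℕ} (i : Box n K) : Occ n := fun j => (i j : ℕ)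

/-- All coordinates are at most `K`. -/
def InBox {n : ℕ} (K : ℕ) (k : Occ n) : Prop := ∀ j, k j ≤ K

/-- The infinite matrix of a state in the number basis. -/
def ker {n : ℕ} (ρ : FockState n) : Matrix (Occ n) (Occ n) ℂ := Matrix.of fun k l => entry ρ.op k l

/-- The finite block of a state on the box of size `K`. -/
def mat {n : ℕ} (ρ : FockState n) (K : ℕ) : Matrix (Box n K) (Box n K) ℂ :=
  Matrix.of fun i j => entry ρ.op (toOcc i) (toOcc j)

/-- The state lives on the box of size `K`. -/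
def Supp {n : ℕ} (ρ : FockState n) (K : ℕ) : Prop :=
  ∀ k l : Occ n, ¬ (InBox K k ∧ InBox K l) → entry ρ.op k l = 0

/-- Total photon number. -/
def wt {n : ℕ} (k : Occ n) : ℕ := ∑ j, k j

/-- The mean photon number is at most `E`. -/
def EnergyLE {n : ℕ} (ρ : FockState n) (E : ℝ) : Prop :=
  ∀ s : Finset (Occ n), ∑ k ∈ s, (wt k : ℝ) * (entry ρ.op k k).re ≤ E

/-- Entrywise convergence of states. -/
def EConv {n : ℕ} (ρ : ℕ → FockState n) (σ : FockState n) : Prop :=
  ∀ k l : Occ n, Tendsto (fun K => entry (ρ K).op k l) atTop (𝓝 (entry σ.op k l))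

/-- The function of `HasEntropy`. -/
def Fc : ℂ → ℂ := fun z : ℂ => (-(z.re * Real.log z.re) : ℂ)

theorem Fc_eq : Fc = fun z : ℂ => ((Real.negMulLog z.re : ℝ) : ℂ) := by
  funext z
  simp [Fc, Real.negMulLog]

/-- The operator `-ρ log ρ` of `HasEntropy`. -/
def fop {n : ℕ} (ρ : FockState n) : Fock n →L[ℂ] Fock n := cfc Fc ρ.op

/-- The diagonal of `-ρ log ρ`. -/
def fd {n : ℕ} (ρ : FockState n) (k : Occ n) : ℝ := (entry (fop ρ) k k).re

theorem hasEntropy_iff {n : ℕ} (ρ : FockState n) (s : ℝ) : HasEntropy ρ s ↔ HasSum (fd ρ) s :=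
  Iff.rfl

theorem toOcc_injective {n K : ℕ} : Function.Injective (toOcc : Box n K → Occ n) := by
  intro i j h
  funext a
  exact Fin.ext (congrFun h a)

theorem inBox_toOcc {n K : ℕ} (i : Box n K) : InBox K (toOcc i) := fun j => Nat.lt_succ_iff.1 (i j).2

theorem exists_toOcc {n K : ℕ} {k : Occ n} (h : InBox K k) : ∃ i : Box n K, toOcc i = k :=
  ⟨fun j => ⟨k j, Nat.lt_succ_iff.2 (h j)⟩, rfl⟩

theorem Supp.mono {n : ℕ} {ρ : FockState n} {K L : ℕ} (h : Supp ρ K) (hKL : K ≤ L) : Supp ρ L :=
  fun k l hkl => h k l fun hh => hkl ⟨fun j => (hh.1 j).trans hKL, fun j => (hh.2 j).trans hKL⟩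

theorem Splitting.add {n : ℕ} {m : Occ n} (a : Splitting m) : a.fst + a.snd = m := by
  funext j
  have := (a j).2
  simp only [Splitting.fst, Splitting.snd, Pi.add_apply]
  omega

end Crest.Agent.R331.Sh

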