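import Crest.Agent.R331.ShDefs

/-! Row 331, shell: functional calculus of `-t log t` on an ABSTRACT Hilbert space (there the real
functional calculus instance is found; on `Fock n` itself it is not, because of the `ℝ`-module
structure of `lp`).  Use `Fc_eq` and `cfc_real_eq_complex`. -/

set_option autoImplicit false

open Crest.MathPhysics.Bosonic Crest.Quantum Filter Topology
open scoped ComplexOrder InnerProductSpace

noncomputable section

namespace Crest.Agent.R331.Sh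

variable {H : Type*} [NormedAddCommGroup H] [InnerProductSpace ℂ H] [CompleteSpace H]

theorem gen_real {T : H →L[ℂ] H} (hT : IsSelfAdjoint T) : cfc Fc T = cfc Real.negMulLog T := by
  rw [Fc_eq, cfc_real_eq_complex Real.negMulLog hT]

/-- `0 ≤ T ≤ 1` in the Loewner order. -/
theorem gen_spectrum {T : H →L[ℂ] H} (hT : T.IsPositive)
    (h1 : ∀ y, (⟪y, T y⟫_ℂ).re ≤ ‖y‖ ^ 2) : spectrum ℝ T ⊆ Set.Icc (0 : ℝ) 1 := by
  have h0 : 0 ≤ T := (ContinuousLinearMap.nonneg_iff_isPositive T).2 hT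
  have hs : IsSelfAdjoint T := hT.isSelfAdjoint
  have h2 : T ≤ 1 := by
    refine (ContinuousLinearMap.le_def _ _).2 (ContinuousLinearMap.isPositive_def'.2
      ⟨(IsSelfAdjoint.one _).sub hs, fun y => ?_⟩)
    rw [ContinuousLinearMap.reApplyInnerSelf_apply, inner_re_symm, sub_apply,
      one_apply_eq_self, inner_sub_right, map_sub, inner_self_eq_norm_sq]
    exact sub_nonneg.2 (h1 y)
  exact fun x hx => ⟨spectrum_nonneg_of_nonneg h0 hx, (CFC.le_one_iff (R := ℝ) T hs).1 h2 x hx⟩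

/-- `cfc_nonneg`. -/
theorem gen_nonneg {T : H →L[ℂ] H} (hT : T.IsPositive)
    (h1 : ∀ y, (⟪y, T y⟫_ℂ).re ≤ ‖y‖ ^ 2) (x : H) : 0 ≤ (⟪x, cfc Fc T x⟫_ℂ).re := by
  rw [gen_real hT.isSelfAdjoint]
  have h : 0 ≤ cfc Real.negMulLog T := cfc_nonneg fun t ht =>
    Real.negMulLog_nonneg (gen_spectrum hT h1 ht).1 (gen_spectrum hT h1 ht).2
  exact ((ContinuousLinearMap.nonneg_iff_isPositive _).1 h).re_inner_nonneg_right x

theorem gen_le_scalar (s : ℝ) {t : ℝ} (ht : 0 ≤ t) :
    Real.negMulLog t ≤ s * t + Real.exp (-s) := by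
  have he := Real.exp_pos (-s)
  rcases ht.eq_or_lt with rfl | ht
  · rw [Real.negMulLog_zero, mul_zero, zero_add]
    exact he.le
  · have h := Real.log_le_sub_one_of_pos (div_pos he ht)
    rw [Real.log_div he.ne' ht.ne', Real.log_exp] at h
    have h2 := mul_le_mul_of_nonneg_left h ht.le
    rw [mul_sub t (_ / _), mul_div_cancel₀ _ ht.ne'] at h2
    rw [Real.negMulLog]
    linarith

/-- `-t log t ≤ s t + exp (-s)` for `t ≥ 0`, then `cfc_mono`. -/
theorem gen_le {T : H →L[ℂ] H} (hT : T.IsPositive) (x : H) (s : ℝ) :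
    (⟪x, cfc Fc T x⟫_ℂ).re ≤ s * (⟪x, T x⟫_ℂ).re + Real.exp (-s) * ‖x‖ ^ 2 := by
  have h0 : 0 ≤ T := (ContinuousLinearMap.nonneg_iff_isPositive T).2 hT
  have hs : IsSelfAdjoint T := hT.isSelfAdjoint
  rw [gen_real hs]
  have h : cfc Real.negMulLog T ≤ cfc (fun t : ℝ => s * t + Real.exp (-s)) T :=
    cfc_mono (fun t ht => gen_le_scalar s (spectrum_nonneg_of_nonneg h0 ht))
      Real.continuous_negMulLog.continuousOn (by fun_prop)
  rw [cfc_add T (fun t : ℝ => s * t) (fun _ => Real.exp (-s)), cfc_const_mul_id s T, cfc_const _ T,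
    Algebra.algebraMap_eq_smul_one] at h
  have h3 := ((ContinuousLinearMap.le_def _ _).1 h).re_inner_nonneg_right x
  rw [sub_apply, add_apply, smul_apply,
    smul_apply, one_apply_eq_self, inner_sub_right, inner_add_right,
    map_sub, map_add, ← Complex.coe_smul, ← Complex.coe_smul, inner_smul_right, inner_smul_right,
    inner_self_eq_norm_sq_to_K] at h3
  simp only [RCLike.re_to_complex, Complex.re_ofReal_mul, Complex.coe_algebraMap,
    ← Complex.ofReal_pow, Complex.ofReal_re] at h3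
  linarith

/-- `Filter.Tendsto.cfc` on the compact set `[0, 1]`. -/
theorem gen_conv {T : ℕ → H →L[ℂ] H} {S : H →L[ℂ] H} (hT : ∀ K, (T K).IsPositive)
    (h1 : ∀ K y, (⟪y, T K y⟫_ℂ).re ≤ ‖y‖ ^ 2) (hS : S.IsPositive)
    (h2 : ∀ y, (⟪y, S y⟫_ℂ).re ≤ ‖y‖ ^ 2) (h : Tendsto T atTop (𝓝 S)) :
    Tendsto (fun K => cfc Fc (T K)) atTop (𝓝 (cfc Fc S)) := by
  rw [gen_real hS.isSelfAdjoint]
  simp only [fun K => gen_real (hT K).isSelfAdjoint]
  exact h.cfc isCompact_Icc Real.negMulLog (.of_forall fun K => gen_spectrum (hT K) (h1 K))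
    (.of_forall fun K => (hT K).isSelfAdjoint) (gen_spectrum hS h2) hS.isSelfAdjoint
    Real.continuous_negMulLog.continuousOn

/-- A non-unital star homomorphism from a matrix algebra commutes with `-t log t`
(`NonUnitalStarAlgHomClass.map_cfcₙ`, `cfcₙ_eq_cfc`; or: spectral theorem and polynomial
interpolation on the finite spectrum). -/
theorem gen_hom {d : Type*} [Fintype d] [DecidableEq d] (φ : Matrix d d ℂ →⋆ₙₐ[ℂ] (H →L[ℂ] H))
    {M : Matrix d d ℂ} (hM : M.IsHermitian) : cfc Fc (φ M) = φ (cfc Real.negMulLog M) := by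
  have hM' : IsSelfAdjoint M := hM
  have hφM : IsSelfAdjoint (φ M) := hM'.map φ
  have hφ : Continuous φ :=
    LinearMap.continuous_of_finiteDimensional (φ : Matrix d d ℂ →ₗ[ℂ] (H →L[ℂ] H))
  have hc : ∀ s : Set ℝ, ContinuousOn Real.negMulLog s := fun s =>
    Real.continuous_negMulLog.continuousOn
  have h := NonUnitalStarAlgHom.map_cfcₙ (R := ℝ) (p := IsSelfAdjoint) (q := IsSelfAdjoint) φ
    Real.negMulLog M (hc _) Real.negMulLog_zero hφ hM' hφM
  rw [gen_real hφM, ← cfcₙ_eq_cfc (hc _) Real.negMulLog_zero,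
    ← cfcₙ_eq_cfc (hc _) Real.negMulLog_zero, h]

end Crest.Agent.R331.Sh

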