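import Crest.Agent.R331.ShNorm
import Crest.Agent.R331.ShGen

/-! Row 331, shell: semicontinuity of the entropy. -/

set_option autoImplicit false

open Crest.MathPhysics.Bosonic Crest.Quantum Filter Topology
open scoped ComplexOrder InnerProductSpace

noncomputable section

namespace Crest.Agent.R331.Sh

theorem norm_ket {n : ℕ} (k : Occ n) : ‖ket k‖ = 1 := by
  simp [ket]

theorem fd_nonneg {n : ℕ} (ρ : FockState n) (k : Occ n) : 0 ≤ fd ρ k :=
  gen_nonneg ρ.pos (inner_le_one ρ) (ket k)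

theorem fd_le {n : ℕ} (ρ : FockState n) (k : Occ n) (s : ℝ) :
    fd ρ k ≤ s * (entry ρ.op k k).re + Real.exp (-s) := by
  have := gen_le ρ.pos (ket k) s
  rw [norm_ket, one_pow, mul_one] at this
  exact this

theorem fd_conv {n : ℕ} {ρ : ℕ → FockState n} {σ : FockState n} (h : EConv ρ σ) (k : Occ n) :
    Tendsto (fun K => fd (ρ K) k) atTop (𝓝 (fd σ k)) := by
  have h1 := gen_conv (fun K => (ρ K).pos) (fun K => inner_le_one (ρ K)) σ.pos (inner_le_one σ)
    (norm_conv h)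
  have h2 : Continuous fun T : Fock n →L[ℂ] Fock n => (entry T k k).re := by
    unfold entry
    fun_prop
  exact (h2.tendsto _).comp h1

/-- Finite partition function. -/
theorem summable_exp_wt (n : ℕ) {β : ℝ} (hβ : 0 < β) :
    Summable fun k : Occ n => Real.exp (-(β * (wt k : ℝ))) := by
  set r := Real.exp (-β) with hr
  have hr0 : 0 ≤ r := (Real.exp_pos _).le
  have hr1 : r < 1 := by
    rw [hr, ← Real.exp_zero]
    exact Real.exp_lt_exp.2 (by linarith)
  have he : ∀ k : Occ n, Real.exp (-(β * (wt k : ℝ))) = ∏ j, r ^ k j := fun k => by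
    rw [Finset.prod_pow_eq_pow_sum, hr, ← Real.exp_nat_mul]
    congr 1
    unfold wt
    ring
  simp only [he]
  refine summable_of_sum_le (c := ∏ _j : Fin n, (1 - r)⁻¹) (fun k => by positivity) fun s => ?_
  have hK : s ⊆ Fintype.piFinset fun _ : Fin n => Finset.range (s.sup wt + 1) := fun k hk => by
    rw [Fintype.mem_piFinset]
    intro j
    have h1 : k j ≤ wt k :=
      Finset.single_le_sum (f := k) (fun _ _ => Nat.zero_le _) (Finset.mem_univ j)
    exact Finset.mem_range.2 (Nat.lt_succ_of_le (h1.trans (Finset.le_sup (f := wt) hk)))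
  calc ∑ k ∈ s, ∏ j, r ^ k j
      ≤ ∑ k ∈ Fintype.piFinset (fun _ : Fin n => Finset.range (s.sup wt + 1)), ∏ j, r ^ k j :=
        Finset.sum_le_sum_of_subset_of_nonneg hK fun _ _ _ => by positivity
    _ = ∏ _j : Fin n, ∑ i ∈ Finset.range (s.sup wt + 1), r ^ i :=
        (Finset.prod_univ_sum (fun _ : Fin n => Finset.range (s.sup wt + 1))
          (fun _ i => r ^ i)).symm
    _ ≤ _ := Finset.prod_le_prod (fun _ _ => by positivity) fun _ _ =>
        sum_le_hasSum _ (fun _ _ => by positivity) (hasSum_geometric_of_lt_one hr0 hr1)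

theorem fd_tail_sum {n : ℕ} {ρ : FockState n} {E : ℝ} (hE : EnergyLE ρ E) {β : ℝ} (hβ : 0 ≤ β)
    (s : Finset (Occ n)) :
    ∑ k ∈ s, fd ρ k ≤ β * E + ∑ k ∈ s, Real.exp (-(β * (wt k : ℝ))) := by
  calc ∑ k ∈ s, fd ρ k
      ≤ ∑ k ∈ s, (β * ((wt k : ℝ) * (entry ρ.op k k).re) + Real.exp (-(β * (wt k : ℝ)))) :=
        Finset.sum_le_sum fun k _ => by
          rw [← mul_assoc]
          exact fd_le ρ k _
    _ = β * ∑ k ∈ s, (wt k : ℝ) * (entry ρ.op k k).re + ∑ k ∈ s, Real.exp (-(β * (wt k : ℝ))) := by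
        rw [Finset.sum_add_distrib, Finset.mul_sum]
    _ ≤ _ := by
        have := mul_le_mul_of_nonneg_left (hE s) hβ
        linarith

/-- Uniform tails: `fd_le` with `s = β * wt k`, `β` small, then `F` large. -/
theorem fd_tail (n : ℕ) (E : ℝ) {ε : ℝ} (hε : 0 < ε) :
    ∃ F : Finset (Occ n), ∀ ρ : FockState n, EnergyLE ρ E → ∀ s : Finset (Occ n), Disjoint s F →
      ∑ k ∈ s, fd ρ k ≤ ε := by
  have hE1 : 0 < |E| + 1 := by positivity
  have hβ : 0 < ε / 2 / (|E| + 1) := by positivity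
  obtain ⟨F, hF⟩ := (summable_exp_wt n hβ).vanishing (Iic_mem_nhds (half_pos hε))
  refine ⟨F, fun ρ hE s hs => ?_⟩
  have h1 := fd_tail_sum hE hβ.le s
  have h2 : _ ≤ ε / 2 := hF s hs
  have h3 : ε / 2 / (|E| + 1) * E ≤ ε / 2 := by
    rw [div_mul_eq_mul_div, div_le_iff₀ hE1]
    exact mul_le_mul_of_nonneg_left ((le_abs_self E).trans (by linarith)) (half_pos hε).le
  linarith

theorem exists_entropy {n : ℕ} {ρ : FockState n} {E : ℝ} (hE : EnergyLE ρ E) :
    ∃ s, HasEntropy ρ s := by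
  have hs := summable_exp_wt n one_pos
  have : Summable (fd ρ) :=
    summable_of_sum_le (c := 1 * E + ∑' k : Occ n, Real.exp (-(1 * (wt k : ℝ)))) (fd_nonneg ρ)
      fun s => (fd_tail_sum hE zero_le_one s).trans (by
        have := hs.sum_le_tsum s fun _ _ => (Real.exp_pos _).le
        linarith)
  exact ⟨_, (hasEntropy_iff ρ _).2 this.hasSum⟩

theorem entropy_nonneg {n : ℕ} {ρ : FockState n} {s : ℝ} (h : HasEntropy ρ s) : 0 ≤ s :=
  ((hasEntropy_iff ρ s).1 h).nonneg (fd_nonneg ρ)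

/-- Lower semicontinuity (Fatou). -/
theorem lsc {n : ℕ} {ρ : ℕ → FockState n} {σ : FockState n} (h : EConv ρ σ) {s : ℕ → ℝ} {t : ℝ}
    (hs : ∀ K, HasEntropy (ρ K) (s K)) (ht : HasEntropy σ t) {ε : ℝ} (hε : 0 < ε) :
    ∀ᶠ K in atTop, t - ε ≤ s K := by
  obtain ⟨F, hF⟩ := (((hasEntropy_iff σ t).1 ht).eventually
    (lt_mem_nhds (show t - ε < t by linarith))).exists
  have h1 := tendsto_finsetSum F fun k _ => fd_conv h k
  filter_upwards [h1.eventually (lt_mem_nhds hF)] with K hK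
  exact hK.le.trans (sum_le_hasSum F (fun k _ => fd_nonneg _ k) ((hasEntropy_iff _ _).1 (hs K)))

/-- Upper semicontinuity at bounded energy. -/
theorem usc {n : ℕ} {ρ : ℕ → FockState n} {σ : FockState n} (h : EConv ρ σ) {s : ℕ → ℝ} {t : ℝ}
    (hs : ∀ K, HasEntropy (ρ K) (s K)) (ht : HasEntropy σ t) {E : ℝ}
    (hE : ∀ K, EnergyLE (ρ K) E) {ε : ℝ} (hε : 0 < ε) :
    ∀ᶠ K in atTop, s K ≤ t + ε := by
  classical
  obtain ⟨F, hF⟩ := fd_tail n E (half_pos hε)
  have h0 : ∑ k ∈ F, fd σ k < t + ε / 2 :=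
    (sum_le_hasSum F (fun k _ => fd_nonneg _ k) ((hasEntropy_iff _ _).1 ht)).trans_lt (by linarith)
  have h1 := tendsto_finsetSum F fun k _ => fd_conv h k
  filter_upwards [h1.eventually (gt_mem_nhds h0)] with K hK
  refine hasSum_le_of_sum_le ((hasEntropy_iff _ _).1 (hs K)) fun u => ?_
  have h2 := hF (ρ K) (hE K) (u \ F) Finset.sdiff_disjoint
  have h3 : ∑ k ∈ u ∩ F, fd (ρ K) k ≤ ∑ k ∈ F, fd (ρ K) k :=
    Finset.sum_le_sum_of_subset_of_nonneg Finset.inter_subset_right fun k _ _ => fd_nonneg _ k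
  rw [← Finset.sum_inter_add_sum_sdiff u F]
  linarith

end Crest.Agent.R331.Sh

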