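import Crest.Agent.R331.ShKer

/-! Row 331, shell: the truncated kernel. -/

set_option autoImplicit false

open Crest.MathPhysics.Bosonic Crest.Quantum Filter Topology
open scoped ComplexOrder InnerProductSpace

noncomputable section

namespace Crest.Agent.R331.Sh

open Classical in
/-- The box as a finite set of occupation tuples. -/
def boxSet (n K : ℕ) : Finset (Occ n) := Finset.univ.image (toOcc : Box n K → Occ n)

theorem mem_boxSet {n K : ℕ} {k : Occ n} : k ∈ boxSet n K ↔ InBox K k := by
  classical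
  unfold boxSet
  simp only [Finset.mem_image, Finset.mem_univ, true_and]
  exact ⟨fun ⟨i, hi⟩ => hi ▸ inBox_toOcc i, exists_toOcc⟩

theorem eventually_inBox {n : ℕ} (k : Occ n) : ∀ᶠ K in atTop, InBox K k := by
  filter_upwards [eventually_ge_atTop (∑ j, k j)] with K hK j
  exact (Finset.single_le_sum (f := k) (fun _ _ => Nat.zero_le _) (Finset.mem_univ j)).trans hK

theorem tendsto_boxSet (n : ℕ) : Tendsto (boxSet n) atTop atTop := by
  refine tendsto_atTop.2 fun s => ?_
  have : ∀ᶠ K in atTop, ∀ k ∈ s, InBox K k :=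
    (Finset.eventually_all s).2 fun k _ => eventually_inBox k
  filter_upwards [this] with K hK k hk
  exact mem_boxSet.2 (hK k hk)

/-- Mass of a state on the box. -/
def boxMass {n : ℕ} (ρ : FockState n) (K : ℕ) : ℝ := ∑ k ∈ boxSet n K, (entry ρ.op k k).re

theorem boxMass_le {n : ℕ} (ρ : FockState n) (K : ℕ) : boxMass ρ K ≤ 1 :=
  sum_le_hasSum _ (fun k _ => diag_nonneg ρ k) ρ.traceOne

theorem boxMass_tendsto {n : ℕ} (ρ : FockState n) : Tendsto (boxMass ρ) atTop (𝓝 1) := by
  have h : Tendsto (fun s : Finset (Occ n) => ∑ k ∈ s, (entry ρ.op k k).re) atTop (𝓝 1) :=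
    ρ.traceOne
  exact h.comp (tendsto_boxSet n)

open Classical in
/-- The truncated kernel. -/
def trK {n : ℕ} (ρ : FockState n) (K : ℕ) : Matrix (Occ n) (Occ n) ℂ :=
  Matrix.of fun k l => (if InBox K k ∧ InBox K l then entry ρ.op k l else 0)
    + (if k = 0 ∧ l = 0 then ((1 - boxMass ρ K : ℝ) : ℂ) else 0)

theorem trK_psd {n : ℕ} (ρ : FockState n) (K : ℕ) : (trK ρ K).PosSemidef := by
  classical
  have h1 := psd_pull (S := fun _ : Occ n => Unit) (ker_psd ρ) (fun k _ => k)
    (fun k _ => if InBox K k then 1 else 0)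
  have h0 : (0 : ℝ) ≤ 1 - boxMass ρ K := sub_nonneg.2 (boxMass_le ρ K)
  have h2 := psd_pull (S := fun _ : Occ n => Unit) (Matrix.PosSemidef.one (n := Unit) (R := ℂ))
    (fun _ _ => ()) (fun k _ => if k = 0 then Real.sqrt (1 - boxMass ρ K) else 0)
  convert h1.add h2 using 1
  ext k l
  simp only [trK, ker, Matrix.of_apply, Matrix.add_apply, Finset.univ_unique, Finset.sum_singleton,
    Matrix.one_apply_eq, mul_one]
  congr 1
  · by_cases hk : InBox K k <;> by_cases hl : InBox K l <;> simp [hk, hl]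
  · by_cases hk : k = 0 <;> by_cases hl : l = 0 <;> simp only [hk, hl, if_true, if_false,
      and_self, and_false, false_and, Complex.ofReal_zero, mul_zero, zero_mul]
    rw [← Complex.ofReal_mul, Real.mul_self_sqrt h0]

theorem inBox_zero {n : ℕ} (K : ℕ) : InBox K (0 : Occ n) := fun _ => Nat.zero_le _

theorem trK_supp {n : ℕ} (ρ : FockState n) (K : ℕ) (k l : Occ n)
    (h : ¬ (InBox K k ∧ InBox K l)) : trK ρ K k l = 0 := by
  have h2 : ¬ (k = 0 ∧ l = 0) := by
    rintro ⟨rfl, rfl⟩
    exact h ⟨inBox_zero K, inBox_zero K⟩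
  simp only [trK, Matrix.of_apply, if_neg h, if_neg h2, add_zero]

open Classical in
theorem trK_diag {n : ℕ} (ρ : FockState n) (K : ℕ) (k : Occ n) :
    (trK ρ K k k).re = (if InBox K k then (entry ρ.op k k).re else 0)
      + (if k = 0 then 1 - boxMass ρ K else 0) := by
  simp only [trK, Matrix.of_apply, and_self, Complex.add_re]
  congr 1
  · split_ifs <;> simp
  · split_ifs <;> simp

theorem trK_hasSum {n : ℕ} (ρ : FockState n) (K : ℕ) :
    HasSum (fun k => (trK ρ K k k).re) 1 := by
  classical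
  have h1 : HasSum (fun k : Occ n => if InBox K k then (entry ρ.op k k).re else 0)
      (boxMass ρ K) := by
    have : boxMass ρ K = ∑ k ∈ boxSet n K, if InBox K k then (entry ρ.op k k).re else 0 :=
      Finset.sum_congr rfl fun k hk => by rw [if_pos (mem_boxSet.1 hk)]
    rw [this]
    exact hasSum_sum_of_ne_finset_zero fun k hk => if_neg fun h => hk (mem_boxSet.2 h)
  have h2 : HasSum (fun k : Occ n => if k = 0 then 1 - boxMass ρ K else 0) (1 - boxMass ρ K) :=
    hasSum_ite_eq _ _
  have h3 := h1.add h2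
  rw [add_sub_cancel] at h3
  simpa only [trK_diag] using h3

theorem trK_energy {n : ℕ} (ρ : FockState n) (K : ℕ) (k : Occ n) :
    (wt k : ℝ) * (trK ρ K k k).re ≤ (wt k : ℝ) * (entry ρ.op k k).re := by
  classical
  rw [trK_diag]
  by_cases hk : k = 0
  · subst hk
    simp [wt]
  · rw [if_neg hk, add_zero]
    refine mul_le_mul_of_nonneg_left ?_ (Nat.cast_nonneg _)
    split_ifs
    · exact le_rfl
    · exact diag_nonneg ρ k

theorem trK_tendsto {n : ℕ} (ρ : FockState n) (k l : Occ n) :
    Tendsto (fun K => trK ρ K k l) atTop (𝓝 (entry ρ.op k l)) := by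
  classical
  have h1 : Tendsto (fun K => if InBox K k ∧ InBox K l then entry ρ.op k l else 0) atTop
      (𝓝 (entry ρ.op k l)) := by
    refine tendsto_const_nhds.congr' ?_
    filter_upwards [eventually_inBox k, eventually_inBox l] with K hk hl
    rw [if_pos ⟨hk, hl⟩]
  have h0 : Tendsto (fun K => ((1 - boxMass ρ K : ℝ) : ℂ)) atTop (𝓝 0) := by
    have := (tendsto_const_nhds (x := (1 : ℝ))).sub (boxMass_tendsto ρ)
    rw [sub_self] at this
    exact (Complex.continuous_ofReal.tendsto 0).comp this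
  have h2 : Tendsto (fun K => if k = 0 ∧ l = 0 then ((1 - boxMass ρ K : ℝ) : ℂ) else 0) atTop
      (𝓝 0) := by
    by_cases h : k = 0 ∧ l = 0
    · simpa only [if_pos h] using h0
    · simpa only [if_neg h] using tendsto_const_nhds
  simpa only [trK, Matrix.of_apply, add_zero] using h1.add h2

end Crest.Agent.R331.Sh
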