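import Crest.Agent.R331.ShKer
import Crest.Agent.R331.ShStateCAux

/-! Row 331, shell: a positive semidefinite kernel of trace one is the matrix of a state. -/

set_option autoImplicit false

open Crest.MathPhysics.Bosonic Crest.Quantum Filter Topology
open scoped ComplexOrder InnerProductSpace

noncomputable section

namespace Crest.Agent.R331.Sh

theorem op_ext_hasSum {n : ℕ} (x : Fock n) : HasSum (fun k => x k • ket k) x := by
  have h := lp.hasSum_single (E := fun _ : Occ n => ℂ) (p := 2) (by simp) x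
  have e : (fun k => x k • ket k) = fun k => lp.single 2 k (x k) := by
    funext k
    rw [ket, ← lp.single_smul, smul_eq_mul, mul_one]
  rw [e]
  exact h

theorem op_ext_coord {n : ℕ} (y : Fock n) (k : Occ n) : ⟪ket k, y⟫_ℂ = y k := by
  simp [ket, lp.inner_single_left]

/-- Bounded operators on the Fock space are determined by their entries. -/
theorem op_ext {n : ℕ} {S T : Fock n →L[ℂ] Fock n} (h : ∀ k l, entry S k l = entry T k l) :
    S = T := by
  have e : ∀ l, S (ket l) = T (ket l) := fun l => by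
    refine lp.ext (funext fun k => ?_)
    rw [← op_ext_coord, ← op_ext_coord]
    exact h k l
  ext1 x
  have h1 := (op_ext_hasSum x).mapL S
  have h2 := (op_ext_hasSum x).mapL T
  simp only [map_smul, e] at h1 h2
  exact h1.unique h2

/-- A kernel dominated by `w k * w l` with `w` square summable is the matrix of a bounded operator:
`(T x) k = ∑' l, c k l * x l`, `‖(T x) k‖ ≤ w k * ‖w‖ * ‖x‖`. -/
theorem exists_op {n : ℕ} (c : Occ n → Occ n → ℂ) (w : Occ n → ℝ) (hw0 : ∀ k, 0 ≤ w k)
    (hw : Summable fun k => w k ^ 2) (hc : ∀ k l, ‖c k l‖ ≤ w k * w l) :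
    ∃ T : Fock n →L[ℂ] Fock n, ∀ k l, entry T k l = c k l := by
  have hW : Memℓp (fun k : Occ n => (w k : ℂ)) 2 := memℓp_gen (by
    simpa only [ENNReal.toReal_ofNat, Real.rpow_ofNat, Complex.norm_real, Real.norm_eq_abs,
      sq_abs] using hw)
  obtain ⟨W, hWe⟩ : ∃ W : Fock n, ∀ k, W k = (w k : ℂ) := ⟨⟨_, hW⟩, fun _ => rfl⟩
  have hdom : ∀ (f : Occ n → ℂ) (a : ℝ), 0 ≤ a → (∀ k, ‖f k‖ ≤ a * w k) →
      ∃ F : Fock n, (∀ k, F k = f k) ∧ ‖F‖ ≤ a * ‖W‖ := by
    intro f a ha hf
    have hb : ∀ k, ‖f k‖ ≤ ‖((a : ℂ) • W) k‖ := fun k => by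
      rw [lp.coeFn_smul, Pi.smul_apply, hWe, norm_smul, Complex.norm_real, Complex.norm_real,
        Real.norm_of_nonneg ha, Real.norm_of_nonneg (hw0 k)]
      exact hf k
    refine ⟨⟨f, (lp.memℓp ((a : ℂ) • W)).mono' hb⟩, fun _ => rfl, ?_⟩
    refine (lp.norm_mono two_ne_zero (y := (a : ℂ) • W) hb).trans ?_
    rw [norm_smul, Complex.norm_real, Real.norm_of_nonneg ha]
  choose r hr hrn using fun k => hdom (fun l => star (c k l)) (w k) (hw0 k) fun l => by
    rw [norm_star]
    exact hc k l
  choose t ht htn using fun x : Fock n => hdom (fun k => ⟪r k, x⟫_ℂ) (‖W‖ * ‖x‖) (by positivity)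
    fun k => (norm_inner_le_norm _ _).trans (by
      have := mul_le_mul_of_nonneg_right (hrn k) (norm_nonneg x)
      linarith)
  let L : Fock n →ₗ[ℂ] Fock n :=
    { toFun := t
      map_add' := fun x y => lp.ext (funext fun k => by
        rw [lp.coeFn_add, Pi.add_apply, ht, ht, ht, inner_add_right])
      map_smul' := fun a x => lp.ext (funext fun k => by
        rw [lp.coeFn_smul, Pi.smul_apply, ht, ht, inner_smul_right, RingHom.id_apply,
          smul_eq_mul]) }
  refine ⟨L.mkContinuous (‖W‖ * ‖W‖) fun x => (htn x).trans_eq (by ring), fun k l => ?_⟩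
  change ⟪ket k, t (ket l)⟫_ℂ = _
  rw [ket, lp.inner_single_left, ht, ket, lp.inner_single_right, hr]
  simp

/-- An operator with positive semidefinite matrix is positive (finite partial sums
`∑ k ∈ s, x k • ket k` converge to `x`, `lp.hasSum_single`). -/
theorem isPositive_of_psd {n : ℕ} (T : Fock n →L[ℂ] Fock n)
    (h : (Matrix.of fun k l => entry T k l).PosSemidef) : T.IsPositive := by
  have key : ∀ x : Fock n, 0 ≤ ⟪x, T x⟫_ℂ := fun x => by
    have h1 : Tendsto (fun s : Finset (Occ n) => ∑ k ∈ s, x k • ket k) atTop (𝓝 x) :=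
      op_ext_hasSum x
    have h2 : Tendsto (fun s : Finset (Occ n) =>
        ⟪∑ k ∈ s, x k • ket k, T (∑ k ∈ s, x k • ket k)⟫_ℂ) atTop (𝓝 ⟪x, T x⟫_ℂ) :=
      h1.inner ((T.continuous.tendsto x).comp h1)
    refine ge_of_tendsto' h2 fun s => ?_
    have h3 := (h.submatrix (Subtype.val : s → Occ n)).dotProduct_mulVec_nonneg
      (fun k : s => x k.1)
    convert h3 using 1
    simp only [map_sum, map_smul, sum_inner, inner_sum, inner_smul_left, inner_smul_right,
      dotProduct, Matrix.mulVec, Matrix.submatrix_apply, Matrix.of_apply, Pi.star_apply,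
      Finset.mul_sum]
    rw [Finset.sum_comm, ← Finset.sum_coe_sort s]
    refine Finset.sum_congr rfl fun k _ => ?_
    rw [← Finset.sum_coe_sort s]
    refine Finset.sum_congr rfl fun l _ => ?_
    simp only [entry, RCLike.star_def]
    ring
  rw [ContinuousLinearMap.isPositive_iff_complex]
  intro x
  have h1 := key x
  rw [← inner_conj_symm, Complex.nonneg_iff] at h1
  simp only [Complex.conj_re, Complex.conj_im] at h1
  refine ⟨Complex.ext rfl ?_, h1.1⟩
  have := h1.2
  simp only [RCLike.re_to_complex, Complex.ofReal_im]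
  linarith

theorem exists_state {n : ℕ} (c : Matrix (Occ n) (Occ n) ℂ) (h : c.PosSemidef)
    (ht : HasSum (fun k => (c k k).re) 1) : ∃ ρ : FockState n, ∀ k l, entry ρ.op k l = c k l := by
  obtain ⟨T, hT⟩ := exists_op (fun k l => c k l) (fun k => Real.sqrt (c k k).re)
    (fun k => Real.sqrt_nonneg _)
    (ht.summable.congr fun k => (Real.sq_sqrt (psd_diag_re h k)).symm)
    (fun k l => by
      rw [← Real.sqrt_mul (psd_diag_re h k)]
      exact Real.le_sqrt_of_sq_le (psd_norm_sq_le h k l))
  have e : (Matrix.of fun k l => entry T k l) = c := by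
    ext k l
    exact hT k l
  refine ⟨⟨T, isPositive_of_psd T (e ▸ h), ?_⟩, hT⟩
  simpa only [hT] using ht

/-- Truncations: keep the block on the box of size `K` and put the missing mass on the vacuum.
Kernel: `(if InBox K k ∧ InBox K l then entry ρ k l else 0) + (if k = 0 ∧ l = 0 then 1 - t K else 0)`,
`t K = ∑ i : Box n K, (entry ρ (toOcc i) (toOcc i)).re → 1`. -/
theorem exists_trunc {n : ℕ} (ρ : FockState n) {E : ℝ} (hE : EnergyLE ρ E) :
    ∃ σ : ℕ → FockState n, (∀ K, Supp (σ K) K) ∧ (∀ K, EnergyLE (σ K) E) ∧ EConv σ ρ := by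
  choose σ hσ using fun K => exists_state (trK ρ K) (trK_psd ρ K) (trK_hasSum ρ K)
  refine ⟨σ, fun K k l h => ?_, fun K s => ?_, fun k l => ?_⟩
  · rw [hσ]; exact trK_supp ρ K k l h
  · refine le_trans (Finset.sum_le_sum fun k _ => ?_) (hE s)
    rw [hσ]; exact trK_energy ρ K k
  · simpa only [hσ] using trK_tendsto ρ k l

theorem energyLE_of_finite {n : ℕ} {ρ : FockState n} (h : FiniteEnergy ρ) : ∃ E, EnergyLE ρ E :=
  ⟨_, fun s => h.sum_le_tsum s fun k _ => mul_nonneg (Nat.cast_nonneg _) (diag_nonneg ρ k)⟩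

end Crest.Agent.R331.Sh

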