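import Crest.Agent.R331.ShEnt
import Crest.Agent.R331.ShState

/-! Row 331, shell: states supported on a box are density matrices, with the same entropy. -/

set_option autoImplicit false

open Crest.MathPhysics.Bosonic Crest.Quantum Filter Topology
open scoped ComplexOrder InnerProductSpace

noncomputable section

namespace Crest.Agent.R331.Sh

theorem inner_ket_ket {n : ℕ} (k l : Occ n) : ⟪ket k, ket l⟫_ℂ = if k = l then 1 else 0 := by
  unfold ket
  rw [lp.inner_single_left]
  by_cases h : k = l
  · subst h; simp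
  · simp [lp.single_apply, Pi.single_apply, h]

theorem hasSum_box {n K : ℕ} (f : Occ n → ℝ) (hf : ∀ k, ¬ InBox K k → f k = 0) :
    HasSum f (∑ i : Box n K, f (toOcc i)) := by
  classical
  have h1 : HasSum f (∑ k ∈ (Finset.univ : Finset (Box n K)).image toOcc, f k) := by
    refine hasSum_sum_of_ne_finset_zero fun k hk => hf k fun hb => hk ?_
    obtain ⟨i, rfl⟩ := exists_toOcc hb
    exact Finset.mem_image_of_mem _ (Finset.mem_univ i)
  rwa [Finset.sum_image fun i _ j _ h => toOcc_injective h] at h1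

theorem mat_density {n K : ℕ} {ρ : FockState n} (h : Supp ρ K) : IsDensity (mat ρ K) := by
  have hpsd : (mat ρ K).PosSemidef := (ker_psd ρ).submatrix (toOcc : Box n K → Occ n)
  refine ⟨hpsd, ?_⟩
  have h1 := hasSum_box (K := K) (fun k => (entry ρ.op k k).re) fun k hk => by
    rw [h k k fun hh => hk hh.1]; simp
  have h2 := h1.unique ρ.traceOne
  have h3 : (mat ρ K).trace = ((∑ i : Box n K, (entry ρ.op (toOcc i) (toOcc i)).re : ℝ) : ℂ) := by
    rw [Complex.ofReal_sum]
    exact Finset.sum_congr rfl fun i _ => psd_diag_eq hpsd i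
  rw [h3, h2]; simp

/-- The operator with matrix `M` on the box and zero elsewhere. -/
def emb {n K : ℕ} (M : Matrix (Box n K) (Box n K) ℂ) : Fock n →L[ℂ] Fock n :=
  ∑ i, ∑ j, M i j • (innerSL ℂ (ket (toOcc j))).smulRight (ket (toOcc i))

theorem entry_emb_sum {n K : ℕ} (M : Matrix (Box n K) (Box n K) ℂ) (k l : Occ n) :
    entry (emb M) k l = ∑ i, ∑ j, M i j * ((if toOcc j = l then 1 else 0) *
      (if k = toOcc i then 1 else 0)) := by
  unfold entry emb
  simp only [ContinuousLinearMap.sum_apply, ContinuousLinearMap.smul_apply,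
    ContinuousLinearMap.smulRight_apply, innerSL_apply_apply, inner_sum, inner_smul_right,
    inner_ket_ket]

theorem entry_emb {n K : ℕ} (M : Matrix (Box n K) (Box n K) ℂ) (i j : Box n K) :
    entry (emb M) (toOcc i) (toOcc j) = M i j := by
  rw [entry_emb_sum]
  simp only [toOcc_injective.eq_iff]
  rw [Finset.sum_eq_single i]
  · rw [Finset.sum_eq_single j]
    · simp
    · intro b _ hb; simp [hb]
    · simp
  · intro b _ hb
    simp [hb.symm]
  · simp

theorem entry_emb_zero {n K : ℕ} (M : Matrix (Box n K) (Box n K) ℂ) (k l : Occ n)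
    (h : ¬ (InBox K k ∧ InBox K l)) : entry (emb M) k l = 0 := by
  rw [entry_emb_sum]
  refine Finset.sum_eq_zero fun i _ => Finset.sum_eq_zero fun j _ => ?_
  by_cases h1 : toOcc j = l
  · by_cases h2 : k = toOcc i
    · exact absurd ⟨h2 ▸ inBox_toOcc i, h1 ▸ inBox_toOcc j⟩ h
    · simp [h2]
  · simp [h1]

theorem emb_mul_apply {n K : ℕ} (M : Matrix (Box n K) (Box n K) ℂ) (x : Fock n) :
    emb M x = ∑ i, (∑ j, M i j * ⟪ket (toOcc j), x⟫_ℂ) • ket (toOcc i) := by
  simp only [emb, ContinuousLinearMap.sum_apply, ContinuousLinearMap.smul_apply,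
    ContinuousLinearMap.smulRight_apply, innerSL_apply_apply, smul_smul, Finset.sum_smul]

theorem emb_mul_ket {n K : ℕ} (i j : Box n K) :
    ⟪ket (toOcc i), ket (toOcc j)⟫_ℂ = if i = j then 1 else 0 := by
  rw [ket, lp.inner_single_left, ket, lp.single_apply]
  by_cases h : i = j
  · subst h; simp
  · rw [if_neg h, Pi.single_eq_of_ne (toOcc_injective.ne h), inner_zero_right]

theorem emb_mul_inner {n K : ℕ} (M : Matrix (Box n K) (Box n K) ℂ) (x : Fock n) (i : Box n K) :
    ⟪ket (toOcc i), emb M x⟫_ℂ = ∑ j, M i j * ⟪ket (toOcc j), x⟫_ℂ := by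
  rw [emb_mul_apply, inner_sum]
  simp only [inner_smul_right, emb_mul_ket, mul_ite, mul_one, mul_zero, Finset.sum_ite_eq,
    Finset.mem_univ, if_true]

theorem emb_mul {n K : ℕ} (M N : Matrix (Box n K) (Box n K) ℂ) : emb (M * N) = emb M * emb N := by
  ext1 x
  rw [ContinuousLinearMap.mul_apply, emb_mul_apply, emb_mul_apply M]
  refine Finset.sum_congr rfl fun i _ => ?_
  congr 1
  simp only [emb_mul_inner, Matrix.mul_apply, Finset.sum_mul, Finset.mul_sum, mul_assoc]
  exact Finset.sum_comm

theorem emb_star {n K : ℕ} (M : Matrix (Box n K) (Box n K) ℂ) : emb (star M) = star (emb M) := by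
  rw [ContinuousLinearMap.star_eq_adjoint, ContinuousLinearMap.eq_adjoint_iff]
  intro x y
  rw [emb_mul_apply, emb_mul_apply, sum_inner, inner_sum]
  simp only [inner_smul_left, inner_smul_right, map_sum, map_mul, Finset.sum_mul, inner_conj_symm,
    Matrix.star_apply, RCLike.star_def, Complex.conj_conj]
  rw [Finset.sum_comm]
  refine Finset.sum_congr rfl fun i _ => Finset.sum_congr rfl fun j _ => ?_
  ring

/-- `emb` as a non-unital star homomorphism. -/
def embHom {n K : ℕ} : Matrix (Box n K) (Box n K) ℂ →⋆ₙₐ[ℂ] (Fock n →L[ℂ] Fock n) where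
  toFun := emb
  map_smul' c M := by
    simp only [emb, Matrix.smul_apply, smul_eq_mul, mul_smul, Finset.smul_sum, MonoidHom.id_apply]
  map_zero' := by simp [emb]
  map_add' M N := by
    simp only [emb, Matrix.add_apply, add_smul, Finset.sum_add_distrib]
  map_mul' := emb_mul
  map_star' := emb_star

/-- `emb` is a non-unital star homomorphism, so it commutes with the functional calculus of a function
vanishing at `0`: bundle `emb` and use `gen_hom`. -/
theorem emb_cfc {n K : ℕ} {M : Matrix (Box n K) (Box n K) ℂ} (hM : M.IsHermitian) :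
    cfc Fc (emb M) = emb (cfc Real.negMulLog M) := by
  exact gen_hom embHom hM

/-- `Matrix.IsHermitian.cfc_eq` and invariance of the trace. -/
theorem trace_cfc {d : Type*} [Fintype d] [DecidableEq d] {M : Matrix d d ℂ} (hM : M.IsHermitian) :
    ∑ i, (cfc Real.negMulLog M i i).re = vnEntropy M := by
  have h : (cfc Real.negMulLog M).trace = ∑ i, ((Real.negMulLog (hM.eigenvalues i) : ℝ) : ℂ) := by
    rw [hM.cfc_eq, Matrix.IsHermitian.cfc, Unitary.conjStarAlgAut_apply, Matrix.trace_mul_comm,
      ← mul_assoc]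
    simp
  have h2 := congrArg Complex.re h
  rw [Matrix.trace, Complex.re_sum, Complex.re_sum] at h2
  rw [vnEntropy, dif_pos hM, ← Finset.sum_neg_distrib]
  refine h2.trans (Finset.sum_congr rfl fun i _ => ?_)
  rw [Complex.ofReal_re, Real.negMulLog, neg_mul]

theorem op_eq_emb {n K : ℕ} {ρ : FockState n} (h : Supp ρ K) : ρ.op = emb (mat ρ K) := by
  refine op_ext fun k l => ?_
  by_cases hkl : InBox K k ∧ InBox K l
  · obtain ⟨i, rfl⟩ := exists_toOcc hkl.1
    obtain ⟨j, rfl⟩ := exists_toOcc hkl.2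
    rw [entry_emb]; rfl
  · rw [h k l hkl, entry_emb_zero _ _ _ hkl]

theorem hasEntropy_mat {n K : ℕ} {ρ : FockState n} (h : Supp ρ K) :
    HasEntropy ρ (vnEntropy (mat ρ K)) := by
  have hM : (mat ρ K).IsHermitian := (mat_density h).1.1
  rw [hasEntropy_iff, ← trace_cfc hM]
  have hf : fop ρ = emb (cfc Real.negMulLog (mat ρ K)) := by
    unfold fop
    rw [← emb_cfc hM, ← op_eq_emb h]
  have h1 := hasSum_box (K := K) (fd ρ) fun k hk => by
    unfold fd
    rw [hf, entry_emb_zero _ _ _ fun hh => hk hh.1]; simp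
  have h2 : ∀ i : Box n K, fd ρ (toOcc i) = (cfc Real.negMulLog (mat ρ K) i i).re := fun i => by
    unfold fd
    rw [hf, entry_emb]
  simpa only [h2] using h1

end Crest.Agent.R331.Sh

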