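import Crest.Agent.R331.ShDefs

/-! Row 331, shell: positive semidefinite kernels and the states they define. -/

set_option autoImplicit false

open Crest.MathPhysics.Bosonic Crest.Quantum Filter Topology
open scoped ComplexOrder InnerProductSpace

noncomputable section

namespace Crest.Agent.R331.Sh

/-- The matrix of a state is positive semidefinite (`Matrix.PosSemidef` is stated with finitely
supported vectors, no `Fintype` needed).  For `x : Occ n →₀ ℂ` take the vector `∑ x k • ket k`. -/
theorem ker_psd {n : ℕ} (ρ : FockState n) : (ker ρ).PosSemidef := by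
  refine ⟨?_, fun x => ?_⟩
  · ext k l
    show star (entry ρ.op l k) = entry ρ.op k l
    unfold entry
    rw [← ρ.pos.inner_left_eq_inner_right (ket k) (ket l)]
    exact inner_conj_symm _ _
  · have h := ρ.pos.inner_nonneg_right (∑ k ∈ x.support, x k • ket k)
    refine h.trans_eq ?_
    unfold Finsupp.sum
    rw [map_sum, sum_inner]
    refine Finset.sum_congr rfl fun k _ => ?_
    rw [inner_sum]
    refine Finset.sum_congr rfl fun l _ => ?_
    rw [map_smul, inner_smul_left, inner_smul_right]
    show _ = star (x k) * entry ρ.op k l * x l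
    unfold entry
    rw [RCLike.star_def]
    ring

/-- A kernel all of whose finite principal blocks are positive semidefinite is positive semidefinite. -/
theorem psd_of_finite {ι : Type*} (c : Matrix ι ι ℂ)
    (h : ∀ s : Finset ι, (c.submatrix (Subtype.val : s → ι) Subtype.val).PosSemidef) :
    c.PosSemidef := by
  classical
  refine ⟨?_, fun x => ?_⟩
  · ext k l
    exact congrFun (congrFun (h {k, l}).1 ⟨k, by simp⟩) ⟨l, by simp⟩
  · have h1 := (h x.support).dotProduct_mulVec_nonneg fun k => x k
    refine h1.trans_eq ?_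
    change ∑ k : x.support, star (x k) * ∑ l : x.support, c k l * x l =
      ∑ k ∈ x.support, ∑ l ∈ x.support, star (x k) * c k l * x l
    rw [← Finset.sum_coe_sort x.support]
    refine Finset.sum_congr rfl fun k _ => ?_
    rw [← Finset.sum_coe_sort x.support, Finset.mul_sum]
    refine Finset.sum_congr rfl fun l _ => ?_
    rw [mul_assoc]

theorem psd_diag_re {ι : Type*} {c : Matrix ι ι ℂ} (h : c.PosSemidef) (k : ι) : 0 ≤ (c k k).re :=
  (Complex.nonneg_iff.1 h.diag_nonneg).1

theorem psd_diag_eq {ι : Type*} {c : Matrix ι ι ℂ} (h : c.PosSemidef) (k : ι) :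
    c k k = ((c k k).re : ℂ) :=
  Complex.ext rfl (by simpa using (Complex.nonneg_iff.1 (h.diag_nonneg (i := k))).2.symm)

/-- Cauchy-Schwarz for a positive semidefinite kernel (2 x 2 block). -/
theorem psd_norm_sq_le {ι : Type*} {c : Matrix ι ι ℂ} (h : c.PosSemidef) (k l : ι) :
    ‖c k l‖ ^ 2 ≤ (c k k).re * (c l l).re := by
  have h1 := (h.submatrix ![k, l]).det_nonneg
  rw [Matrix.det_fin_two] at h1
  have h2 : c l k = star (c k l) := (congrFun (congrFun h.1 l) k).symm
  change 0 ≤ c k k * c l l - c k l * c l k at h1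
  rw [h2, psd_diag_eq h k, psd_diag_eq h l, RCLike.star_def, Complex.mul_conj,
    Complex.normSq_eq_norm_sq] at h1
  have h3 : (0 : ℝ) ≤ (c k k).re * (c l l).re - ‖c k l‖ ^ 2 := by exact_mod_cast h1
  linarith

theorem psd_norm_le {ι : Type*} {c : Matrix ι ι ℂ} (h : c.PosSemidef) (k l : ι) :
    ‖c k l‖ ≤ ((c k k).re + (c l l).re) / 2 := by
  have h1 := psd_norm_sq_le h k l
  have h2 := psd_diag_re h k
  have h3 := psd_diag_re h l
  refine abs_le_of_sq_le_sq' ?_ (by positivity) |>.2
  nlinarith [sq_nonneg ((c k k).re - (c l l).re)]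

/-- An entrywise convergent sum of positive semidefinite kernels is positive semidefinite. -/
theorem psd_hasSum {ι E : Type*} (c : E → Matrix ι ι ℂ) (d : Matrix ι ι ℂ)
    (h : ∀ e, (c e).PosSemidef) (hs : ∀ k l, HasSum (fun e => c e k l) (d k l)) : d.PosSemidef := by
  refine ⟨Matrix.IsHermitian.ext fun k l => ?_, fun x => ?_⟩
  · refine (hs l k).star.unique ?_
    simpa only [(h _).1.apply] using hs k l
  · exact HasSum.nonneg (fun e => (h e).2 x)
      (hasSum_sum fun k _ => hasSum_sum fun l _ => ((hs k l).mul_left _).mul_right _)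

/-- The product kernel is positive semidefinite (`psd_of_finite` and `Matrix.PosSemidef.kronecker`
on `s.image Prod.fst`, `s.image Prod.snd`). -/
theorem psd_prod {ι κ : Type*} {a : Matrix ι ι ℂ} {b : Matrix κ κ ℂ} (ha : a.PosSemidef)
    (hb : b.PosSemidef) :
    (Matrix.of fun p q : ι × κ => a p.1 q.1 * b p.2 q.2).PosSemidef :=
  (ha.submatrix Prod.fst).hadamard (hb.submatrix Prod.snd)

/-- Pull-back of a positive semidefinite kernel along finite real combinations. -/
theorem psd_pull {ι κ : Type*} {S : κ → Type*} [∀ k, Fintype (S k)] {c : Matrix ι ι ℂ}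
    (h : c.PosSemidef) (φ : ∀ k, S k → ι) (w : ∀ k, S k → ℝ) :
    (Matrix.of fun k l : κ => ∑ a : S k, ∑ b : S l,
      (w k a : ℂ) * c (φ k a) (φ l b) * (w l b : ℂ)).PosSemidef := by
  classical
  refine psd_of_finite _ fun s => ?_
  convert (h.submatrix fun t : Σ k : s, S k => φ t.1 t.2).conjTranspose_mul_mul_same
    (Matrix.of fun (t : Σ k : s, S k) (k : s) => if t.1 = k then (w t.1 t.2 : ℂ) else 0) using 1
  ext k l
  simp only [Matrix.submatrix_apply, Matrix.of_apply, Matrix.mul_apply, Matrix.conjTranspose_apply,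
    Fintype.sum_sigma, apply_ite star, star_zero, ite_mul, zero_mul, mul_ite, mul_zero,
    Finset.sum_ite_irrel, Finset.sum_const_zero, Finset.sum_ite_eq', Finset.mem_univ, if_true,
    Finset.sum_mul, Complex.star_def, Complex.conj_ofReal]
  exact Finset.sum_comm

theorem diag_nonneg {n : ℕ} (ρ : FockState n) (k : Occ n) : 0 ≤ (entry ρ.op k k).re :=
  psd_diag_re (ker_psd ρ) k

end Crest.Agent.R331.Sh

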