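import Crest.Agent.R331.ShFin
import Crest.Agent.R331.ShBox

/-! Row 331, shell: from the finite-dimensional core to the statement. -/

set_option autoImplicit false

open Crest.MathPhysics.Bosonic Crest.Quantum Filter Topology
open scoped ComplexOrder InnerProductSpace

noncomputable section

namespace Crest.Agent.R331.Sh

/-- Inverse temperature. -/
def bet (N : ℝ) : ℝ := Real.log (1 + 1 / N)

/-- The left side of the linear form of the inequality. -/
def lhs (n : ℕ) (η NA NB sA sB : ℝ) : ℝ :=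
  n * gBose (η * NA + (1 - η) * NB)
    + η * bet (η * NA + (1 - η) * NB) / bet NA * (sA - n * gBose NA)
    + (1 - η) * bet (η * NA + (1 - η) * NB) / bet NB * (sB - n * gBose NB)

/-- The finite-dimensional core. -/
def CoreStmt : Prop :=
  ∀ (n : ℕ) (η : ℝ), η ∈ Set.Icc (0 : ℝ) 1 → ∀ NA NB : ℝ, 0 < NA → 0 < NB → ∀ (K0 : ℕ) (κ : ℝ), 0 < κ →
    ∃ K : ℕ, K0 ≤ K ∧ ∀ A B : Matrix (Box n K) (Box n K) ℂ, IsDensity A → IsDensity B →
      (∀ i j, ¬ (InBox K0 (toOcc i) ∧ InBox K0 (toOcc j)) → A i j = 0) →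
      (∀ i j, ¬ (InBox K0 (toOcc i) ∧ InBox K0 (toOcc j)) → B i j = 0) →
      lhs n η NA NB (vnEntropy A) (vnEntropy B) - κ ≤ vnEntropy (bsOutput η A B)

theorem lin_fin (hc : CoreStmt) {n : ℕ} {η : ℝ} (hη : η ∈ Set.Icc (0 : ℝ) 1) {NA NB : ℝ}
    (hNA : 0 < NA) (hNB : 0 < NB) {K0 : ℕ} {A B C : FockState n} (hA : Supp A K0) (hB : Supp B K0)
    (h : IsBeamSplitterOutput η A B C) {sA sB sC : ℝ} (hsA : HasEntropy A sA)
    (hsB : HasEntropy B sB) (hsC : HasEntropy C sC) : lhs n η NA NB sA sB ≤ sC := by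
  refine le_of_forall_pos_le_add fun κ hκ => ?_
  obtain ⟨K, hK, H⟩ := hc n η hη NA NB hNA hNB K0 κ hκ
  have hA' := hA.mono hK
  have hB' := hB.mono hK
  have := H (mat A K) (mat B K) (mat_density hA') (mat_density hB')
    (fun i j hij => hA _ _ hij) (fun i j hij => hB _ _ hij)
  rw [← out_mat hA' hB' h, ← HasSum.unique hsA (hasEntropy_mat hA'),
    ← HasSum.unique hsB (hasEntropy_mat hB'),
    ← HasSum.unique hsC (hasEntropy_mat (out_supp hA' hB' h))] at this
  linarith

theorem bet_pos {N : ℝ} (hN : 0 < N) : 0 < bet N :=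
  Real.log_pos (by have := one_div_pos.2 hN; linarith)

theorem mix_pos {η NA NB : ℝ} (hη : η ∈ Set.Icc (0 : ℝ) 1) (hNA : 0 < NA) (hNB : 0 < NB) :
    0 < η * NA + (1 - η) * NB := by
  rcases hη.1.eq_or_lt with h | h
  · subst h; simpa using hNB
  · have := mul_pos h hNA
    have := mul_nonneg (sub_nonneg.2 hη.2) hNB.le
    linarith

/-- Truncate (`exists_trunc`), take outputs (`exists_out`), `lsc` for the inputs, `usc` for the output. -/
theorem lin (hc : CoreStmt) {n : ℕ} {η : ℝ} (hη : η ∈ Set.Icc (0 : ℝ) 1) {NA NB : ℝ}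
    (hNA : 0 < NA) (hNB : 0 < NB) {A B C : FockState n} {EA EB : ℝ} (hA : EnergyLE A EA)
    (hB : EnergyLE B EB) (h : IsBeamSplitterOutput η A B C) {sA sB sC : ℝ} (hsA : HasEntropy A sA)
    (hsB : HasEntropy B sB) (hsC : HasEntropy C sC) : lhs n η NA NB sA sB ≤ sC := by
  obtain ⟨As, hAs, hAe, hAc⟩ := exists_trunc A hA
  obtain ⟨Bs, hBs, hBe, hBc⟩ := exists_trunc B hB
  choose Cs hCs using fun K => exists_out hη (As K) (Bs K)
  have hCe : ∀ K, EnergyLE (Cs K) (EA + EB) := fun K => out_energy hη (hAe K) (hBe K) (hCs K)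
  choose a ha using fun K => exists_entropy (hAe K)
  choose b hb using fun K => exists_entropy (hBe K)
  choose c hcc using fun K => exists_entropy (hCe K)
  have hCc := out_conv hη hAc hBc hCs h
  have hmix := bet_pos (mix_pos hη hNA hNB)
  set α := η * bet (η * NA + (1 - η) * NB) / bet NA with hα
  set β := (1 - η) * bet (η * NA + (1 - η) * NB) / bet NB with hβ
  have hα0 : 0 ≤ α := div_nonneg (mul_nonneg hη.1 hmix.le) (bet_pos hNA).le
  have hβ0 : 0 ≤ β := div_nonneg (mul_nonneg (sub_nonneg.2 hη.2) hmix.le) (bet_pos hNB).le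
  refine le_of_forall_pos_le_add fun κ hκ => ?_
  have hε : 0 < κ / (α + β + 1) := by positivity
  obtain ⟨K, h1, h2, h3⟩ := ((lsc hAc ha hsA hε).and ((lsc hBc hb hsB hε).and
    (usc hCc hcc hsC hCe hε))).exists
  have h4 := lin_fin hc hη hNA hNB (hAs K) (hBs K) (hCs K) (ha K) (hb K) (hcc K)
  have h5 : κ / (α + β + 1) * (α + β + 1) = κ := by field_simp
  unfold lhs at h4 ⊢
  rw [← hα, ← hβ] at h4 ⊢
  nlinarith [mul_le_mul_of_nonneg_left h1 hα0, mul_le_mul_of_nonneg_left h2 hβ0]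

theorem edge_bet_anti {a b : ℝ} (ha : 0 < a) (hab : a ≤ b) : bet b ≤ bet a := by
  have hb : 0 < b := ha.trans_le hab
  unfold bet
  apply Real.log_le_log (by have := one_div_pos.2 hb; linarith)
  have := one_div_le_one_div_of_le ha hab
  linarith

theorem edge_gBose_cont : Continuous gBose := by
  have h1 : Continuous fun t : ℝ => (t + 1) * Real.log (t + 1) :=
    Real.continuous_mul_log.comp (continuous_id.add continuous_const)
  exact h1.sub Real.continuous_mul_log

theorem edge_term {n : ℕ} {a c t : ℝ} (hc : 0 < c) (ht : 0 ≤ t) :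
    Tendsto (fun e : ℝ => a * bet (c + e) / bet (t + e) * (n * gBose t - n * gBose (t + e)))
      (𝓝[>] 0) (𝓝 0) := by
  have h1 : Tendsto (fun e : ℝ => (n : ℝ) * gBose t - n * gBose (t + e)) (𝓝[>] 0) (𝓝 0) := by
    have hcont : Continuous fun e : ℝ => (n : ℝ) * gBose t - n * gBose (t + e) :=
      continuous_const.sub (continuous_const.mul
        (edge_gBose_cont.comp (continuous_const.add continuous_id)))
    have := (hcont.tendsto 0).mono_left (nhdsWithin_le_nhds (s := Set.Ioi (0 : ℝ)))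
    simpa using this
  have h2 : Tendsto (fun e : ℝ => (|a| * bet c / bet (t + 1)) *
      |(n : ℝ) * gBose t - n * gBose (t + e)|) (𝓝[>] 0) (𝓝 0) := by
    have := (h1.abs).const_mul (|a| * bet c / bet (t + 1))
    simpa using this
  refine squeeze_zero_norm' ?_ h2
  filter_upwards [Ioo_mem_nhdsGT (show (0 : ℝ) < 1 by norm_num)] with e he
  have p1 : 0 < bet (c + e) := bet_pos (by linarith [he.1])
  have p2 : 0 < bet (t + e) := bet_pos (by linarith [he.1])
  have p3 : 0 < bet (t + 1) := bet_pos (by linarith)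
  have p4 : 0 < bet c := bet_pos hc
  have q1 : bet (c + e) ≤ bet c := edge_bet_anti hc (by linarith [he.1])
  have q2 : bet (t + 1) ≤ bet (t + e) := edge_bet_anti (by linarith [he.1]) (by linarith [he.2])
  rw [Real.norm_eq_abs, abs_mul, abs_div, abs_mul, abs_of_pos p1, abs_of_pos p2]
  gcongr

/-- `NA = tA + ε`, `NB = tB + ε`, `ε → 0`. -/
theorem edge {n : ℕ} {η tA tB sC : ℝ} (hη : η ∈ Set.Icc (0 : ℝ) 1) (htA : 0 ≤ tA) (htB : 0 ≤ tB)
    (h0 : 0 ≤ sC)
    (h : ∀ NA NB, 0 < NA → 0 < NB → lhs n η NA NB (n * gBose tA) (n * gBose tB) ≤ sC) :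
    n * gBose (η * tA + (1 - η) * tB) ≤ sC := by
  have hc0 : 0 ≤ η * tA + (1 - η) * tB :=
    add_nonneg (mul_nonneg hη.1 htA) (mul_nonneg (sub_nonneg.2 hη.2) htB)
  rcases hc0.eq_or_lt with hc | hc
  · rw [← hc]
    simpa [gBose] using h0
  · set c := η * tA + (1 - η) * tB with hcdef
    have h1 : Tendsto (fun e : ℝ => (n : ℝ) * gBose (c + e)) (𝓝[>] 0) (𝓝 (n * gBose c)) := by
      have hcont : Continuous fun e : ℝ => (n : ℝ) * gBose (c + e) :=
        continuous_const.mul (edge_gBose_cont.comp (continuous_const.add continuous_id))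
      have := (hcont.tendsto 0).mono_left (nhdsWithin_le_nhds (s := Set.Ioi (0 : ℝ)))
      simpa using this
    have h2 := (h1.add (edge_term (n := n) (a := η) hc htA)).add
      (edge_term (n := n) (a := 1 - η) hc htB)
    rw [add_zero, add_zero] at h2
    refine le_of_tendsto h2 ?_
    filter_upwards [self_mem_nhdsWithin] with e he
    have he' : 0 < e := he
    have := h (tA + e) (tB + e) (by linarith) (by linarith)
    unfold lhs at this
    have e1 : η * (tA + e) + (1 - η) * (tB + e) = c + e := by rw [hcdef]; ring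
    rw [e1] at this
    exact this

theorem final (hc : CoreStmt) (n : ℕ) (hn : 1 ≤ n) (η : ℝ)
    (hη : η ∈ Set.Icc (0 : ℝ) 1) (ρA ρB : FockState n) (hA : FiniteEnergy ρA) (hB : FiniteEnergy ρB)
    (sA sB : ℝ) (hsA : HasEntropy ρA sA) (hsB : HasEntropy ρB sB) (tA tB : ℝ) (htA : 0 ≤ tA)
    (htB : 0 ≤ tB) (hgA : gBose tA = sA / n) (hgB : gBose tB = sB / n) :
    ∃ ρC : FockState n, IsBeamSplitterOutput η ρA ρB ρC ∧
      ∃ sC : ℝ, HasEntropy ρC sC ∧ gBose (η * tA + (1 - η) * tB) ≤ sC / n := by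
  obtain ⟨EA, hEA⟩ := energyLE_of_finite hA
  obtain ⟨EB, hEB⟩ := energyLE_of_finite hB
  obtain ⟨C, hC⟩ := exists_out hη ρA ρB
  obtain ⟨sC, hsC⟩ := exists_entropy (out_energy hη hEA hEB hC)
  refine ⟨C, hC, sC, hsC, ?_⟩
  have hn' : (0 : ℝ) < n := by exact_mod_cast hn
  have eA : sA = n * gBose tA := by rw [hgA]; field_simp
  have eB : sB = n * gBose tB := by rw [hgB]; field_simp
  rw [le_div_iff₀ hn', mul_comm]
  refine edge hη htA htB (entropy_nonneg hsC) fun NA NB hNA hNB => ?_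
  rw [← eA, ← eB]
  exact lin hc hη hNA hNB hEA hEB hC hsA hsB hsC

end Crest.Agent.R331.Sh

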