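import Crest.Agent.R331.ShKer

/-! Row 331, shell: entrywise convergence of states is norm convergence. -/

set_option autoImplicit false

open Crest.MathPhysics.Bosonic Crest.Quantum Filter Topology
open scoped ComplexOrder InnerProductSpace

noncomputable section

namespace Crest.Agent.R331.Sh

/-- Tightness of pointwise convergent probability vectors. -/
theorem tight {ι : Type*} (x : ℕ → ι → ℝ) (y : ι → ℝ) (hy : HasSum y 1)
    (hc : ∀ i, Tendsto (fun K => x K i) atTop (𝓝 (y i))) {ε : ℝ} (hε : 0 < ε) :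
    ∃ F : Finset ι, 1 - ε ≤ ∑ i ∈ F, y i ∧ ∀ᶠ K in atTop, 1 - ε ≤ ∑ i ∈ F, x K i := by
  obtain ⟨F, hF⟩ := (hy.eventually (lt_mem_nhds (show 1 - ε < 1 by linarith))).exists
  exact ⟨F, hF.le, ((tendsto_finsetSum F fun i _ => hc i).eventually (lt_mem_nhds hF)).mono
    fun _ h => h.le⟩

/-- The mass outside `F`. -/
theorem sum_le_of_disjoint {ι : Type*} {x : ι → ℝ} (h0 : ∀ i, 0 ≤ x i) (hx : HasSum x 1)
    {F s : Finset ι} (hd : Disjoint s F) : ∑ i ∈ s, x i ≤ 1 - ∑ i ∈ F, x i := by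
  classical
  have := sum_le_hasSum (s ∪ F) (fun i _ => h0 i) hx
  rw [Finset.sum_union hd] at this
  linarith

theorem tail_single_eq {n : ℕ} (k : Occ n) (c : ℂ) :
    (lp.single 2 k c : Fock n) = c • ket k := by
  unfold ket
  rw [← lp.single_smul]
  simp

theorem tail_fin {n : ℕ} (ρ : FockState n) (F : Finset (Occ n)) (y : Fock n)
    (hy : ∀ k ∈ F, y k = 0) (s : Finset (Occ n)) :
    (⟪∑ k ∈ s, (lp.single 2 k (y k) : Fock n),
      ρ.op (∑ k ∈ s, (lp.single 2 k (y k) : Fock n))⟫_ℂ).re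
      ≤ (1 - ∑ k ∈ F, (entry ρ.op k k).re) * ‖y‖ ^ 2 := by
  classical
  set d : Occ n → ℝ := fun k => (entry ρ.op k k).re with hd
  have hd0 : ∀ k, 0 ≤ d k := diag_nonneg ρ
  have hent : ∀ k l, ‖entry ρ.op k l‖ ≤ Real.sqrt (d k) * Real.sqrt (d l) := by
    intro k l
    rw [← Real.sqrt_mul (hd0 k)]
    exact Real.le_sqrt_of_sq_le (psd_norm_sq_le (ker_psd ρ) k l)
  have h1 : ‖⟪∑ k ∈ s, (lp.single 2 k (y k) : Fock n),
      ρ.op (∑ k ∈ s, (lp.single 2 k (y k) : Fock n))⟫_ℂ‖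
      ≤ (∑ k ∈ s, ‖y k‖ * Real.sqrt (d k)) ^ 2 := by
    rw [map_sum, sum_inner, sq, Finset.sum_mul_sum]
    refine (norm_sum_le _ _).trans (Finset.sum_le_sum fun k _ => ?_)
    rw [inner_sum]
    refine (norm_sum_le _ _).trans (Finset.sum_le_sum fun l _ => ?_)
    rw [tail_single_eq, tail_single_eq, map_smul, inner_smul_left, inner_smul_right, norm_mul,
      norm_mul, RCLike.norm_conj]
    have := hent k l
    unfold entry at this
    calc ‖y k‖ * (‖y l‖ * ‖⟪ket k, ρ.op (ket l)⟫_ℂ‖)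
        ≤ ‖y k‖ * (‖y l‖ * (Real.sqrt (d k) * Real.sqrt (d l))) := by gcongr
      _ = _ := by ring
  have h2 : ∑ k ∈ s, ‖y k‖ * Real.sqrt (d k) = ∑ k ∈ s \ F, ‖y k‖ * Real.sqrt (d k) := by
    symm
    refine Finset.sum_subset Finset.sdiff_subset fun k hk hk' => ?_
    have : k ∈ F := by
      by_contra h
      exact hk' (Finset.mem_sdiff.2 ⟨hk, h⟩)
    simp [hy k this]
  have h3 : (∑ k ∈ s \ F, ‖y k‖ * Real.sqrt (d k)) ^ 2
      ≤ (∑ k ∈ s \ F, ‖y k‖ ^ 2) * ∑ k ∈ s \ F, d k := by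
    refine (Finset.sum_mul_sq_le_sq_mul_sq _ _ _).trans (le_of_eq ?_)
    congr 1
    exact Finset.sum_congr rfl fun k _ => Real.sq_sqrt (hd0 k)
  have h4 : ∑ k ∈ s \ F, d k ≤ 1 - ∑ k ∈ F, d k :=
    sum_le_of_disjoint hd0 ρ.traceOne Finset.sdiff_disjoint
  have h5 : ∑ k ∈ s \ F, ‖y k‖ ^ 2 ≤ ‖y‖ ^ 2 := by
    have := lp.sum_rpow_le_norm_rpow (p := 2) (by norm_num) y (s \ F)
    simpa using this
  have h6 : 0 ≤ ∑ k ∈ s \ F, d k := Finset.sum_nonneg fun k _ => hd0 k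
  calc _ ≤ _ := Complex.re_le_norm _
    _ ≤ _ := h1
    _ ≤ (∑ k ∈ s \ F, ‖y k‖ ^ 2) * ∑ k ∈ s \ F, d k := by rw [h2]; exact h3
    _ ≤ ‖y‖ ^ 2 * (1 - ∑ k ∈ F, d k) := by gcongr
    _ = _ := by ring

/-- If `y` vanishes on `F` then `⟪y, ρ y⟫ ≤ (1 - ∑_{k ∈ F} ρ_kk) ‖y‖²`:
`|⟪y, ρ y⟫| ≤ (∑_{k ∉ F} |y k| √ρ_kk)²` by `psd_norm_sq_le` on finite partial sums. -/
theorem inner_le_tail {n : ℕ} (ρ : FockState n) (F : Finset (Occ n)) (y : Fock n)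
    (hy : ∀ k ∈ F, y k = 0) :
    (⟪y, ρ.op y⟫_ℂ).re ≤ (1 - ∑ k ∈ F, (entry ρ.op k k).re) * ‖y‖ ^ 2 := by
  have hs : HasSum (fun k => (lp.single 2 k (y k) : Fock n)) y :=
    lp.hasSum_single (by norm_num) y
  have hc : Continuous fun z : Fock n => (⟪z, ρ.op z⟫_ℂ).re :=
    Complex.continuous_re.comp (continuous_id.inner ρ.op.continuous)
  exact le_of_tendsto' ((hc.tendsto y).comp hs) fun s => tail_fin ρ F y hy s

theorem inner_le_one {n : ℕ} (ρ : FockState n) (y : Fock n) : (⟪y, ρ.op y⟫_ℂ).re ≤ ‖y‖ ^ 2 := by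
  simpa using inner_le_tail ρ ∅ y (by simp)

theorem normA_cs {H : Type*} [NormedAddCommGroup H] [InnerProductSpace ℂ H] {T : H →L[ℂ] H}
    (hT : T.IsPositive) (x y : H) :
    ‖⟪x, T y⟫_ℂ‖ ^ 2 ≤ (⟪x, T x⟫_ℂ).re * (⟪y, T y⟫_ℂ).re := by
  have hs : ∀ x y : H, (starRingEnd ℂ) ⟪y, T x⟫_ℂ = ⟪x, T y⟫_ℂ := fun x y => by
    rw [inner_conj_symm, hT.inner_left_eq_inner_right]
  have h := @InnerProductSpace.Core.inner_mul_inner_self_le ℂ H _ _ _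
    { inner := fun x y => ⟪x, T y⟫_ℂ
      conj_inner_symm := hs
      re_inner_nonneg := fun x => hT.re_inner_nonneg_right x
      add_left := fun x y z => inner_add_left _ _ _
      smul_left := fun x y r => inner_smul_left _ _ _ } x y
  change ‖⟪x, T y⟫_ℂ‖ * ‖⟪y, T x⟫_ℂ‖ ≤ (⟪x, T x⟫_ℂ).re * (⟪y, T y⟫_ℂ).re at h
  rwa [← hs y x, RCLike.norm_conj, ← sq] at h

/-- Cauchy-Schwarz for the positive operator. -/
theorem inner_cs {n : ℕ} (ρ : FockState n) (x y : Fock n) :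
    ‖⟪x, ρ.op y⟫_ℂ‖ ^ 2 ≤ (⟪x, ρ.op x⟫_ℂ).re * (⟪y, ρ.op y⟫_ℂ).re := by
  exact normA_cs ρ.pos x y

theorem norm_sub_le_ket {n : ℕ} (k : Occ n) (z : Fock n) : ⟪ket k, z⟫_ℂ = z k := by
  simp [ket, lp.inner_single_left]

/-- The projection on the coordinates in `F`. -/
def norm_sub_le_P {n : ℕ} (F : Finset (Occ n)) (x : Fock n) : Fock n := ∑ k ∈ F, x k • ket k

theorem norm_sub_le_P_apply {n : ℕ} (F : Finset (Occ n)) (x : Fock n) {j : Occ n} (hj : j ∈ F) :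
    (x - norm_sub_le_P F x) j = 0 := by
  classical
  rw [← norm_sub_le_ket, inner_sub_right, norm_sub_le_ket, norm_sub_le_P, inner_sum,
    Finset.sum_eq_single j]
  · rw [inner_smul_right, norm_sub_le_ket]
    simp [ket]
  · intro k _ hk
    rw [inner_smul_right, norm_sub_le_ket]
    simp [ket, lp.single_apply, hk.symm]
  · exact fun h => absurd hj h

theorem norm_sub_le_P_norm {n : ℕ} (F : Finset (Occ n)) (x : Fock n) :
    ‖norm_sub_le_P F x‖ ≤ ‖x‖ ∧ ‖x - norm_sub_le_P F x‖ ≤ ‖x‖ := by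
  have h0 : ⟪norm_sub_le_P F x, x - norm_sub_le_P F x⟫_ℂ = 0 := by
    conv_lhs => arg 2; rw [norm_sub_le_P]
    rw [sum_inner]
    refine Finset.sum_eq_zero fun k hk => ?_
    rw [inner_smul_left, norm_sub_le_ket, norm_sub_le_P_apply F x hk, mul_zero]
  have h1 := norm_add_sq_eq_norm_sq_add_norm_sq_of_inner_eq_zero _ _ h0
  rw [add_sub_cancel] at h1
  constructor
  · exact abs_le_of_sq_le_sq' (by nlinarith [mul_self_nonneg ‖x - norm_sub_le_P F x‖])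
      (norm_nonneg _) |>.2
  · exact abs_le_of_sq_le_sq' (by nlinarith [mul_self_nonneg ‖norm_sub_le_P F x‖])
      (norm_nonneg _) |>.2

theorem norm_sub_le_one {n : ℕ} (ρ : FockState n) (F : Finset (Occ n)) {ε : ℝ} (hε : 0 ≤ ε)
    (hρ : 1 - ε ≤ ∑ k ∈ F, (entry ρ.op k k).re) (x y : Fock n) :
    ‖⟪x, ρ.op y⟫_ℂ - ⟪norm_sub_le_P F x, ρ.op (norm_sub_le_P F y)⟫_ℂ‖ ≤
      2 * Real.sqrt ε * (‖x‖ * ‖y‖) := by
  have hpos : ∀ z : Fock n, 0 ≤ (⟪z, ρ.op z⟫_ℂ).re := fun z => ρ.pos.re_inner_nonneg_right z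
  have htail : ∀ z : Fock n, (⟪z - norm_sub_le_P F z, ρ.op (z - norm_sub_le_P F z)⟫_ℂ).re ≤
      ε * ‖z‖ ^ 2 := fun z => by
    have h1 := inner_le_tail ρ F (z - norm_sub_le_P F z) fun k hk => norm_sub_le_P_apply F z hk
    have h2 : ‖z - norm_sub_le_P F z‖ ^ 2 ≤ ‖z‖ ^ 2 :=
      pow_le_pow_left₀ (norm_nonneg _) (norm_sub_le_P_norm F z).2 2
    calc _ ≤ _ := h1
      _ ≤ ε * ‖z - norm_sub_le_P F z‖ ^ 2 :=
        mul_le_mul_of_nonneg_right (by linarith) (sq_nonneg _)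
      _ ≤ ε * ‖z‖ ^ 2 := mul_le_mul_of_nonneg_left h2 hε
  have hs : (Real.sqrt ε * (‖x‖ * ‖y‖)) ^ 2 = ε * ‖x‖ ^ 2 * ‖y‖ ^ 2 := by
    rw [mul_pow, Real.sq_sqrt hε]; ring
  have hn : 0 ≤ Real.sqrt ε * (‖x‖ * ‖y‖) := by positivity
  have e1 : ‖⟪x - norm_sub_le_P F x, ρ.op y⟫_ℂ‖ ≤ Real.sqrt ε * (‖x‖ * ‖y‖) := by
    refine (abs_le_of_sq_le_sq' ?_ hn).2
    rw [hs]
    exact (inner_cs ρ _ _).trans
      (mul_le_mul (htail x) (inner_le_one ρ y) (hpos _) (by positivity))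
  have e2 : ‖⟪norm_sub_le_P F x, ρ.op (y - norm_sub_le_P F y)⟫_ℂ‖ ≤
      Real.sqrt ε * (‖x‖ * ‖y‖) := by
    refine (abs_le_of_sq_le_sq' ?_ hn).2
    rw [hs]
    have h2 : ‖norm_sub_le_P F x‖ ^ 2 ≤ ‖x‖ ^ 2 :=
      pow_le_pow_left₀ (norm_nonneg _) (norm_sub_le_P_norm F x).1 2
    calc _ ≤ _ := inner_cs ρ _ _
      _ ≤ ‖x‖ ^ 2 * (ε * ‖y‖ ^ 2) :=
        mul_le_mul ((inner_le_one ρ _).trans h2) (htail y) (hpos _) (by positivity)
      _ = _ := by ring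
  have e : ⟪x, ρ.op y⟫_ℂ - ⟪norm_sub_le_P F x, ρ.op (norm_sub_le_P F y)⟫_ℂ =
      ⟪x - norm_sub_le_P F x, ρ.op y⟫_ℂ +
        ⟪norm_sub_le_P F x, ρ.op (y - norm_sub_le_P F y)⟫_ℂ := by
    rw [inner_sub_left, map_sub, inner_sub_right]; ring
  rw [e]
  refine (norm_add_le _ _).trans ?_
  linarith

theorem norm_sub_le_fin {n : ℕ} (T : Fock n →L[ℂ] Fock n) (F : Finset (Occ n)) (x y : Fock n) :
    ⟪norm_sub_le_P F x, T (norm_sub_le_P F y)⟫_ℂ =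
      ∑ k ∈ F, ∑ l ∈ F, (starRingEnd ℂ) (x k) * (y l * entry T k l) := by
  simp only [norm_sub_le_P, map_sum, map_smul, sum_inner, inner_sum, inner_smul_left,
    inner_smul_right, entry, Finset.mul_sum]
  rw [Finset.sum_comm]
  exact Finset.sum_congr rfl fun _ _ => Finset.sum_congr rfl fun _ _ => by ring

/-- With `P` the projection on `F`: `|⟪x, (ρ - σ) y⟫| ≤ |⟪Px, (ρ - σ) Py⟫| + 2√ε + 2√ε` for unit
vectors (`⟪x, ρ y⟫ - ⟪Px, ρ Py⟫ = ⟪x - Px, ρ y⟫ + ⟪Px, ρ (y - Py)⟫`). -/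
theorem norm_sub_le {n : ℕ} (ρ σ : FockState n) (F : Finset (Occ n)) {ε : ℝ} (hε : 0 ≤ ε)
    (hρ : 1 - ε ≤ ∑ k ∈ F, (entry ρ.op k k).re) (hσ : 1 - ε ≤ ∑ k ∈ F, (entry σ.op k k).re) :
    ‖ρ.op - σ.op‖ ≤ ∑ k ∈ F, ∑ l ∈ F, ‖entry ρ.op k l - entry σ.op k l‖ + 4 * Real.sqrt ε := by
  set C := ∑ k ∈ F, ∑ l ∈ F, ‖entry ρ.op k l - entry σ.op k l‖ with hC
  have hC0 : 0 ≤ C := Finset.sum_nonneg fun _ _ => Finset.sum_nonneg fun _ _ => norm_nonneg _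
  have key : ∀ x y : Fock n,
      ‖⟪x, (ρ.op - σ.op) y⟫_ℂ‖ ≤ (C + 4 * Real.sqrt ε) * (‖x‖ * ‖y‖) := by
    intro x y
    have h1 := norm_sub_le_one ρ F hε hρ x y
    have h2 := norm_sub_le_one σ F hε hσ x y
    have h3 : ‖⟪norm_sub_le_P F x, ρ.op (norm_sub_le_P F y)⟫_ℂ -
        ⟪norm_sub_le_P F x, σ.op (norm_sub_le_P F y)⟫_ℂ‖ ≤ C * (‖x‖ * ‖y‖) := by
      rw [norm_sub_le_fin, norm_sub_le_fin, ← Finset.sum_sub_distrib, hC, Finset.sum_mul]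
      refine norm_sum_le_of_le _ fun k _ => ?_
      rw [← Finset.sum_sub_distrib, Finset.sum_mul]
      refine norm_sum_le_of_le _ fun l _ => ?_
      rw [← mul_sub, ← mul_sub, norm_mul, norm_mul, RCLike.norm_conj]
      have hx : ‖x k‖ ≤ ‖x‖ := lp.norm_apply_le_norm (by norm_num) x k
      have hy : ‖y l‖ ≤ ‖y‖ := lp.norm_apply_le_norm (by norm_num) y l
      calc _ = ‖entry ρ.op k l - entry σ.op k l‖ * (‖x k‖ * ‖y l‖) := by ring
        _ ≤ _ := mul_le_mul_of_nonneg_left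
          (mul_le_mul hx hy (norm_nonneg _) (norm_nonneg _)) (norm_nonneg _)
    have e : ⟪x, (ρ.op - σ.op) y⟫_ℂ =
        (⟪x, ρ.op y⟫_ℂ - ⟪norm_sub_le_P F x, ρ.op (norm_sub_le_P F y)⟫_ℂ) +
        (⟪norm_sub_le_P F x, ρ.op (norm_sub_le_P F y)⟫_ℂ -
          ⟪norm_sub_le_P F x, σ.op (norm_sub_le_P F y)⟫_ℂ) -
        (⟪x, σ.op y⟫_ℂ - ⟪norm_sub_le_P F x, σ.op (norm_sub_le_P F y)⟫_ℂ) := by
      rw [sub_apply, inner_sub_right]; ring
    rw [e]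
    refine (_root_.norm_sub_le _ _).trans ((add_le_add (norm_add_le _ _) le_rfl).trans ?_)
    linarith
  refine ContinuousLinearMap.opNorm_le_bound _ (by positivity) fun y => ?_
  have h := key ((ρ.op - σ.op) y) y
  rw [inner_self_eq_norm_sq_to_K] at h
  simp only [norm_pow, RCLike.norm_ofReal, abs_norm] at h
  rcases (norm_nonneg ((ρ.op - σ.op) y)).eq_or_lt with h0 | h0
  · rw [← h0]; positivity
  · refine le_of_mul_le_mul_left ?_ h0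
    nlinarith

theorem norm_conv {n : ℕ} {ρ : ℕ → FockState n} {σ : FockState n} (h : EConv ρ σ) :
    Tendsto (fun K => (ρ K).op) atTop (𝓝 σ.op) := by
  rw [tendsto_iff_norm_sub_tendsto_zero]
  refine tendsto_order.2 ⟨fun a ha => Eventually.of_forall fun K => ha.trans_le (norm_nonneg _),
    fun a ha => ?_⟩
  have hε : 0 < (a / 8) ^ 2 := by positivity
  obtain ⟨F, h1, h2⟩ := tight (fun K k => (entry (ρ K).op k k).re) (fun k => (entry σ.op k k).re)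
    σ.traceOne (fun k => (Complex.continuous_re.tendsto _).comp (h k k)) hε
  have h3 : Tendsto (fun K => ∑ k ∈ F, ∑ l ∈ F, ‖entry (ρ K).op k l - entry σ.op k l‖) atTop
      (𝓝 (∑ k ∈ F, ∑ l ∈ F, (0 : ℝ))) :=
    tendsto_finsetSum F fun k _ => tendsto_finsetSum F fun l _ =>
      tendsto_iff_norm_sub_tendsto_zero.1 (h k l)
  simp only [Finset.sum_const_zero] at h3
  filter_upwards [h2, h3.eventually (gt_mem_nhds (show 0 < a / 2 by linarith))] with K e1 e2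
  have := norm_sub_le (ρ K) σ F hε.le e1 h1
  rw [Real.sqrt_sq (by linarith)] at this
  linarith

end Crest.Agent.R331.Sh

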