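import Crest.Agent.R331.ShState
import Crest.Agent.R331.ShNorm
import Crest.Agent.R331.Amp

/-! Row 331, shell: the output state of the beam splitter. -/

set_option autoImplicit false

open Crest.MathPhysics.Bosonic Crest.Quantum Filter Topology
open scoped ComplexOrder InnerProductSpace

noncomputable section

namespace Crest.Agent.R331.Sh

/-- One mode pair: the amplitudes of the sector with `m` photons form an orthogonal matrix. -/
theorem bsAmp_orth {η : ℝ} (hη : η ∈ Set.Icc (0 : ℝ) 1) (m : ℕ) (a b : Fin (m + 1)) :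
    ∑ p : Fin (m + 1), bsAmp η a (m - a) p (m - p) * bsAmp η b (m - b) p (m - p) =
      if a = b then 1 else 0 := by
  have h := Crest.Agent.R331.amp_orth_out hη m a (m - a) b (m - b)
    (by have := a.2; omega) (by have := b.2; omega)
  rw [Finset.Nat.sum_antidiagonal_eq_sum_range_succ_mk, Finset.sum_range] at h
  simpa [Fin.ext_iff] using h

/-- `n` mode pairs (`Finset.prod_univ_sum`). -/
theorem amp_orth {n : ℕ} {η : ℝ} (hη : η ∈ Set.Icc (0 : ℝ) 1) (m : Occ n) (a b : Splitting m) :
    ∑ k : Splitting m, ampOcc η a.fst a.snd k.fst k.snd * ampOcc η b.fst b.snd k.fst k.snd =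
      if a = b then 1 else 0 := by
  have h1 : ∀ k : Splitting m,
      ampOcc η a.fst a.snd k.fst k.snd * ampOcc η b.fst b.snd k.fst k.snd =
        ∏ j, (bsAmp η (a j) (m j - a j) (k j) (m j - k j) *
          bsAmp η (b j) (m j - b j) (k j) (m j - k j)) := fun k =>
    (Finset.prod_mul_distrib (s := Finset.univ)
      (f := fun j => bsAmp η (a j) (m j - a j) (k j) (m j - k j))
      (g := fun j => bsAmp η (b j) (m j - b j) (k j) (m j - k j))).symm
  rw [Finset.sum_congr rfl fun k _ => h1 k]
  have h2 := Finset.prod_univ_sum (fun j : Fin n => (Finset.univ : Finset (Fin (m j + 1))))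
    (fun j (p : Fin (m j + 1)) => bsAmp η (a j) (m j - a j) p (m j - p) *
      bsAmp η (b j) (m j - b j) p (m j - p))
  rw [Fintype.piFinset_univ] at h2
  rw [← h2, Finset.prod_congr rfl fun j _ => bsAmp_orth hη (m j) (a j) (b j)]
  by_cases h : a = b
  · subst h
    simp
  · rw [if_neg h]
    obtain ⟨j, hj⟩ := Function.ne_iff.1 h
    exact Finset.prod_eq_zero (Finset.mem_univ j) (if_neg hj)

theorem outBlock_eq {n : ℕ} (η : ℝ) (A B : FockState n) (k l e : Occ n) {m m' : Occ n}
    (hm : k + e = m) (hm' : l + e = m') :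
    outBlock η A B k l e = ∑ a : Splitting m, ∑ b : Splitting m',
      (ampOcc η a.fst a.snd k e : ℂ) * entry A.op a.fst b.fst * entry B.op a.snd b.snd *
        (ampOcc η b.fst b.snd l e : ℂ) := by
  subst hm hm'
  rfl

theorem block_psd {n : ℕ} (η : ℝ) (A B : FockState n) (e : Occ n) :
    (Matrix.of fun k l => outBlock η A B k l e).PosSemidef := by
  have h := psd_pull (S := fun k : Occ n => Splitting (k + e)) (psd_prod (ker_psd A) (ker_psd B))
    (fun _ a => (a.fst, a.snd)) (fun k a => ampOcc η a.fst a.snd k e)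
  refine (congrArg Matrix.PosSemidef ?_).mp h
  ext k l
  show ∑ a : Splitting (k + e), ∑ b : Splitting (l + e),
      (ampOcc η a.fst a.snd k e : ℂ) * (entry A.op a.fst b.fst * entry B.op a.snd b.snd) *
        (ampOcc η b.fst b.snd l e : ℂ) = outBlock η A B k l e
  unfold outBlock
  refine Finset.sum_congr rfl fun a _ => Finset.sum_congr rfl fun b _ => ?_
  ring

/-- The mass of the sector `m` is conserved (`outBlock_eq` with `Splitting.add`, `amp_orth`). -/
theorem sector_sum {n : ℕ} {η : ℝ} (hη : η ∈ Set.Icc (0 : ℝ) 1) (A B : FockState n) (m : Occ n) :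
    ∑ k : Splitting m, (outBlock η A B k.fst k.fst k.snd).re =
      ∑ a : Splitting m, (entry A.op a.fst a.fst).re * (entry B.op a.snd a.snd).re := by
  have h1 : ∑ k : Splitting m, outBlock η A B k.fst k.fst k.snd =
      ∑ a : Splitting m, entry A.op a.fst a.fst * entry B.op a.snd a.snd := by
    rw [Finset.sum_congr rfl fun k _ =>
      outBlock_eq η A B k.fst k.fst k.snd (Splitting.add k) (Splitting.add k), Finset.sum_comm]
    refine Finset.sum_congr rfl fun a _ => ?_
    rw [Finset.sum_comm]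
    have h2 : ∀ b : Splitting m, ∑ k : Splitting m, (ampOcc η a.fst a.snd k.fst k.snd : ℂ) *
        entry A.op a.fst b.fst * entry B.op a.snd b.snd * (ampOcc η b.fst b.snd k.fst k.snd : ℂ) =
        if a = b then entry A.op a.fst b.fst * entry B.op a.snd b.snd else 0 := by
      intro b
      have h3 := congrArg (fun x : ℝ => (x : ℂ)) (amp_orth hη m a b)
      simp only [Complex.ofReal_sum, Complex.ofReal_mul] at h3
      calc _ = (∑ k : Splitting m, (ampOcc η a.fst a.snd k.fst k.snd : ℂ) *
              (ampOcc η b.fst b.snd k.fst k.snd : ℂ)) *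
            (entry A.op a.fst b.fst * entry B.op a.snd b.snd) := by
            rw [Finset.sum_mul]
            exact Finset.sum_congr rfl fun k _ => by ring
        _ = _ := by
            rw [h3]
            split_ifs <;> simp
    rw [Finset.sum_congr rfl fun b _ => h2 b, Finset.sum_ite_eq, if_pos (Finset.mem_univ a)]
  rw [← Complex.re_sum, h1, Complex.re_sum]
  refine Finset.sum_congr rfl fun a _ => ?_
  have hA : entry A.op a.fst a.fst = ((entry A.op a.fst a.fst).re : ℂ) :=
    psd_diag_eq (ker_psd A) a.fst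
  have hB : entry B.op a.snd a.snd = ((entry B.op a.snd a.snd).re : ℂ) :=
    psd_diag_eq (ker_psd B) a.snd
  conv_lhs => rw [hA, hB, ← Complex.ofReal_mul, Complex.ofReal_re]

/-- pairs of occupations by sectors -/
def hasSum_split_equiv (n : ℕ) : (Σ m : Occ n, Splitting m) ≃ Occ n × Occ n :=
  Equiv.ofBijective (fun q => (q.2.fst, q.2.snd)) ⟨by
    rintro ⟨m, a⟩ ⟨m', b⟩ h
    have h1 : a.fst = b.fst := congrArg Prod.fst h
    have h2 : a.snd = b.snd := congrArg Prod.snd h
    obtain rfl : m = m' := by rw [← Splitting.add a, ← Splitting.add b, h1, h2]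
    obtain rfl : a = b := funext fun j => Fin.ext (congrFun h1 j)
    rfl, by
    rintro ⟨a, b⟩
    refine ⟨⟨a + b, fun j => ⟨a j, by simp only [Pi.add_apply]; omega⟩⟩, Prod.ext rfl ?_⟩
    funext j
    simp [Splitting.snd]⟩

/-- Summation over pairs by sectors (`Occ n × Occ n ≃ Σ m, Splitting m`). -/
theorem hasSum_split {n : ℕ} {f : Occ n × Occ n → ℝ} (hf : ∀ p, 0 ≤ f p) (s : ℝ) :
    HasSum f s ↔ HasSum (fun m : Occ n => ∑ k : Splitting m, f (k.fst, k.snd)) s := by
  rw [← (hasSum_split_equiv n).hasSum_iff]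
  have key : ∀ t, HasSum (f ∘ hasSum_split_equiv n) t →
      HasSum (fun m : Occ n => ∑ k : Splitting m, f (k.fst, k.snd)) t := fun t h =>
    h.sigma fun m => hasSum_fintype fun k : Splitting m => f (k.fst, k.snd)
  refine ⟨key s, fun h => ?_⟩
  have hs : Summable (f ∘ hasSum_split_equiv n) := by
    refine (summable_sigma_of_nonneg fun q => hf _).2 ⟨fun m => Summable.of_finite, ?_⟩
    refine h.summable.congr fun m => ?_
    rw [tsum_fintype]
    rfl
  rw [← (key _ hs.hasSum).unique h]
  exact hs.hasSum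

theorem block_hasSum_nonneg {n : ℕ} (η : ℝ) (A B : FockState n) (p : Occ n × Occ n) :
    0 ≤ (outBlock η A B p.1 p.1 p.2).re := psd_diag_re (block_psd η A B p.2) p.1

theorem block_hasSum_mul {ι : Type*} {x y : ι → ℝ} {s t : ℝ} (hx0 : ∀ i, 0 ≤ x i)
    (hy0 : ∀ i, 0 ≤ y i) (hx : HasSum x s) (hy : HasSum y t) :
    HasSum (fun p : ι × ι => x p.1 * y p.2) (s * t) :=
  hx.mul hy (hx.summable.mul_of_nonneg hy.summable hx0 hy0)

theorem block_hasSum {n : ℕ} {η : ℝ} (hη : η ∈ Set.Icc (0 : ℝ) 1) (A B : FockState n) :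
    HasSum (fun p : Occ n × Occ n => (outBlock η A B p.1 p.1 p.2).re) 1 := by
  have h := block_hasSum_mul (diag_nonneg A) (diag_nonneg B) A.traceOne B.traceOne
  rw [mul_one, hasSum_split fun p => mul_nonneg (diag_nonneg A _) (diag_nonneg B _)] at h
  rw [hasSum_split (block_hasSum_nonneg η A B)]
  simpa only [sector_sum hη] using h

/-- `wt k ≤ wt (k + e) = wt a + wt a'`; by sectors. -/
theorem block_energy {n : ℕ} {η : ℝ} (hη : η ∈ Set.Icc (0 : ℝ) 1) {A B : FockState n} {EA EB : ℝ}
    (hA : EnergyLE A EA) (hB : EnergyLE B EB) (s : Finset (Occ n × Occ n)) :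
    ∑ p ∈ s, (wt p.1 : ℝ) * (outBlock η A B p.1 p.1 p.2).re ≤ EA + EB := by
  have hw : ∀ a b : Occ n, (wt (a + b) : ℝ) = wt a + wt b := fun a b => by
    simp [wt, Finset.sum_add_distrib]
  have a0 : ∀ k, 0 ≤ (wt k : ℝ) * (entry A.op k k).re := fun k =>
    mul_nonneg (Nat.cast_nonneg _) (diag_nonneg A k)
  have b0 : ∀ k, 0 ≤ (wt k : ℝ) * (entry B.op k k).re := fun k =>
    mul_nonneg (Nat.cast_nonneg _) (diag_nonneg B k)
  have sa := summable_of_sum_le a0 hA
  have sb := summable_of_sum_le b0 hB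
  have h1 := (block_hasSum_mul a0 (diag_nonneg B) sa.hasSum B.traceOne).add
    (block_hasSum_mul (diag_nonneg A) b0 A.traceOne sb.hasSum)
  rw [mul_one, one_mul, hasSum_split fun p => add_nonneg (mul_nonneg (a0 _) (diag_nonneg B _))
    (mul_nonneg (diag_nonneg A _) (b0 _))] at h1
  have f0 : ∀ p : Occ n × Occ n, 0 ≤ (wt (p.1 + p.2) : ℝ) * (outBlock η A B p.1 p.1 p.2).re :=
    fun p => mul_nonneg (Nat.cast_nonneg _) (block_hasSum_nonneg η A B p)
  have h2 : HasSum (fun p : Occ n × Occ n =>
      (wt (p.1 + p.2) : ℝ) * (outBlock η A B p.1 p.1 p.2).re)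
      (∑' k, (wt k : ℝ) * (entry A.op k k).re + ∑' k, (wt k : ℝ) * (entry B.op k k).re) := by
    rw [hasSum_split f0]
    convert h1 using 2 with m
    simp only [Splitting.add]
    rw [← Finset.mul_sum, sector_sum hη, Finset.mul_sum]
    refine Finset.sum_congr rfl fun a _ => ?_
    have := hw a.fst a.snd
    rw [Splitting.add] at this
    rw [this]
    ring
  calc _ ≤ ∑ p ∈ s, (wt (p.1 + p.2) : ℝ) * (outBlock η A B p.1 p.1 p.2).re := by
        refine Finset.sum_le_sum fun p _ => mul_le_mul_of_nonneg_right ?_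
          (block_hasSum_nonneg η A B p)
        rw [hw]
        exact le_add_of_nonneg_right (Nat.cast_nonneg _)
    _ ≤ _ := sum_le_hasSum s (fun p _ => f0 p) h2
    _ ≤ _ := add_le_add (Real.tsum_le_of_sum_le a0 hA) (Real.tsum_le_of_sum_le b0 hB)

/-- `exists_state` for the kernel `∑' e, outBlock η A B k l e` (`psd_norm_le`, `psd_hasSum`). -/
theorem exists_out {n : ℕ} {η : ℝ} (hη : η ∈ Set.Icc (0 : ℝ) 1) (A B : FockState n) :
    ∃ C, IsBeamSplitterOutput η A B C := by
  have hb := block_hasSum hη A B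
  have hd : ∀ k, Summable fun e => (outBlock η A B k k e).re := fun k => hb.summable.prod_factor k
  have hs : ∀ k l, Summable fun e => outBlock η A B k l e := fun k l =>
    Summable.of_norm_bounded (((hd k).add (hd l)).div_const 2) fun e =>
      psd_norm_le (block_psd η A B e) k l
  obtain ⟨C, hC⟩ := exists_state (Matrix.of fun k l => ∑' e, outBlock η A B k l e)
    (psd_hasSum (fun e => Matrix.of fun k l => outBlock η A B k l e) _ (block_psd η A B)
      fun k l => (hs k l).hasSum)
    (hb.prod_fiberwise fun k => Complex.hasSum_re (hs k k).hasSum)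
  exact ⟨C, fun k l => by rw [hC]; exact (hs k l).hasSum⟩

theorem out_energy {n : ℕ} {η : ℝ} (hη : η ∈ Set.Icc (0 : ℝ) 1) {A B C : FockState n} {EA EB : ℝ}
    (hA : EnergyLE A EA) (hB : EnergyLE B EB) (h : IsBeamSplitterOutput η A B C) :
    EnergyLE C (EA + EB) := by
  intro s
  refine hasSum_le_of_sum_le
    (hasSum_sum fun k (_ : k ∈ s) => (Complex.hasSum_re (h k k)).mul_left (wt k : ℝ)) fun t => ?_
  have := block_energy hη hA hB (s ×ˢ t)
  rwa [Finset.sum_product_right] at this

theorem out_conv_diag {n : ℕ} {η : ℝ} (hη : η ∈ Set.Icc (0 : ℝ) 1) (A B : FockState n)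
    (F : Finset (Occ n × Occ n)) {ε : ℝ}
    (hF : 1 - ε ≤ ∑ p ∈ F, (outBlock η A B p.1 p.1 p.2).re) (k : Occ n) {s : Finset (Occ n)}
    (hs : Disjoint s (F.image Prod.snd)) : ∑ e ∈ s, (outBlock η A B k k e).re ≤ ε := by
  have hd : Disjoint (s.map ⟨fun e => (k, e), Prod.mk_right_injective k⟩) F := by
    rw [Finset.disjoint_left]
    intro p hp hpF
    obtain ⟨e, he, rfl⟩ := Finset.mem_map.1 hp
    exact Finset.disjoint_left.1 hs he (Finset.mem_image_of_mem Prod.snd hpF)
  have h := sum_le_of_disjoint (fun p : Occ n × Occ n => psd_diag_re (block_psd η A B p.2) p.1)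
    (block_hasSum hη A B) hd
  rw [Finset.sum_map] at h
  simp only [Matrix.of_apply, Function.Embedding.coeFn_mk] at h
  linarith

theorem out_conv_tail {n : ℕ} {η : ℝ} (hη : η ∈ Set.Icc (0 : ℝ) 1) {A B C : FockState n}
    (h : IsBeamSplitterOutput η A B C) (F : Finset (Occ n × Occ n)) {ε : ℝ}
    (hF : 1 - ε ≤ ∑ p ∈ F, (outBlock η A B p.1 p.1 p.2).re) (k l : Occ n) :
    dist (entry C.op k l) (∑ e ∈ F.image Prod.snd, outBlock η A B k l e) ≤ ε := by
  have ht : Tendsto (fun s : Finset (Occ n) => dist (∑ e ∈ s, outBlock η A B k l e)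
      (∑ e ∈ F.image Prod.snd, outBlock η A B k l e)) atTop (𝓝 _) :=
    Tendsto.dist (h k l) tendsto_const_nhds
  refine le_of_tendsto ht ((eventually_ge_atTop (F.image Prod.snd)).mono fun s hs => ?_)
  rw [dist_eq_norm, ← Finset.sum_sdiff hs, add_sub_cancel_right]
  refine (norm_sum_le _ _).trans ((Finset.sum_le_sum fun e _ =>
    psd_norm_le (block_psd η A B e) k l).trans ?_)
  have h1 := out_conv_diag hη A B F hF k (s := s \ F.image Prod.snd) Finset.sdiff_disjoint
  have h2 := out_conv_diag hη A B F hF l (s := s \ F.image Prod.snd) Finset.sdiff_disjoint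
  simp only [Matrix.of_apply]
  rw [← Finset.sum_div, Finset.sum_add_distrib]
  linarith

theorem out_conv_block {n : ℕ} (η : ℝ) {As Bs : ℕ → FockState n} {A B : FockState n}
    (hA : EConv As A) (hB : EConv Bs B) (k l e : Occ n) :
    Tendsto (fun K => outBlock η (As K) (Bs K) k l e) atTop (𝓝 (outBlock η A B k l e)) :=
  tendsto_finsetSum _ fun _ _ => tendsto_finsetSum _ fun _ _ =>
    ((tendsto_const_nhds.mul (hA _ _)).mul (hB _ _)).mul tendsto_const_nhds

/-- Every block converges (finite sums); the tails in `e` are uniformly small by `tight` applied to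
`block_hasSum`, `sum_le_of_disjoint` and `psd_norm_le`. -/
theorem out_conv {n : ℕ} {η : ℝ} (hη : η ∈ Set.Icc (0 : ℝ) 1) {As Bs Cs : ℕ → FockState n}
    {A B C : FockState n} (hA : EConv As A) (hB : EConv Bs B)
    (hs : ∀ K, IsBeamSplitterOutput η (As K) (Bs K) (Cs K)) (h : IsBeamSplitterOutput η A B C) :
    EConv Cs C := by
  intro k l
  refine Metric.tendsto_nhds.2 fun ε hε => ?_
  have hε' : 0 < ε / 3 := by positivity
  obtain ⟨F, hF, hF'⟩ := tight
    (fun K (p : Occ n × Occ n) => (outBlock η (As K) (Bs K) p.1 p.1 p.2).re) _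
    (block_hasSum hη A B)
    (fun p => (Complex.continuous_re.tendsto _).comp (out_conv_block η hA hB p.1 p.1 p.2)) hε'
  have hm := Metric.tendsto_nhds.1 (tendsto_finsetSum (F.image Prod.snd)
    fun e _ => out_conv_block η hA hB k l e) _ hε'
  filter_upwards [hF', hm] with K h1 h2
  have h3 := out_conv_tail hη (hs K) F h1 k l
  have h4 := out_conv_tail hη h F hF k l
  have h5 := dist_triangle4_right (entry (Cs K).op k l) (entry C.op k l)
    (∑ e ∈ F.image Prod.snd, outBlock η (As K) (Bs K) k l e)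
    (∑ e ∈ F.image Prod.snd, outBlock η A B k l e)
  linarith

end Crest.Agent.R331.Sh

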