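import Crest.Agent.R331.Forms

set_option autoImplicit false

open Matrix Kronecker Crest.Quantum Crest.MathPhysics.Bosonic
open scoped ComplexOrder

namespace Crest.Agent.R331.EP

variable {A B C : Type} [Fintype A] [DecidableEq A] [Fintype B] [DecidableEq B]
  [Fintype C] [DecidableEq C]

theorem st1_alg {M : Type} [AddCommGroup M] [Module ℂ M] {X Y a wa Bd : M} (o : M)
    {d e β b ε : ℂ} (α κ γ τ : ℂ) (hβ : β ≠ 0) (hb : b ≠ 0)
    (el : ((d * e ^ 2 * β + ε) / b) • X = (d * e) • Y + ε • a + β • wa + Bd) :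
    (d * e ^ 2 + ε / β) • (b⁻¹ • X - (a - α • o)) =
      (d * e) • (β⁻¹ • Y - (e • a + κ • o - γ • o) - τ • o) +
        (wa + β⁻¹ • Bd + ((d * e ^ 2 + ε / β) * α - d * e * (γ - κ - τ)) • o) := by
  obtain rfl : Bd = ((d * e ^ 2 * β + ε) / b) • X - ((d * e) • Y + ε • a + β • wa) := by
    rw [el]; abel
  match_scalars <;> field_simp <;> ring

theorem st1_comm (H ρ x : Mat A) : H * cen ρ x - cen ρ x * H = H * x - x * H := by
  simp [cen, Matrix.mul_sub, Matrix.sub_mul]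

theorem st1_mix {S : Sp C} {ρ : Mat C} {δ : ℝ} (h : S.rho = mixd δ ρ) (c : Mat C) :
    ((1 - δ : ℝ) : ℂ) * (ρ * (S.H * c - c * S.H)).trace = 0 := by
  have h1 := S.comm_tr c
  rw [h, mixd, Matrix.add_mul, Matrix.smul_mul, Matrix.smul_mul, Matrix.one_mul, trace_add,
    trace_smul, trace_smul, trace_sub (S.H * c), trace_mul_comm c, sub_self, smul_zero,
    add_zero] at h1
  exact h1

theorem st1_form (S : Sp A) {φ : ℝ → ℝ → ℝ} (hφ : ∀ x y, 0 < x → 0 < y → 0 ≤ φ x y) {r : ℝ}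
    (hr : 0 < r) {ζ u R : Mat A} (h : (r : ℂ) • ζ = u + R) :
    (S.sf φ ζ u).re ≤ S.qf φ u / r + (S.sf φ ζ R).re := by
  have h1 : (r : ℂ) * S.sf φ ζ u = S.qf φ u + S.sf φ R u := by
    rw [← sf_self, ← sf_add_left, ← h, sf_smul_left, Complex.star_def, Complex.conj_ofReal]
  have h2 : (r : ℂ) * S.sf φ R ζ = S.sf φ R u + S.qf φ R := by
    rw [← sf_self, ← sf_add_right, ← h, sf_smul_right]
  have h3 : (S.sf φ R ζ).re = (S.sf φ ζ R).re := by
    rw [← sf_conj, Complex.star_def, Complex.conj_re]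
  have h4 := congrArg Complex.re h1
  have h5 := congrArg Complex.re h2
  simp only [Complex.re_ofReal_mul, Complex.add_re, Complex.ofReal_re, h3] at h4 h5
  have h6 := qf_nonneg S φ hφ R
  rw [div_add' _ _ _ hr.ne', le_div_iff₀ hr]
  linarith

/-- One input.  With `r = (1-δ)e² + ε/β`, `u = (1-δ) e T ζ`, the Euler-Lagrange equation reads
`r ζ_A = u + R`, `R = cen (w a) + cen Bd / β`, and tracing it against `ρ_A` gives
`tr ρ w a + tr ρ Bd / β = -(ε/β) α`.  Then `Re J(ζ_A,u) = J(u)/r + Re J(ζ_A,R) - J(R)/r`. -/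
theorem st1 {SA : Sp A} {SC : Sp C} {ρC c : Mat C} {E : Mat C →ₗ[ℂ] Mat A} {a : Mat A}
    {e N NC δ ε s : ℝ} (hS : Side SA SC ρC c E a e N (bt NC) δ ε s) (hσ : SC.rho = mixd δ ρC)
    (hN : 0 < N) (hNC : 0 < NC) (hε : 0 < ε) (hδ : δ ≤ 1) :
    ((((1 - δ) * e : ℝ) : ℂ) * SA.sf (phiJ N) (SA.zeta N (cen SA.rho a))
        (cen SA.rho (E (SC.zeta NC (cen SC.rho c))))).re ≤
      (1 - δ) ^ 2 * e ^ 2 / ((1 - δ) * e ^ 2 + ε / bt NC) *
          SA.qf (phiJ N) (cen SA.rho (E (SC.zeta NC (cen SC.rho c))))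
        - ε / bt NC * ‖(SA.rho * a).trace‖ ^ 2 + (1 + 1 / bt NC) * s := by
  obtain ⟨κ, hκ⟩ := hS.Ec
  obtain ⟨w, Bd, el, hw, hB⟩ := hS.el
  have hβ := bt_pos hNC
  have hβ' : (bt NC : ℂ) ≠ 0 := Complex.ofReal_ne_zero.2 hβ.ne'
  have hb' : (bt N : ℂ) ≠ 0 := Complex.ofReal_ne_zero.2 (bt_pos hN).ne'
  have hr : 0 < (1 - δ) * e ^ 2 + ε / bt NC :=
    add_pos_of_nonneg_of_pos (mul_nonneg (sub_nonneg.2 hδ) (sq_nonneg e)) (div_pos hε hβ)
  -- the trace of the Euler-Lagrange equation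
  have htr : ((w * a + (bt NC : ℂ)⁻¹ • Bd) * SA.rho).trace =
      -((ε : ℂ) / bt NC) * (SA.rho * a).trace := by
    have h1 := congrArg (fun X => (SA.rho * X).trace) el
    have h2 := st1_mix hσ c
    simp only [Matrix.mul_add, Matrix.mul_smul, trace_add, trace_smul, SA.comm_tr, hS.tr,
      smul_eq_mul, mul_zero] at h1
    rw [trace_mul_comm, Matrix.mul_add, Matrix.mul_smul, trace_add, trace_smul, smul_eq_mul]
    push_cast at h1 h2
    field_simp
    linear_combination -h1 - e * h2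
  obtain ⟨t, ht⟩ : ∃ t : ℂ, (((1 - δ) * e ^ 2 + ε / bt NC : ℝ) : ℂ) • SA.zeta N (cen SA.rho a) =
      (((1 - δ) * e : ℝ) : ℂ) • cen SA.rho (E (SC.zeta NC (cen SC.rho c))) +
        (w * a + (bt NC : ℂ)⁻¹ • Bd + t • (1 : Mat A)) := by
    have hE : E (SC.zeta NC (cen SC.rho c)) = (bt NC : ℂ)⁻¹ • E (SC.H * c - c * SC.H) -
        ((e : ℂ) • a + κ • (1 : Mat A) - (SC.rho * c).trace • (1 : Mat A)) := by
      rw [Sp.zeta, st1_comm, cen, map_sub, map_sub, map_smul, map_smul, hκ, hS.one,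
        Complex.ofReal_inv]
    push_cast at el
    have h := st1_alg (1 : Mat A) (SA.rho * a).trace κ (SC.rho * c).trace
      (SA.rho * E (SC.zeta NC (cen SC.rho c))).trace hβ' hb' el
    rw [← hE] at h
    rw [Sp.zeta, st1_comm]
    push_cast
    exact ⟨_, h⟩
  have h1 := st1_form SA (fun _ _ hx hy => (phiJ_pos hN hx hy).le) hr ht
  rw [sf_smul_right, qf_smul, JZ SA hN _ (_ + _), Matrix.add_mul, trace_add, Matrix.smul_mul,
    Matrix.one_mul, trace_smul, MM_cen_trace N SA.density, smul_zero, add_zero, MM_cen,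
    Matrix.mul_sub, Matrix.mul_smul, trace_sub, trace_smul, htr, Matrix.add_mul, trace_add,
    Matrix.smul_mul, trace_smul] at h1
  have h2 : star (SA.rho * a).trace • (-((ε : ℂ) / bt NC) * (SA.rho * a).trace) =
      ((-(ε / bt NC * ‖(SA.rho * a).trace‖ ^ 2) : ℝ) : ℂ) := by
    rw [smul_eq_mul, mul_left_comm, Complex.star_def, Complex.conj_mul']
    push_cast
    ring
  have h3 : -((bt NC : ℂ)⁻¹ • (Bd * MM N SA.rho a).trace).re ≤ 1 / bt NC * s := by
    rw [smul_eq_mul, ← Complex.ofReal_inv, Complex.re_ofReal_mul, one_div, ← mul_neg]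
    exact mul_le_mul_of_nonneg_left
      (((neg_le_abs _).trans (Complex.abs_re_le_norm _)).trans hB) (inv_pos.2 hβ).le
  rw [h2, Complex.norm_real, Real.norm_eq_abs, sq_abs] at h1
  simp only [Complex.neg_re, Complex.sub_re, Complex.add_re, Complex.ofReal_re] at h1
  rw [div_mul_eq_mul_div ((1 - δ) ^ 2 * e ^ 2), ← mul_pow]
  linarith

end Crest.Agent.R331.EP
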