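import Crest.Agent.R331.Forms

set_option autoImplicit false

open Matrix Kronecker Crest.Quantum Crest.MathPhysics.Bosonic
open scoped ComplexOrder

namespace Crest.Agent.R331.EP

variable {A B C : Type} [Fintype A] [DecidableEq A] [Fintype B] [DecidableEq B]
  [Fintype C] [DecidableEq C]

theorem st2_MM (N : ℝ) (ρ x Y : Mat A) : (Y * MM N ρ x).trace =
    (Y * ρ * xᴴ).trace + N * (Y * (ρ * xᴴ - xᴴ * ρ)).trace := by
  change (Y * (((N + 1 : ℝ) : ℂ) • (ρ * xᴴ) - (N : ℂ) • (xᴴ * ρ))).trace = _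
  simp only [Matrix.mul_sub, Matrix.mul_smul, trace_sub, trace_smul, smul_eq_mul, Matrix.mul_assoc]
  push_cast
  ring

theorem st2_star {ρ : Mat A} (h : IsDensity ρ) (x : Mat A) :
    star (ρ * x).trace = (ρ * xᴴ).trace := by
  rw [← trace_conjTranspose, conjTranspose_mul, h.1.1.eq, trace_mul_comm]

theorem st2_one (S : Sp A) {N : ℝ} (hN : 0 < N) (x Y : Mat A) :
    S.sf (phiJ N) (S.zeta N (cen S.rho x)) Y =
      -((Y * S.rho * xᴴ).trace + N * (Y * (S.rho * xᴴ - xᴴ * S.rho)).trace) +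
        (S.rho * xᴴ).trace * (S.rho * Y).trace := by
  rw [JZ S hN, MM_cen, Matrix.mul_sub, trace_sub, st2_MM, Matrix.mul_smul, trace_smul,
    st2_star S.density, smul_eq_mul, trace_mul_comm Y S.rho]
  ring

theorem st2_cen (S : Sp A) {N : ℝ} (hN : 0 < N) (x Y : Mat A) :
    S.sf (phiJ N) (S.zeta N (cen S.rho x)) (cen S.rho Y) =
      S.sf (phiJ N) (S.zeta N (cen S.rho x)) Y := by
  rw [JZ S hN, JZ S hN]
  change -((Y - (S.rho * Y).trace • (1 : Mat A)) * _).trace = _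
  rw [Matrix.sub_mul, trace_sub, Matrix.smul_mul, Matrix.one_mul, trace_smul,
    MM_cen_trace N S.density, smul_zero, sub_zero]

theorem st2_tr (hd : (1 : ℝ) ≤ Fintype.card A) (Y : Mat A) :
    ‖Y.trace‖ ≤ Fintype.card A * fr Y := by
  have h := trace_mul_le Y (1 : Mat A)
  rw [Matrix.mul_one, fr_one] at h
  have h2 : √(Fintype.card A : ℝ) ≤ Fintype.card A :=
    Real.sqrt_le_iff.2 ⟨by linarith, by nlinarith⟩
  have h3 := fr_nonneg Y
  nlinarith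

theorem st2_rho {ρ : Mat A} (h : IsDensity ρ) (Y : Mat A) : ‖(ρ * Y).trace‖ ≤ fr Y := by
  have h1 := trace_mul_le ρ Y
  have h2 := fr_density h
  have h3 := fr_nonneg Y
  nlinarith

theorem st2_norm (r : ℝ) (x y : ℂ) {R X Y : ℝ} (hr : |r| ≤ R) (hx : ‖x‖ ≤ X) (hy : ‖y‖ ≤ Y) :
    ‖(r : ℂ) * x * y‖ ≤ R * X * Y := by
  rw [norm_mul, norm_mul, Complex.norm_real, Real.norm_eq_abs]
  have h1 := abs_nonneg r
  have h2 := norm_nonneg x
  have h3 := norm_nonneg y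
  gcongr
  · exact mul_nonneg (h1.trans hr) (h2.trans hx)
  · exact h1.trans hr

/-- The thermally weighted pairing splits over the two inputs up to small errors. -/
theorem st2 {SA : Sp A} {SB : Sp B} {SC : Sp C} {ρC c : Mat C} {EA : Mat C →ₗ[ℂ] Mat A}
    {EB : Mat C →ₗ[ℂ] Mat B} {a : Mat A} {b : Mat B} {e1 e2 NA NB NC β δ ε s Λ : ℝ}
    (hA : Side SA SC ρC c EA a e1 NA β δ ε s) (hB : Side SB SC ρC c EB b e2 NB β δ ε s)
    (hσ : SC.rho = mixd δ ρC) (hρ : IsDensity ρC)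
    (hj : ∀ Z, (Z * ρC * cᴴ).trace = (e1 : ℂ) * (EA Z * SA.rho * aᴴ).trace +
      (e2 : ℂ) * (EB Z * SB.rho * bᴴ).trace)
    (hNA : 0 < NA) (hNB : 0 < NB) (he : e1 ^ 2 + e2 ^ 2 = 1) (hN : NC = e1 ^ 2 * NA + e2 ^ 2 * NB)
    (h0 : 0 ≤ δ) (h1 : δ ≤ 1) (hs : δ ≤ s) (hΛ : 1 ≤ Λ) (hc : fr c ≤ Λ)
    (hd : (Fintype.card C : ℝ) ≤ Λ) (Z : Mat C) :
    ‖SC.sf (phiJ NC) (SC.zeta NC (cen SC.rho c)) Z -
      ((((1 - δ) * e1 : ℝ) : ℂ) * SA.sf (phiJ NA) (SA.zeta NA (cen SA.rho a)) (cen SA.rho (EA Z)) +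
       (((1 - δ) * e2 : ℝ) : ℂ) * SB.sf (phiJ NB) (SB.zeta NB (cen SB.rho b)) (cen SB.rho (EB Z)))‖
      ≤ (4 * Λ ^ 2 + NA + NB) * s * fr Z := by
  have hNC : 0 < NC := by
    rw [hN]
    rcases le_total NA NB with h | h
    · nlinarith [sq_nonneg e1, sq_nonneg e2, mul_nonneg (sq_nonneg e2) (sub_nonneg.2 h)]
    · nlinarith [sq_nonneg e1, sq_nonneg e2, mul_nonneg (sq_nonneg e1) (sub_nonneg.2 h)]
  have hd1 : (1 : ℝ) ≤ Fintype.card C := by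
    have : Nonempty C := by
      by_contra hne
      rw [not_nonempty_iff] at hne
      have := hρ.2
      simp [Matrix.trace] at this
    exact_mod_cast Fintype.card_pos
  have hd0 : (0 : ℝ) < Fintype.card C := by linarith
  set q : ℝ := (Fintype.card C : ℝ)⁻¹ with hq
  have hq0 : 0 < q := inv_pos.2 hd0
  have hq1 : q ≤ 1 := inv_le_one_of_one_le₀ hd1
  have hqd : q * Fintype.card C = 1 := inv_mul_cancel₀ hd0.ne'
  have hσ' : SC.rho = ((1 - δ : ℝ) : ℂ) • ρC + ((δ * q : ℝ) : ℂ) • (1 : Mat C) := by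
    rw [hσ, hq, ← div_eq_mul_inv]
    rfl
  have m0 := hj 1
  rw [hA.one, hB.one, Matrix.one_mul, Matrix.one_mul, Matrix.one_mul] at m0
  have a1 : (Z * SC.rho * cᴴ).trace =
      ((1 - δ : ℝ) : ℂ) * (Z * ρC * cᴴ).trace + ((δ * q : ℝ) : ℂ) * (Z * cᴴ).trace := by
    rw [hσ']
    simp only [Matrix.mul_add, Matrix.add_mul, Matrix.mul_smul, Matrix.smul_mul, Matrix.mul_one,
      trace_add, trace_smul, smul_eq_mul]
  have a2 : (Z * (SC.rho * cᴴ - cᴴ * SC.rho)).trace =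
      ((1 - δ : ℝ) : ℂ) * (Z * (ρC * cᴴ - cᴴ * ρC)).trace := by
    rw [hσ']
    simp only [Matrix.mul_add, Matrix.add_mul, Matrix.mul_sub, Matrix.mul_smul, Matrix.smul_mul,
      Matrix.mul_one, Matrix.one_mul, trace_add, trace_sub, trace_smul, smul_eq_mul]
    ring
  have a3 : ∀ Y : Mat C, (SC.rho * Y).trace =
      ((1 - δ : ℝ) : ℂ) * (ρC * Y).trace + ((δ * q : ℝ) : ℂ) * Y.trace := by
    intro Y
    rw [hσ']
    simp only [Matrix.add_mul, Matrix.smul_mul, Matrix.one_mul, trace_add, trace_smul, smul_eq_mul]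
  have key : SC.sf (phiJ NC) (SC.zeta NC (cen SC.rho c)) Z -
      ((((1 - δ) * e1 : ℝ) : ℂ) * SA.sf (phiJ NA) (SA.zeta NA (cen SA.rho a)) (cen SA.rho (EA Z)) +
       (((1 - δ) * e2 : ℝ) : ℂ) * SB.sf (phiJ NB) (SB.zeta NB (cen SB.rho b)) (cen SB.rho (EB Z))) =
      -((((1 - δ) * e1 : ℝ) : ℂ) * (NA : ℂ) * ((e1 : ℂ) * (Z * (ρC * cᴴ - cᴴ * ρC)).trace -
          (EA Z * (SA.rho * aᴴ - aᴴ * SA.rho)).trace))
      - (((1 - δ) * e2 : ℝ) : ℂ) * (NB : ℂ) * ((e2 : ℂ) * (Z * (ρC * cᴴ - cᴴ * ρC)).trace -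
          (EB Z * (SB.rho * bᴴ - bᴴ * SB.rho)).trace)
      - ((δ * q : ℝ) : ℂ) * 1 * (Z * cᴴ).trace
      + ((δ * q : ℝ) : ℂ) * (SC.rho * cᴴ).trace * Z.trace
      + (((1 - δ) * (δ * q) : ℝ) : ℂ) * (cᴴ).trace * (ρC * Z).trace
      - (((1 - δ) * δ : ℝ) : ℂ) * (ρC * cᴴ).trace * (ρC * Z).trace := by
    rw [st2_cen SA hNA, st2_cen SB hNB, st2_one SC hNC, st2_one SA hNA, st2_one SB hNB, a1, a2,
      a3 Z, a3 cᴴ, hA.tr, hB.tr, hj Z, m0, hN]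
    push_cast
    ring
  rw [key]
  have hZ := fr_nonneg Z
  have he1 : |e1| ≤ 1 := abs_le_one_iff_mul_self_le_one.2 (by nlinarith [sq_nonneg e2])
  have he2 : |e2| ≤ 1 := abs_le_one_iff_mul_self_le_one.2 (by nlinarith [sq_nonneg e1])
  have hδ : |1 - δ| ≤ 1 := abs_le.2 ⟨by linarith, by linarith⟩
  have hab : ∀ e : ℝ, |e| ≤ 1 → |(1 - δ) * e| ≤ 1 := fun e h => by
    rw [abs_mul]
    exact mul_le_one₀ hδ (abs_nonneg _) h
  have hnn : ∀ N : ℝ, 0 < N → ‖(N : ℂ)‖ ≤ N := fun N h => by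
    rw [Complex.norm_real, Real.norm_of_nonneg h.le]
  have hδq : 0 ≤ δ * q := mul_nonneg h0 hq0.le
  have hcs : fr cᴴ ≤ Λ := by rwa [fr_conjT]
  have b1 := st2_norm _ _ _ (hab e1 he1) (hnn NA hNA) (hA.com Z)
  have b2 := st2_norm _ _ _ (hab e2 he2) (hnn NB hNB) (hB.com Z)
  have b3 := st2_norm (δ * q) 1 (Z * cᴴ).trace (R := δ) (X := 1) (Y := fr Z * Λ)
    (by rw [abs_of_nonneg hδq]; nlinarith) norm_one.le
    ((trace_mul_le Z cᴴ).trans (mul_le_mul_of_nonneg_left hcs hZ))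
  have b4 := st2_norm (δ * q) (SC.rho * cᴴ).trace Z.trace (abs_of_nonneg hδq).le
    ((st2_rho SC.density cᴴ).trans hcs) (st2_tr hd1 Z)
  have b5 := st2_norm ((1 - δ) * (δ * q)) (cᴴ).trace (ρC * Z).trace (R := δ * q)
    (by rw [abs_of_nonneg (mul_nonneg (by linarith) hδq)]; nlinarith)
    ((st2_tr hd1 cᴴ).trans (mul_le_mul_of_nonneg_left hcs hd0.le)) (st2_rho hρ Z)
  have b6 := st2_norm ((1 - δ) * δ) (ρC * cᴴ).trace (ρC * Z).trace (R := δ)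
    (by rw [abs_of_nonneg (mul_nonneg (by linarith) h0)]; nlinarith)
    ((st2_rho hρ cᴴ).trans hcs) (st2_rho hρ Z)
  have e4 : δ * q * Λ * (Fintype.card C * fr Z) = δ * Λ * fr Z := by
    linear_combination δ * Λ * fr Z * hqd
  have e5 : δ * q * (Fintype.card C * Λ) * fr Z = δ * Λ * fr Z := by
    linear_combination δ * Λ * fr Z * hqd
  rw [e4] at b4
  rw [e5] at b5
  have fin : δ * Λ * fr Z ≤ Λ ^ 2 * s * fr Z := by
    refine mul_le_mul_of_nonneg_right ?_ hZ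
    have : Λ ≤ Λ ^ 2 := by nlinarith
    nlinarith [mul_le_mul hs this (by linarith) (h0.trans hs)]
  refine (norm_sub_le_of_le (norm_add_le_of_le (norm_add_le_of_le (norm_sub_le_of_le
    (norm_sub_le_of_le ((norm_neg _).le.trans b1) b2) b3) b4) b5) b6).trans ?_
  nlinarith

end Crest.Agent.R331.EP
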