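import Crest.Agent.R331.Defs
import Crest.Agent.R331.BootFinal

set_option autoImplicit false

namespace Crest.Agent.R331.EP

theorem star_scalar_aux {x y X Y Q J K : ℝ} (hx : 0 < x) (hy : 0 < y) (hX : 0 < X) (hY : 0 < Y)
    (hQ : 0 < Q) (hJ0 : 0 ≤ J) (hJ : 4 * J = X + Y - (X - Y) ^ 2 / (X + Y + 2 * Q))
    (h1 : X ≤ Y → Y ≤ K * y) (h2 : Y ≤ X → X ≤ K * x) :
    J ^ 2 ≤ K ^ 2 * (x + y) * (x * (1 + -(X - Y) / (X + Y + 2 * Q)) ^ 2
      + y * (1 - -(X - Y) / (X + Y + 2 * Q)) ^ 2) := by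
  have hD : 0 < X + Y + 2 * Q := by positivity
  set u := 1 + -(X - Y) / (X + Y + 2 * Q) with hu
  set v := 1 - -(X - Y) / (X + Y + 2 * Q) with hv
  have eu : u = 2 * (Y + Q) / (X + Y + 2 * Q) := by rw [hu]; field_simp; ring
  have ev : v = 2 * (X + Q) / (X + Y + 2 * Q) := by rw [hv]; field_simp; ring
  have hu0 : 0 < u := by rw [eu]; positivity
  have hv0 : 0 < v := by rw [ev]; positivity
  have e : 4 * J = X * u + Y * v := by rw [hJ, hu, hv]; field_simp; ring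
  have e2 : X * u - Y * v = 2 * Q * (X - Y) / (X + Y + 2 * Q) := by
    rw [eu, ev]; field_simp; ring
  rcases le_total X Y with h | h
  · have hK := h1 h
    have a : X * u ≤ Y * v := by
      have : 2 * Q * (X - Y) / (X + Y + 2 * Q) ≤ 0 :=
        div_nonpos_of_nonpos_of_nonneg (mul_nonpos_of_nonneg_of_nonpos (by positivity)
          (by linarith)) hD.le
      linarith
    have b : J ≤ K * y * v := by
      have := mul_le_mul_of_nonneg_right hK hv0.le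
      have : 0 ≤ Y * v := by positivity
      linarith
    calc J ^ 2 ≤ (K * y * v) ^ 2 := pow_le_pow_left₀ hJ0 b 2
      _ = K ^ 2 * y * (y * v ^ 2) := by ring
      _ ≤ K ^ 2 * (x + y) * (x * u ^ 2 + y * v ^ 2) := by
        gcongr
        · linarith
        · have : 0 ≤ x * u ^ 2 := by positivity
          linarith
  · have hK := h2 h
    have a : Y * v ≤ X * u := by
      have : 0 ≤ 2 * Q * (X - Y) / (X + Y + 2 * Q) :=
        div_nonneg (mul_nonneg (by positivity) (by linarith)) hD.le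
      linarith
    have b : J ≤ K * x * u := by
      have := mul_le_mul_of_nonneg_right hK hu0.le
      have : 0 ≤ X * u := by positivity
      linarith
    calc J ^ 2 ≤ (K * x * u) ^ 2 := pow_le_pow_left₀ hJ0 b 2
      _ = K ^ 2 * x * (x * u ^ 2) := by ring
      _ ≤ K ^ 2 * (x + y) * (x * u ^ 2 + y * v ^ 2) := by
        gcongr
        · linarith
        · have : 0 ≤ y * v ^ 2 := by positivity
          linarith

theorem star_scalar {N x y : ℝ} (hN : 0 < N) (hx : 0 < x) (hy : 0 < y) :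
    phiJ N x y ^ 2 ≤ (1 + (N + 1) ^ 2 * bt N / N) ^ 2 * (x + y) *
      (x * (1 + wTh N x y) ^ 2 + y * (1 - wTh N x y) ^ 2) := by
  have hb : 0 < bt N := log_one_add_inv_pos hN
  have ht : 0 < R331.LM x y := R331.LM_pos hx hy
  have hx₀ : 0 < (N + 1) * Real.log (1 + 1 / N) * R331.LM x y := mul_pos (mul_pos (by linarith) hb) ht
  have hy₀ : 0 < N * Real.log (1 + 1 / N) * R331.LM x y := mul_pos (mul_pos hN hb) ht
  have hL : Bt.LM ((N + 1) * Real.log (1 + 1 / N) * R331.LM x y)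
      (N * Real.log (1 + 1 / N) * R331.LM x y) = Bt.LM x y := by
    rw [Bt.LM_thermal hN ht, LM_eq_Bt hx hy]
  have hP := Bt.pencil_identity hx hy hx₀ hy₀ hL
  have hQ := Bt.QQ_pos hx hy hx₀ hy₀ hL
  have hJ : Bt.JJ x y ((N + 1) * Real.log (1 + 1 / N) * R331.LM x y)
      (N * Real.log (1 + 1 / N) * R331.LM x y) = phiJ N x y := by
    rw [LM_eq_Bt hx hy, Bt.JJ_thermal hN hx hy, ← LM_eq_Bt (by positivity) (by positivity)]
    rfl
  have hJ0 := (Bt.JJ_pos hx hy hx₀ hy₀).le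
  rw [hJ] at hP hJ0
  have hmax := R331.LM_le_max hx hy
  have hlog := R331.LM_mul_log hx hy
  have hbd : Real.log (1 + 1 / N) = bt N := rfl
  refine star_scalar_aux hx hy (add_pos hx hx₀) (add_pos hy hy₀) hQ hJ0 hP (fun h => ?_)
    (fun h => ?_)
  · rw [hbd] at h ⊢
    have hbt : 0 < bt N * R331.LM x y := mul_pos hb ht
    have hxy : x ≤ y := by nlinarith
    rw [max_eq_right hxy] at hmax
    have c1 : N ≤ (N + 1) ^ 2 / N := by rw [le_div_iff₀ hN]; nlinarith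
    calc y + N * bt N * R331.LM x y ≤ y + (N + 1) ^ 2 / N * bt N * y := by gcongr
      _ = _ := by ring
  · rw [hbd] at h ⊢
    have c0 : R331.LM x y * (Real.log y - Real.log x) ≤ R331.LM x y * bt N := by nlinarith
    have c1 : Real.log y - Real.log x ≤ bt N := le_of_mul_le_mul_left c0 ht
    have c2 : y ≤ (1 + 1 / N) * x := by
      rw [← Real.log_le_log_iff hy (by positivity), Real.log_mul (by positivity) hx.ne', hbd]
      linarith
    have c3 : R331.LM x y ≤ (1 + 1 / N) * x := by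
      refine hmax.trans (max_le ?_ c2)
      have : 0 ≤ 1 / N * x := by positivity
      linarith
    calc x + (N + 1) * bt N * R331.LM x y ≤ x + (N + 1) * bt N * ((1 + 1 / N) * x) := by gcongr
      _ = _ := by field_simp

/-- The abstract inequality (★) with slack: if the forms `x`, `y` contract with factor `θ ≤ 1`
and the forms `(N+1) β LM`, `N β LM` contract, then `phiJ` contracts with slack. -/
theorem star (N : ℝ) (hN : 0 < N) :
    ∃ (Cst : ℝ) (sl : ℝ → ℝ → ℝ), 0 ≤ Cst ∧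
      (∀ x y, 0 < x → 0 < y → 0 ≤ sl x y ∧ phiJ N x y ^ 2 ≤ Cst * (x + y) * sl x y) ∧
      ∀ (I J : Type) [Fintype I] [Fintype J] (T : (I → ℂ) →ₗ[ℂ] (J → ℂ)) (x y : I → ℝ)
        (x' y' N' : J → ℝ) (θ : ℝ), (∀ i, 0 < x i) → (∀ i, 0 < y i) → (∀ j, 0 < x' j) →
        (∀ j, 0 < y' j) → (∀ j, 0 < N' j) → 0 ≤ θ → θ ≤ 1 →
        (∀ z, ∑ j, x' j * ‖T z j‖ ^ 2 ≤ θ * ∑ i, x i * ‖z i‖ ^ 2) →
        (∀ z, ∑ j, y' j * ‖T z j‖ ^ 2 ≤ θ * ∑ i, y i * ‖z i‖ ^ 2) →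
        (∀ z, ∑ j, (N' j + 1) * bt (N' j) * LM (x' j) (y' j) * ‖T z j‖ ^ 2 ≤
          ∑ i, (N + 1) * bt N * LM (x i) (y i) * ‖z i‖ ^ 2) →
        (∀ z, ∑ j, N' j * bt (N' j) * LM (x' j) (y' j) * ‖T z j‖ ^ 2 ≤
          ∑ i, N * bt N * LM (x i) (y i) * ‖z i‖ ^ 2) →
        ∀ z, ∑ j, phiJ (N' j) (x' j) (y' j) * ‖T z j‖ ^ 2 ≤
          ∑ i, (phiJ N (x i) (y i) - (1 - θ) / 4 * sl (x i) (y i)) * ‖z i‖ ^ 2 := by
  classical
  refine ⟨(1 + (N + 1) ^ 2 * bt N / N) ^ 2,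
    fun x y => x * (1 + wTh N x y) ^ 2 + y * (1 - wTh N x y) ^ 2, by positivity,
    fun x y hx hy => ⟨by positivity, star_scalar hN hx hy⟩, ?_⟩
  intro I J _ _ T x y x' y' N' θ hx hy hx' hy' hN' _ hθ cx cy cx₀ cy₀ z
  have hT : ∀ z, Matrix.mulVec (LinearMap.toMatrix' T) z = T z := fun z =>
    LinearMap.toMatrix'_mulVec T z
  have H := star_slack (T := LinearMap.toMatrix' T) (N := fun _ => N) hθ hx hy (fun _ => hN)
    hx' hy' hN' (fun z => by rw [hT]; exact cx z) (fun z => by rw [hT]; exact cy z)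
    (fun z => by rw [hT, one_mul]; exact cx₀ z) (fun z => by rw [hT, one_mul]; exact cy₀ z) z
  rw [hT] at H
  have e : ∑ i, (phiJ N (x i) (y i) - (1 - θ) / 4 *
        (x i * (1 + wTh N (x i) (y i)) ^ 2 + y i * (1 - wTh N (x i) (y i)) ^ 2)) * ‖z i‖ ^ 2
      = ∑ i, phiJ N (x i) (y i) * ‖z i‖ ^ 2 - (1 - θ) / 4 * ∑ i,
        (x i * (1 + wTh N (x i) (y i)) ^ 2 + y i * (1 - wTh N (x i) (y i)) ^ 2) * ‖z i‖ ^ 2 := by
    rw [Finset.mul_sum, ← Finset.sum_sub_distrib]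
    exact Finset.sum_congr rfl fun i _ => by ring
  rw [e]
  have H' : 4 * ∑ j, phiJ (N' j) (x' j) (y' j) * ‖T z j‖ ^ 2 + (1 - θ) * ∑ i,
        (x i * (1 + wTh N (x i) (y i)) ^ 2 + y i * (1 - wTh N (x i) (y i)) ^ 2) * ‖z i‖ ^ 2
      ≤ 4 * ∑ i, phiJ N (x i) (y i) * ‖z i‖ ^ 2 := H
  linarith

end Crest.Agent.R331.EP
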