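import Crest.Agent.R331.Forms
import Crest.Agent.R331.Star

set_option autoImplicit false

open Matrix Kronecker Crest.Quantum Crest.MathPhysics.Bosonic
open scoped ComplexOrder

namespace Crest.Agent.R331.EP

section
variable {A B C : Type} [Fintype A] [DecidableEq A] [Fintype B] [DecidableEq B] [Fintype C]
  [DecidableEq C]

theorem st3_surj (S : Sp C) (z : C × C → ℂ) : ∃ Z : Mat C, z = fun p => S.hat Z p.1 p.2 := by
  refine ⟨S.U * Matrix.of (fun j k => z (j, k)) * S.Uᴴ, ?_⟩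
  rw [Sp.hat, Crest.Agent.R341.conj_conj S.U1]
  rfl

theorem st3_qf (S : Sp C) (φ : ℝ → ℝ → ℝ) (Z : Mat C) :
    ∑ i : C × C, φ (S.p i.1) (S.p i.2) * ‖S.hat Z i.1 i.2‖ ^ 2 = S.qf φ Z :=
  Fintype.sum_prod_type _

theorem st3_vec (S : Sp A) (SC : Sp C) (E : Mat C →ₗ[ℂ] Mat A) {c : ℝ} (hc : 0 ≤ c) :
    ∃ T : (C × C → ℂ) →ₗ[ℂ] (A × A → ℂ), ∀ (Z : Mat C) (φ : ℝ → ℝ → ℝ),
      ∑ j : A × A, φ (S.p j.1) (S.p j.2) * ‖T (fun p => SC.hat Z p.1 p.2) j‖ ^ 2 =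
        c * S.qf φ (cen S.rho (E Z)) := by
  let un : (C × C → ℂ) →ₗ[ℂ] Mat C :=
    { toFun := fun z => SC.U * Matrix.of (fun j k => z (j, k)) * SC.Uᴴ
      map_add' := fun z w => by
        rw [← Matrix.add_mul, ← Matrix.mul_add]
        rfl
      map_smul' := fun a z => by
        rw [RingHom.id_apply, ← Matrix.smul_mul, ← Matrix.mul_smul]
        rfl }
  have hun : ∀ Z, un (fun p => SC.hat Z p.1 p.2) = Z := fun Z => by
    change SC.U * (SC.Uᴴ * Z * SC.U) * SC.Uᴴ = Z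
    rw [← Matrix.mul_assoc, ← Matrix.mul_assoc, SC.U2, Matrix.one_mul, Matrix.mul_assoc, SC.U2,
      Matrix.mul_one]
  let vec : Mat A →ₗ[ℂ] (A × A → ℂ) :=
    { toFun := fun Y p => ((√c : ℝ) : ℂ) * S.hat (cen S.rho Y) p.1 p.2
      map_add' := fun Y Y' => by
        have : cen S.rho (Y + Y') = cen S.rho Y + cen S.rho Y' := by
          simp only [cen, Matrix.mul_add, trace_add, add_smul]
          abel
        funext p
        simp only [this, Sp.hat, Matrix.mul_add, Matrix.add_mul, Matrix.add_apply, Pi.add_apply,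
          mul_add]
      map_smul' := fun a Y => by
        have : cen S.rho (a • Y) = a • cen S.rho Y := by
          simp only [cen, Matrix.mul_smul, trace_smul, smul_sub, smul_assoc]
        funext p
        simp only [this, Sp.hat, Matrix.mul_smul, Matrix.smul_mul, Matrix.smul_apply,
          Pi.smul_apply, smul_eq_mul, RingHom.id_apply]
        ring }
  refine ⟨vec ∘ₗ E ∘ₗ un, fun Z φ => ?_⟩
  rw [← st3_qf, Finset.mul_sum]
  refine Finset.sum_congr rfl fun j _ => ?_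
  rw [LinearMap.comp_apply, LinearMap.comp_apply, hun]
  change _ * ‖((√c : ℝ) : ℂ) * S.hat (cen S.rho (E Z)) j.1 j.2‖ ^ 2 = _
  rw [norm_mul, mul_pow, Complex.norm_real, Real.norm_eq_abs, sq_abs, Real.sq_sqrt hc]
  ring

theorem st3_T (SA : Sp A) (SB : Sp B) (SC : Sp C) (EA : Mat C →ₗ[ℂ] Mat A)
    (EB : Mat C →ₗ[ℂ] Mat B) {cA cB : ℝ} (hA : 0 ≤ cA) (hB : 0 ≤ cB) (NA NB : ℝ) :
    ∃ T : (C × C → ℂ) →ₗ[ℂ] ((A × A) ⊕ (B × B) → ℂ), ∀ (Z : Mat C) (φ : ℝ → ℝ → ℝ → ℝ),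
      ∑ j : (A × A) ⊕ (B × B), φ (Sum.elim (fun _ => NA) (fun _ => NB) j)
          (Sum.elim (fun p => SA.p p.1) (fun p => SB.p p.1) j)
          (Sum.elim (fun p => SA.p p.2) (fun p => SB.p p.2) j) *
          ‖T (fun p => SC.hat Z p.1 p.2) j‖ ^ 2 =
        cA * SA.qf (φ NA) (cen SA.rho (EA Z)) + cB * SB.qf (φ NB) (cen SB.rho (EB Z)) := by
  obtain ⟨TA, hTA⟩ := st3_vec SA SC EA hA
  obtain ⟨TB, hTB⟩ := st3_vec SB SC EB hB
  refine ⟨{ toFun := fun z => Sum.elim (TA z) (TB z)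
            map_add' := fun z w => ?_
            map_smul' := fun a z => ?_ }, fun Z φ => ?_⟩
  · funext j
    cases j <;> simp
  · funext j
    cases j <;> simp
  · rw [Fintype.sum_sum_type, ← hTA, ← hTB]
    rfl

theorem st3_qf_mul (S : Sp C) (k : ℝ) (φ : ℝ → ℝ → ℝ) (Z : Mat C) :
    S.qf (fun x y => k * φ x y) Z = k * S.qf φ Z := by
  simp only [Sp.qf, Finset.mul_sum, mul_assoc]

theorem st3_mixL {δ : ℝ} (hδ : 0 ≤ δ) (ρ Z : Mat C) :
    (1 - δ) * ((Zᴴ * ρ * Z).trace).re ≤ ((Zᴴ * mixd δ ρ * Z).trace).re := by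
  have h : 0 ≤ δ / Fintype.card C * ((Zᴴ * Z).trace).re := by
    rw [← fr_sq_trace]
    positivity
  simp only [mixd, Matrix.mul_add, Matrix.add_mul, Matrix.mul_smul, Matrix.smul_mul, trace_add,
    trace_smul, Matrix.mul_one, smul_eq_mul, Complex.add_re, Complex.re_ofReal_mul]
  linarith

theorem st3_mixR {δ : ℝ} (hδ : 0 ≤ δ) (ρ Z : Mat C) :
    (1 - δ) * ((Zᴴ * Z * ρ).trace).re ≤ ((Zᴴ * Z * mixd δ ρ).trace).re := by
  have h : 0 ≤ δ / Fintype.card C * ((Zᴴ * Z).trace).re := by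
    rw [← fr_sq_trace]
    positivity
  simp only [mixd, Matrix.mul_add, Matrix.mul_smul, trace_add,
    trace_smul, Matrix.mul_one, smul_eq_mul, Complex.add_re, Complex.re_ofReal_mul]
  linarith
end

theorem st3_c_le {δ e r : ℝ} (h0 : 0 ≤ δ) (h1 : δ ≤ 1) (he : e ^ 2 ≤ 1) (hr : 0 < r) :
    (1 - δ) ^ 2 * e ^ 2 / ((1 - δ) * e ^ 2 + r) ≤ (1 - δ) * (1 / (1 + r)) := by
  have hd : 0 ≤ 1 - δ := sub_nonneg.2 h1
  have h2 : (1 - δ) * e ^ 2 ≤ 1 := mul_le_one₀ (by linarith) (sq_nonneg e) he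
  rw [mul_one_div, div_le_div_iff₀ (by positivity) (by positivity)]
  have := mul_le_mul_of_nonneg_left h2 (mul_nonneg hd hr.le)
  nlinarith

theorem st3_hess {δ e ε β β' G G' : ℝ} (h1 : δ ≤ 1) (hε : 0 < ε) (hβ : 0 < β) (hβ' : 0 < β')
    (h : (1 - δ) ^ 2 * G' ≤ ((1 - δ) * e ^ 2 * β + ε) / β' * G) :
    (1 - δ) ^ 2 * e ^ 2 / ((1 - δ) * e ^ 2 + ε / β) * (β' * G') ≤ e ^ 2 * (β * G) := by
  have hd : 0 ≤ 1 - δ := sub_nonneg.2 h1
  have hD : 0 < (1 - δ) * e ^ 2 + ε / β := by positivity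
  calc (1 - δ) ^ 2 * e ^ 2 / ((1 - δ) * e ^ 2 + ε / β) * (β' * G')
      = e ^ 2 * β' / ((1 - δ) * e ^ 2 + ε / β) * ((1 - δ) ^ 2 * G') := by ring
    _ ≤ e ^ 2 * β' / ((1 - δ) * e ^ 2 + ε / β) * (((1 - δ) * e ^ 2 * β + ε) / β' * G) :=
        mul_le_mul_of_nonneg_left h (by positivity)
    _ = e ^ 2 * (β * G) := by
        have : (1 - δ) * e ^ 2 * β + ε = β * ((1 - δ) * e ^ 2 + ε / β) := by field_simp
        rw [this]
        field_simp

/-- (★) applied to `Z ↦ (√c_A T_A Z, √c_B T_B Z)` in the eigenbases, `I = C × C`,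
`J = (A × A) ⊕ (B × B)`, `θ = 1 / (1 + ε/β)`. -/
theorem st3 (NC : ℝ) (hNC : 0 < NC) :
    ∃ (Cst : ℝ) (sl : ℝ → ℝ → ℝ), 0 ≤ Cst ∧
      (∀ x y, 0 < x → 0 < y → 0 ≤ sl x y ∧ phiJ NC x y ^ 2 ≤ Cst * (x + y) * sl x y) ∧
      ∀ (A B C : Type) [Fintype A] [DecidableEq A] [Fintype B] [DecidableEq B] [Fintype C]
        [DecidableEq C] (SA : Sp A) (SB : Sp B) (SC : Sp C) (ρC c : Mat C)
        (EA : Mat C →ₗ[ℂ] Mat A) (EB : Mat C →ₗ[ℂ] Mat B) (a : Mat A) (b : Mat B)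
        (e1 e2 NA NB δ ε s : ℝ),
        Side SA SC ρC c EA a e1 NA (bt NC) δ ε s → Side SB SC ρC c EB b e2 NB (bt NC) δ ε s →
        SC.rho = mixd δ ρC → 0 < NA → 0 < NB → e1 ^ 2 + e2 ^ 2 = 1 →
        NC = e1 ^ 2 * NA + e2 ^ 2 * NB → 0 ≤ δ → δ ≤ 1 → 0 < ε →
        (∀ Z, (((cen SA.rho (EA Z))ᴴ * SA.rho * cen SA.rho (EA Z)).trace).re +
          (((cen SB.rho (EB Z))ᴴ * SB.rho * cen SB.rho (EB Z)).trace).re ≤
          ((Zᴴ * ρC * Z).trace).re) →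
        (∀ Z, (((cen SA.rho (EA Z))ᴴ * cen SA.rho (EA Z) * SA.rho).trace).re +
          (((cen SB.rho (EB Z))ᴴ * cen SB.rho (EB Z) * SB.rho).trace).re ≤
          ((Zᴴ * Z * ρC).trace).re) →
        ∀ Z, (1 - δ) ^ 2 * e1 ^ 2 / ((1 - δ) * e1 ^ 2 + ε / bt NC) *
              SA.qf (phiJ NA) (cen SA.rho (EA Z)) +
            (1 - δ) ^ 2 * e2 ^ 2 / ((1 - δ) * e2 ^ 2 + ε / bt NC) *
              SB.qf (phiJ NB) (cen SB.rho (EB Z)) ≤
          SC.qf (phiJ NC) Z - (1 - 1 / (1 + ε / bt NC)) / 4 * SC.qf sl Z := by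
  obtain ⟨Cst, sl, hC, hsl, H⟩ := star NC hNC
  refine ⟨Cst, sl, hC, hsl, ?_⟩
  intro A B C _ _ _ _ _ _ SA SB SC ρC c EA EB a b e1 e2 NA NB δ ε s hA hB hσ hNA hNB he hN h0 h1 hε
    hL hR Z
  have hβ : 0 < bt NC := bt_pos hNC
  have hβA : 0 < bt NA := bt_pos hNA
  have hβB : 0 < bt NB := bt_pos hNB
  have hr : 0 < ε / bt NC := div_pos hε hβ
  have hd : 0 ≤ 1 - δ := sub_nonneg.2 h1
  have hcA := st3_c_le (e := e1) h0 h1 (by nlinarith [sq_nonneg e2]) hr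
  have hcB := st3_c_le (e := e2) h0 h1 (by nlinarith [sq_nonneg e1]) hr
  have hhA := fun Z => st3_hess h1 hε hβ hβA (hA.hess Z)
  have hhB := fun Z => st3_hess h1 hε hβ hβB (hB.hess Z)
  set cA := (1 - δ) ^ 2 * e1 ^ 2 / ((1 - δ) * e1 ^ 2 + ε / bt NC) with hcAd
  set cB := (1 - δ) ^ 2 * e2 ^ 2 / ((1 - δ) * e2 ^ 2 + ε / bt NC) with hcBd
  set θ := 1 / (1 + ε / bt NC) with hθd
  have hθ0 : 0 ≤ θ := by positivity
  have hθ1 : θ ≤ 1 := by
    rw [hθd, div_le_one (by positivity)]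
    linarith
  obtain ⟨T, hT⟩ := st3_T SA SB SC EA EB (cA := cA) (cB := cB) (by positivity) (by positivity) NA NB
  have key := H (C × C) ((A × A) ⊕ (B × B)) T (fun p => SC.p p.1) (fun p => SC.p p.2)
    (Sum.elim (fun p => SA.p p.1) (fun p => SB.p p.1))
    (Sum.elim (fun p => SA.p p.2) (fun p => SB.p p.2)) (Sum.elim (fun _ => NA) (fun _ => NB)) θ
    (fun _ => SC.p_pos _) (fun _ => SC.p_pos _)
    (fun j => by cases j; exacts [SA.p_pos _, SB.p_pos _])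
    (fun j => by cases j; exacts [SA.p_pos _, SB.p_pos _])
    (fun j => by cases j; exacts [hNA, hNB]) hθ0 hθ1 ?_ ?_ ?_ ?_ (fun p => SC.hat Z p.1 p.2)
  · rw [hT Z phiJ, st3_qf SC (fun x y => phiJ NC x y - (1 - θ) / 4 * sl x y) Z] at key
    refine key.trans (le_of_eq ?_)
    simp only [Sp.qf, Finset.mul_sum, ← Finset.sum_sub_distrib]
    exact Finset.sum_congr rfl fun _ _ => Finset.sum_congr rfl fun _ _ => by ring
  · intro z
    obtain ⟨Z, rfl⟩ := st3_surj SC z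
    rw [hT Z (fun _ x _ => x), st3_qf SC (fun x _ => x) Z]
    have a1 := qf_nonneg SA (fun x _ => x) (fun _ _ h _ => h.le) (cen SA.rho (EA Z))
    have a2 := qf_nonneg SB (fun x _ => x) (fun _ _ h _ => h.le) (cen SB.rho (EB Z))
    have a3 := mul_le_mul_of_nonneg_right hcA a1
    have a4 := mul_le_mul_of_nonneg_right hcB a2
    have a5 := mul_le_mul_of_nonneg_left (hL Z) (mul_nonneg hd hθ0)
    have a6 := mul_le_mul_of_nonneg_left (st3_mixL h0 ρC Z) hθ0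
    rw [← hσ] at a6
    rw [qf_L] at a3 a4
    rw [qf_L, qf_L, qf_L]
    linarith
  · intro z
    obtain ⟨Z, rfl⟩ := st3_surj SC z
    rw [hT Z (fun _ _ y => y), st3_qf SC (fun _ y => y) Z]
    have a1 := qf_nonneg SA (fun _ y => y) (fun _ _ _ h => h.le) (cen SA.rho (EA Z))
    have a2 := qf_nonneg SB (fun _ y => y) (fun _ _ _ h => h.le) (cen SB.rho (EB Z))
    have a3 := mul_le_mul_of_nonneg_right hcA a1
    have a4 := mul_le_mul_of_nonneg_right hcB a2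
    have a5 := mul_le_mul_of_nonneg_left (hR Z) (mul_nonneg hd hθ0)
    have a6 := mul_le_mul_of_nonneg_left (st3_mixR h0 ρC Z) hθ0
    rw [← hσ] at a6
    rw [qf_R] at a3 a4
    rw [qf_R, qf_R, qf_R]
    linarith
  · intro z
    obtain ⟨Z, rfl⟩ := st3_surj SC z
    rw [hT Z (fun N x y => (N + 1) * bt N * LM x y),
      st3_qf SC (fun x y => (NC + 1) * bt NC * LM x y) Z, st3_qf_mul, st3_qf_mul, st3_qf_mul]
    have a1 := mul_le_mul_of_nonneg_left (hhA Z) (by linarith : 0 ≤ NA + 1)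
    have a2 := mul_le_mul_of_nonneg_left (hhB Z) (by linarith : 0 ≤ NB + 1)
    have a3 : NC + 1 = (NA + 1) * e1 ^ 2 + (NB + 1) * e2 ^ 2 := by linarith
    rw [a3]
    linarith
  · intro z
    obtain ⟨Z, rfl⟩ := st3_surj SC z
    rw [hT Z (fun N x y => N * bt N * LM x y),
      st3_qf SC (fun x y => NC * bt NC * LM x y) Z, st3_qf_mul, st3_qf_mul, st3_qf_mul]
    have a1 := mul_le_mul_of_nonneg_left (hhA Z) hNA.le
    have a2 := mul_le_mul_of_nonneg_left (hhB Z) hNB.le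
    have a3 : NC * bt NC * SC.qf LM Z =
        NA * (e1 ^ 2 * (bt NC * SC.qf LM Z)) + NB * (e2 ^ 2 * (bt NC * SC.qf LM Z)) := by
      generalize bt NC = β
      rw [hN]
      ring
    rw [a3]
    linarith

end Crest.Agent.R331.EP
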