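import Crest.Agent.R331.St1
import Crest.Agent.R331.St2
import Crest.Agent.R331.St3

set_option autoImplicit false

open Matrix Kronecker Crest.Quantum Crest.MathPhysics.Bosonic
open scoped ComplexOrder

namespace Crest.Agent.R331.EP

section
variable {C : Type} [Fintype C] [DecidableEq C]

theorem step_card (S : Sp C) : (1 : ℝ) ≤ Fintype.card C := by
  have h := S.tr1
  have : Nonempty C := by
    by_contra hn
    rw [not_nonempty_iff] at hn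
    simp at h
  exact_mod_cast Fintype.card_pos

theorem step_tr_le (Y : Mat C) : ‖Y.trace‖ ≤ √(Fintype.card C) * fr Y := by
  have := trace_mul_le (1 : Mat C) Y
  rwa [Matrix.one_mul, fr_one] at this

theorem step_zeta (S : Sp C) {N Λ : ℝ} (hN : 0 < N) (c : Mat C) (hΛ : 1 ≤ Λ) (hc : fr c ≤ Λ)
    (hd : (Fintype.card C : ℝ) ≤ Λ) (hH : fr S.H ≤ Λ) :
    fr (S.zeta N (cen S.rho c)) ≤ (2 / bt N + 2) * Λ ^ 2 := by
  have hb := bt_pos hN
  have e : S.zeta N (cen S.rho c) = (((bt N)⁻¹ : ℝ) : ℂ) • (S.H * c - c * S.H) - cen S.rho c := by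
    unfold Sp.zeta cen
    congr 2
    simp [Matrix.mul_sub, Matrix.sub_mul]
  have h1 : fr (S.H * c - c * S.H) ≤ 2 * Λ ^ 2 := by
    have a1 := fr_sub (S.H * c) (c * S.H)
    have a2 := fr_mul S.H c
    have a3 := fr_mul c S.H
    have a4 : fr S.H * fr c ≤ Λ * Λ := mul_le_mul hH hc (fr_nonneg _) (by linarith)
    nlinarith
  have h2 : fr (cen S.rho c) ≤ 2 * Λ ^ 2 := by
    unfold cen
    have a1 := fr_sub c ((S.rho * c).trace • (1 : Mat C))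
    rw [fr_smul, fr_one] at a1
    have a2 := trace_mul_le S.rho c
    have a3 := fr_density S.density
    have a4 : ‖(S.rho * c).trace‖ ≤ Λ := by
      have : fr S.rho * fr c ≤ 1 * Λ := mul_le_mul a3 hc (fr_nonneg _) zero_le_one
      linarith
    have a5 : √(Fintype.card C : ℝ) ≤ Λ := by
      rw [Real.sqrt_le_left (by linarith)]
      nlinarith
    have a6 : ‖(S.rho * c).trace‖ * √(Fintype.card C : ℝ) ≤ Λ * Λ :=
      mul_le_mul a4 a5 (Real.sqrt_nonneg _) (by linarith)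
    nlinarith
  rw [e]
  have a1 := fr_sub ((((bt N)⁻¹ : ℝ) : ℂ) • (S.H * c - c * S.H)) (cen S.rho c)
  rw [fr_smul, Complex.norm_real, Real.norm_eq_abs, abs_of_pos (inv_pos.2 hb)] at a1
  have a2 : (bt N)⁻¹ * fr (S.H * c - c * S.H) ≤ (bt N)⁻¹ * (2 * Λ ^ 2) :=
    mul_le_mul_of_nonneg_left h1 (inv_pos.2 hb).le
  have a3 : (2 / bt N + 2) * Λ ^ 2 = (bt N)⁻¹ * (2 * Λ ^ 2) + 2 * Λ ^ 2 := by
    field_simp
  linarith

theorem step_MM (S : Sp C) {N : ℝ} (hN : 0 < N) (sl : ℝ → ℝ → ℝ) (C0 : ℝ) (hC : 0 ≤ C0)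
    (h : ∀ x y, 0 < x → 0 < y → 0 ≤ sl x y ∧ phiJ N x y ^ 2 ≤ C0 * (x + y) * sl x y) (x : Mat C) :
    fr (MM N S.rho x) ^ 2 ≤ 2 * C0 * S.qf sl (S.zeta N x) := by
  have h1 := sf_cs S (phiJ N) sl C0 hC h (S.zeta N x) (MM N S.rho x)ᴴ
  rw [JZ S hN, norm_neg, fr_conjT] at h1
  have h2 : fr (MM N S.rho x) ^ 2 ≤ ‖((MM N S.rho x)ᴴ * MM N S.rho x).trace‖ := by
    rw [fr_sq_trace]
    exact Complex.re_le_norm _
  have hq : 0 ≤ 2 * C0 * S.qf sl (S.zeta N x) :=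
    mul_nonneg (by linarith) (qf_nonneg S sl (fun x y hx hy => (h x y hx hy).1) _)
  set f := fr (MM N S.rho x) ^ 2 with hf
  have f0 : 0 ≤ f := sq_nonneg _
  rcases f0.eq_or_lt with h0 | h0
  · rw [← h0]; exact hq
  · have : f * f ≤ 2 * C0 * S.qf sl (S.zeta N x) * f := by
      calc f * f = f ^ 2 := by ring
        _ ≤ ‖((MM N S.rho x)ᴴ * MM N S.rho x).trace‖ ^ 2 := by gcongr
        _ ≤ _ := h1
    exact le_of_mul_le_mul_right this h0

omit [DecidableEq C] in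
theorem step_tr_conj {ρ : Mat C} (h : IsDensity ρ) (x : Mat C) :
    ‖(ρ * xᴴ).trace‖ = ‖(ρ * x).trace‖ := by
  have e : (ρ * xᴴ).trace = Star.star ((ρ * x).trace) := by
    rw [← Matrix.trace_conjTranspose, Matrix.conjTranspose_mul, h.1.1.eq, Matrix.trace_mul_comm]
  rw [e, norm_star]
end

/-- The rigidity estimate for one mode. -/
theorem step (NA NB NC ε : ℝ) (hNA : 0 < NA) (hNB : 0 < NB) (hNC : 0 < NC) (hε : 0 < ε) :
    ∃ Cst : ℝ, 0 ≤ Cst ∧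
      ∀ (A B C : Type) [Fintype A] [DecidableEq A] [Fintype B] [DecidableEq B] [Fintype C]
        [DecidableEq C] (SA : Sp A) (SB : Sp B) (SC : Sp C) (ρC c : Mat C)
        (EA : Mat C →ₗ[ℂ] Mat A) (EB : Mat C →ₗ[ℂ] Mat B) (a : Mat A) (b : Mat B)
        (e1 e2 δ s Λ : ℝ),
        Side SA SC ρC c EA a e1 NA (bt NC) δ ε s → Side SB SC ρC c EB b e2 NB (bt NC) δ ε s →
        SC.rho = mixd δ ρC → IsDensity ρC → e1 ^ 2 + e2 ^ 2 = 1 →
        NC = e1 ^ 2 * NA + e2 ^ 2 * NB → 0 ≤ δ → δ ≤ 1 → δ ≤ s →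
        (∀ Z, (Z * ρC * cᴴ).trace = (e1 : ℂ) * (EA Z * SA.rho * aᴴ).trace +
          (e2 : ℂ) * (EB Z * SB.rho * bᴴ).trace) →
        (∀ Z, (((cen SA.rho (EA Z))ᴴ * SA.rho * cen SA.rho (EA Z)).trace).re +
          (((cen SB.rho (EB Z))ᴴ * SB.rho * cen SB.rho (EB Z)).trace).re ≤
          ((Zᴴ * ρC * Z).trace).re) →
        (∀ Z, (((cen SA.rho (EA Z))ᴴ * cen SA.rho (EA Z) * SA.rho).trace).re +
          (((cen SB.rho (EB Z))ᴴ * cen SB.rho (EB Z) * SB.rho).trace).re ≤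
          ((Zᴴ * Z * ρC).trace).re) →
        1 ≤ Λ → fr c ≤ Λ → (Fintype.card C : ℝ) ≤ Λ → fr SC.H ≤ Λ →
        fr (MM NC SC.rho c) ^ 2 ≤ Cst * Λ ^ 4 * s ∧
          ‖(SA.rho * a).trace‖ ^ 2 ≤ Cst * Λ ^ 4 * s ∧
          ‖(SB.rho * b).trace‖ ^ 2 ≤ Cst * Λ ^ 4 * s := by
  obtain ⟨C0, sl, hC0, hsl, h3⟩ := st3 NC hNC
  have hb := bt_pos hNC
  obtain ⟨κ, hκ⟩ : ∃ κ, κ = ε / bt NC := ⟨_, rfl⟩
  have κ0 : 0 < κ := hκ ▸ div_pos hε hb
  obtain ⟨k0, hk0⟩ : ∃ k0, k0 = (1 - 1 / (1 + κ)) / 4 := ⟨_, rfl⟩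
  have k00 : 0 < k0 := by
    rw [hk0]
    have : 1 / (1 + κ) < 1 := by rw [div_lt_one (by linarith)]; linarith
    linarith
  obtain ⟨M, hM⟩ : ∃ M, M = 2 * (1 + 1 / bt NC) + (4 + NA + NB) * (2 / bt NC + 2) := ⟨_, rfl⟩
  have M0 : 0 ≤ M := by rw [hM]; positivity
  refine ⟨4 * (2 * C0 * (M / k0) + 2 * (M / κ) + 1) + M / κ, by positivity, ?_⟩
  intro A B C _ _ _ _ _ _ SA SB SC ρC c EA EB a b e1 e2 δ s Λ hA hB hσ hρ he hN h0 h1 hs hj hL hR
    hΛ hc hd hH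
  have s0 : 0 ≤ s := h0.trans hs
  have a1 := st1 hA hσ hNA hNC hε h1
  have b1 := st1 hB hσ hNB hNC hε h1
  have c2 := st2 hA hB hσ hρ hj hNA hNB he hN h0 h1 hs hΛ hc hd (SC.zeta NC (cen SC.rho c))
  have c3 := h3 A B C SA SB SC ρC c EA EB a b e1 e2 NA NB δ ε s hA hB hσ hNA hNB he hN h0 h1 hε
    hL hR (SC.zeta NC (cen SC.rho c))
  have c4 := step_zeta SC hNC c hΛ hc hd hH
  have c5 := step_MM SC hNC sl C0 hC0 hsl (cen SC.rho c)
  rw [sf_self] at c2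
  have c6 := (Complex.re_le_norm _).trans c2
  rw [Complex.sub_re, Complex.add_re, Complex.ofReal_re] at c6
  rw [← hκ] at a1 b1 c3
  rw [← hk0] at c3
  have q0 : 0 ≤ SC.qf sl (SC.zeta NC (cen SC.rho c)) :=
    qf_nonneg SC sl (fun x y hx hy => (hsl x y hx hy).1) _
  obtain ⟨X, hX⟩ : ∃ X, X = Λ ^ 4 * s := ⟨_, rfl⟩
  have L2 : 1 ≤ Λ ^ 2 := one_le_pow₀ hΛ
  have L4 : 1 ≤ Λ ^ 4 := one_le_pow₀ hΛ
  have X0 : s ≤ X := by rw [hX]; nlinarith only [s0, L4]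
  have err : 2 * ((1 + 1 / bt NC) * s) +
      (4 * Λ ^ 2 + NA + NB) * s * fr (SC.zeta NC (cen SC.rho c)) ≤ M * X := by
    have t1 : (4 * Λ ^ 2 + NA + NB) ≤ (4 + NA + NB) * Λ ^ 2 := by nlinarith only [L2, hNA, hNB]
    have t2 : (4 * Λ ^ 2 + NA + NB) * s * fr (SC.zeta NC (cen SC.rho c)) ≤
        ((4 + NA + NB) * Λ ^ 2) * s * ((2 / bt NC + 2) * Λ ^ 2) := by
      have := fr_nonneg (SC.zeta NC (cen SC.rho c))
      gcongr
    have t3 : (1 + 1 / bt NC) * s ≤ (1 + 1 / bt NC) * X :=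
      mul_le_mul_of_nonneg_left X0 (by positivity)
    have t4 : ((4 + NA + NB) * Λ ^ 2) * s * ((2 / bt NC + 2) * Λ ^ 2) =
        (4 + NA + NB) * (2 / bt NC + 2) * X := by rw [hX]; ring
    rw [hM]
    linarith
  obtain ⟨q, hq⟩ : ∃ q, q = SC.qf sl (SC.zeta NC (cen SC.rho c)) := ⟨_, rfl⟩
  obtain ⟨α, hα⟩ : ∃ α, α = ‖(SA.rho * a).trace‖ := ⟨_, rfl⟩
  obtain ⟨β, hβ⟩ : ∃ β, β = ‖(SB.rho * b).trace‖ := ⟨_, rfl⟩
  rw [← hq] at c3 c5 q0
  rw [← hα] at a1 ⊢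
  rw [← hβ] at b1 ⊢
  have main : k0 * q + κ * α ^ 2 + κ * β ^ 2 ≤ M * X := by linarith
  have m1 : 0 ≤ k0 * q := by positivity
  have m2 : 0 ≤ κ * α ^ 2 := by positivity
  have m3 : 0 ≤ κ * β ^ 2 := by positivity
  have XX : 0 ≤ X := s0.trans X0
  have r1 : q ≤ M / k0 * X := by
    rw [div_mul_eq_mul_div, le_div_iff₀ k00]; linarith
  have r2 : α ^ 2 ≤ M / κ * X := by
    rw [div_mul_eq_mul_div, le_div_iff₀ κ0]; linarith
  have r3 : β ^ 2 ≤ M / κ * X := by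
    rw [div_mul_eq_mul_div, le_div_iff₀ κ0]; linarith
  have p1 : 0 ≤ 2 * C0 * (M / k0) * X := by positivity
  have p2 : 0 ≤ M / κ * X := by positivity
  have e1' : |e1| ≤ 1 := by rw [← sq_le_one_iff_abs_le_one]; linarith only [he, sq_nonneg e2]
  have e2' : |e2| ≤ 1 := by rw [← sq_le_one_iff_abs_le_one]; linarith only [he, sq_nonneg e1]
  have α0 : 0 ≤ α := hα ▸ norm_nonneg _
  have β0 : 0 ≤ β := hβ ▸ norm_nonneg _
  have mu0 : ‖(ρC * c).trace‖ ≤ α + β := by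
    have t := hj 1
    rw [hA.one, hB.one, Matrix.one_mul, Matrix.one_mul, Matrix.one_mul] at t
    rw [← step_tr_conj hρ, t]
    refine (norm_add_le _ _).trans (add_le_add ?_ ?_)
    · rw [norm_mul, step_tr_conj SA.density, ← hα, Complex.norm_real, Real.norm_eq_abs]
      exact mul_le_of_le_one_left α0 e1'
    · rw [norm_mul, step_tr_conj SB.density, ← hβ, Complex.norm_real, Real.norm_eq_abs]
      exact mul_le_of_le_one_left β0 e2'
  have d1 := step_card SC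
  have mu : ‖(SC.rho * c).trace‖ ≤ α + β + δ * Λ := by
    rw [hσ]
    unfold mixd
    rw [Matrix.add_mul, Matrix.smul_mul, Matrix.smul_mul, Matrix.one_mul, Matrix.trace_add,
      Matrix.trace_smul, Matrix.trace_smul, smul_eq_mul, smul_eq_mul]
    refine (norm_add_le _ _).trans (add_le_add ?_ ?_)
    · rw [norm_mul, Complex.norm_real, Real.norm_eq_abs, abs_of_nonneg (by linarith)]
      exact (mul_le_of_le_one_left (norm_nonneg _) (by linarith only [h0])).trans mu0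
    · rw [norm_mul, Complex.norm_real, Real.norm_eq_abs, abs_of_nonneg (by positivity)]
      have t1 := step_tr_le c
      have t2 : √(Fintype.card C : ℝ) ≤ Fintype.card C := by
        rw [Real.sqrt_le_left (by linarith only [d1])]
        nlinarith only [d1]
      have t3 : ‖c.trace‖ ≤ Fintype.card C * Λ :=
        t1.trans (mul_le_mul t2 hc (fr_nonneg _) (by linarith))
      calc δ / Fintype.card C * ‖c.trace‖ ≤ δ / Fintype.card C * (Fintype.card C * Λ) := by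
            gcongr
        _ = δ * Λ := by field_simp
  have mm : fr (MM NC SC.rho c) ≤ fr (MM NC SC.rho (cen SC.rho c)) + (α + β + δ * Λ) := by
    have e : MM NC SC.rho c =
        MM NC SC.rho (cen SC.rho c) + Star.star ((SC.rho * c).trace) • SC.rho := by
      rw [MM_cen]; simp
    have t1 := fr_add (MM NC SC.rho (cen SC.rho c)) (Star.star ((SC.rho * c).trace) • SC.rho)
    rw [← e, fr_smul, norm_star] at t1
    have t2 := fr_density SC.density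
    have t3 : ‖(SC.rho * c).trace‖ * fr SC.rho ≤ (α + β + δ * Λ) * 1 :=
      mul_le_mul mu t2 (fr_nonneg _) (by positivity)
    linarith
  have dl : (δ * Λ) ^ 2 ≤ X := by
    have t1 : Λ ^ 2 ≤ Λ ^ 4 := pow_le_pow_right₀ hΛ (by norm_num)
    have t2 : δ ^ 2 ≤ s := by nlinarith only [h0, h1, hs]
    rw [hX, mul_pow, mul_comm]
    exact mul_le_mul t1 t2 (sq_nonneg _) (by positivity)
  have c7 : fr (MM NC SC.rho (cen SC.rho c)) ^ 2 ≤ 2 * C0 * (M / k0) * X := by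
    have := mul_le_mul_of_nonneg_left r1 (by positivity : 0 ≤ 2 * C0)
    linarith
  refine ⟨?_, ?_, ?_⟩
  · rw [mul_assoc _ _ s, ← hX]
    obtain ⟨u, hu⟩ : ∃ u, u = fr (MM NC SC.rho (cen SC.rho c)) := ⟨_, rfl⟩
    obtain ⟨v, hv⟩ : ∃ v, v = δ * Λ := ⟨_, rfl⟩
    rw [← hu] at c7 mm
    rw [← hv] at dl mm
    have t1 : fr (MM NC SC.rho c) ^ 2 ≤ (u + (α + β + v)) ^ 2 :=
      pow_le_pow_left₀ (fr_nonneg _) mm 2
    have t2 : (u + (α + β + v)) ^ 2 ≤ 4 * (u ^ 2 + α ^ 2 + β ^ 2 + v ^ 2) := by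
      nlinarith only [sq_nonneg (u - α), sq_nonneg (u - β), sq_nonneg (u - v), sq_nonneg (α - β),
        sq_nonneg (α - v), sq_nonneg (β - v)]
    linarith
  · rw [mul_assoc _ _ s, ← hX]; linarith
  · rw [mul_assoc _ _ s, ← hX]; linarith

end Crest.Agent.R331.EP
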