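import Crest.Agent.R341.Ent

/-! Row 331, variational module, part A: spectral weights of a pair of Hermitian matrices. -/

set_option autoImplicit false
set_option linter.unusedSectionVars false

namespace Crest.Agent.R331.Var

open Real Finset Matrix Crest.Quantum Crest.Agent.R341
open scoped ComplexOrder

variable {n : Type*} [Fintype n] [DecidableEq n]

/-- unitarity -/
structure Uni (U : Matrix n n ℂ) : Prop where
  h1 : Uᴴ * U = 1
  h2 : U * Uᴴ = 1

/-- `U diag(d) U^*` -/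
def cj (U : Matrix n n ℂ) (d : n → ℝ) : Matrix n n ℂ := U * rdiag d * Uᴴ

/-- transition weights -/
noncomputable def wt (V U : Matrix n n ℂ) (i j : n) : ℝ := ‖(Vᴴ * U) i j‖ ^ 2

/-- squared Frobenius norm -/
noncomputable def fro (M : Matrix n n ℂ) : ℝ := ∑ i, ∑ j, ‖M i j‖ ^ 2

theorem wt_nonneg (V U : Matrix n n ℂ) (i j : n) : 0 ≤ wt V U i j := by
  unfold wt; positivity

theorem fro_nonneg (M : Matrix n n ℂ) : 0 ≤ fro M := by
  unfold fro; positivity

theorem rdiag_herm (d : n → ℝ) : (rdiag d)ᴴ = rdiag d := by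
  ext i j
  by_cases h : i = j
  · subst h; simp [rdiag]
  · simp [rdiag, h, Ne.symm h]

theorem cj_herm (U : Matrix n n ℂ) (d : n → ℝ) : (cj U d).IsHermitian := by
  unfold IsHermitian cj
  rw [conjTranspose_mul, conjTranspose_mul, conjTranspose_conjTranspose, rdiag_herm,
    Matrix.mul_assoc]

theorem cj_psd (U : Matrix n n ℂ) {d : n → ℝ} (hd : ∀ i, 0 ≤ d i) : (cj U d).PosSemidef :=
  (rdiag_psd hd).mul_mul_conjTranspose_same U

theorem exists_cj {A : Matrix n n ℂ} (hA : A.IsHermitian) :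
    ∃ (U : Matrix n n ℂ) (d : n → ℝ), Uni U ∧ A = cj U d :=
  ⟨hA.eigenvectorUnitary, hA.eigenvalues,
    ⟨hA.eigenvectorUnitary.2.1, hA.eigenvectorUnitary.2.2⟩, hA.spectral_theorem⟩

theorem exists_cj_psd {A : Matrix n n ℂ} (hA : A.PosSemidef) :
    ∃ (U : Matrix n n ℂ) (d : n → ℝ), Uni U ∧ (∀ i, 0 ≤ d i) ∧ A = cj U d := by
  obtain ⟨U, d, h1, h2, hd, e, -⟩ := exists_spec hA
  exact ⟨U, d, ⟨h1, h2⟩, hd, e⟩

theorem vn_cj {U : Matrix n n ℂ} (hU : Uni U) {d : n → ℝ} (hd : ∀ i, 0 ≤ d i) :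
    vnEntropy (cj U d) = ∑ i, negMulLog (d i) := by
  rw [cj, vn_conj (rdiag_psd hd) hU.h1 hU.h2, vn_rdiag hd]

theorem trace_cj {U : Matrix n n ℂ} (hU : Uni U) (d : n → ℝ) :
    (cj U d).trace = ((∑ i, d i : ℝ) : ℂ) := by
  rw [cj, trace_conj hU.h1, rdiag, trace_diagonal]; push_cast; rfl

theorem conj_cj {U : Matrix n n ℂ} (hU : Uni U) (d : n → ℝ) : Uᴴ * cj U d * U = rdiag d :=
  conj_conj hU.h1 _

theorem nonneg_of_cj_psd {U : Matrix n n ℂ} (hU : Uni U) {d : n → ℝ} (h : (cj U d).PosSemidef)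
    (i : n) : 0 ≤ d i := by
  have := diag_re_nonneg (h.conjTranspose_mul_mul_same U) i
  rw [conj_cj hU] at this
  simpa [rdiag] using this

theorem row_sum {W : Matrix n n ℂ} (h : W * Wᴴ = 1) (i : n) : ∑ j, ‖W i j‖ ^ 2 = 1 := by
  have := congrArg (fun M : Matrix n n ℂ => (M i i).re) h
  simp only [Matrix.mul_apply, conjTranspose_apply, Complex.star_def, Complex.mul_conj,
    one_apply_eq, Complex.one_re, Complex.re_sum, Complex.ofReal_re] at this
  simpa only [Complex.sq_norm] using this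

theorem col_sum {W : Matrix n n ℂ} (h : Wᴴ * W = 1) (j : n) : ∑ i, ‖W i j‖ ^ 2 = 1 := by
  have := congrArg (fun M : Matrix n n ℂ => (M j j).re) h
  simp only [Matrix.mul_apply, conjTranspose_apply, Complex.star_def, Complex.conj_mul',
    one_apply_eq, Complex.one_re, Complex.re_sum, ← Complex.ofReal_pow, Complex.ofReal_re] at this
  exact this

theorem Uni.mul {V U : Matrix n n ℂ} (hV : Uni V) (hU : Uni U) : Uni (Vᴴ * U) := by
  constructor
  · rw [conjTranspose_mul, conjTranspose_conjTranspose, Matrix.mul_assoc, ← Matrix.mul_assoc V,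
      hV.h2, Matrix.one_mul, hU.h1]
  · rw [conjTranspose_mul, conjTranspose_conjTranspose, Matrix.mul_assoc, ← Matrix.mul_assoc U,
      hU.h2, Matrix.one_mul, hV.h1]

theorem wt_row {V U : Matrix n n ℂ} (hV : Uni V) (hU : Uni U) (i : n) : ∑ j, wt V U i j = 1 :=
  row_sum (hV.mul hU).h2 i

theorem wt_col {V U : Matrix n n ℂ} (hV : Uni V) (hU : Uni U) (j : n) : ∑ i, wt V U i j = 1 :=
  col_sum (hV.mul hU).h1 j

theorem sum_wt_left {V U : Matrix n n ℂ} (hV : Uni V) (hU : Uni U) (a : n → ℝ) :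
    ∑ i, ∑ j, wt V U i j * a i = ∑ i, a i := by
  simp only [← sum_mul, wt_row hV hU, one_mul]

theorem sum_wt_right {V U : Matrix n n ℂ} (hV : Uni V) (hU : Uni U) (b : n → ℝ) :
    ∑ i, ∑ j, wt V U i j * b j = ∑ j, b j := by
  rw [sum_comm]
  simp only [← sum_mul, wt_col hV hU, one_mul]

/-- `tr (diag a · M · diag b · M^*) = ∑ |M_ij|² a_i b_j` -/
theorem trace_sandwich (M : Matrix n n ℂ) (a b : n → ℝ) :
    (rdiag a * M * rdiag b * Mᴴ).trace = ((∑ i, ∑ j, ‖M i j‖ ^ 2 * (a i * b j) : ℝ) : ℂ) := by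
  rw [Matrix.trace, Complex.ofReal_sum]
  refine sum_congr rfl fun i _ => ?_
  rw [diag_apply, Matrix.mul_apply, Complex.ofReal_sum]
  refine sum_congr rfl fun j _ => ?_
  rw [rdiag, rdiag, mul_diagonal, diagonal_mul, conjTranspose_apply]
  push_cast
  rw [← Complex.mul_conj', Complex.star_def]; ring

theorem trace_cj_mul_cj (V U : Matrix n n ℂ) (a b : n → ℝ) :
    (cj V a * cj U b).trace = ((∑ i, ∑ j, wt V U i j * (a i * b j) : ℝ) : ℂ) := by
  unfold wt
  rw [← trace_sandwich, cj, cj, conjTranspose_mul, conjTranspose_conjTranspose]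
  simp only [Matrix.mul_assoc]
  rw [trace_mul_comm V]
  simp only [Matrix.mul_assoc]

theorem fro_eq (M : Matrix n n ℂ) : ((fro M : ℝ) : ℂ) = (M * Mᴴ).trace := by
  have := trace_sandwich M (fun _ => 1) (fun _ => 1)
  have e : rdiag (fun _ : n => (1 : ℝ)) = 1 := by simp [rdiag]
  rw [e, Matrix.one_mul, Matrix.mul_one] at this
  rw [this, fro]; simp

theorem fro_conj {V U : Matrix n n ℂ} (hV : Uni V) (hU : Uni U) (M : Matrix n n ℂ) :
    fro (Vᴴ * M * U) = fro M := by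
  have : ((fro (Vᴴ * M * U) : ℝ) : ℂ) = fro M := by
    rw [fro_eq, fro_eq, conjTranspose_mul, conjTranspose_mul, conjTranspose_conjTranspose]
    simp only [Matrix.mul_assoc]
    rw [← Matrix.mul_assoc U, hU.h2, Matrix.one_mul, trace_mul_comm]
    simp only [Matrix.mul_assoc]
    rw [hV.h2, Matrix.mul_one]
  exact_mod_cast this

theorem sub_apply' {V U : Matrix n n ℂ} (hV : Uni V) (hU : Uni U) (a b : n → ℝ) (i j : n) :
    (Vᴴ * (cj V a - cj U b) * U) i j = ((a i - b j : ℝ) : ℂ) * (Vᴴ * U) i j := by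
  have e1 : Vᴴ * cj V a * U = rdiag a * (Vᴴ * U) := by
    rw [cj, ← Matrix.mul_assoc, ← Matrix.mul_assoc, hV.h1, Matrix.one_mul, Matrix.mul_assoc]
  have e2 : Vᴴ * cj U b * U = (Vᴴ * U) * rdiag b := by
    rw [cj]
    simp only [Matrix.mul_assoc]
    rw [hU.h1, Matrix.mul_one]
  rw [Matrix.mul_sub, Matrix.sub_mul, e1, e2, Matrix.sub_apply, rdiag, rdiag, diagonal_mul,
    mul_diagonal]
  push_cast; ring

theorem norm_sub_apply {V U : Matrix n n ℂ} (hV : Uni V) (hU : Uni U) (a b : n → ℝ) (i j : n) :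
    ‖(Vᴴ * (cj V a - cj U b) * U) i j‖ ^ 2 = wt V U i j * (a i - b j) ^ 2 := by
  rw [sub_apply' hV hU, norm_mul, mul_pow, Complex.norm_real, Real.norm_eq_abs, sq_abs, wt,
    mul_comm]

theorem fro_sub {V U : Matrix n n ℂ} (hV : Uni V) (hU : Uni U) (a b : n → ℝ) :
    fro (cj V a - cj U b) = ∑ i, ∑ j, wt V U i j * (a i - b j) ^ 2 := by
  rw [← fro_conj hV hU, fro]
  simp only [norm_sub_apply hV hU]

theorem row_le_fro {V U : Matrix n n ℂ} (hV : Uni V) (hU : Uni U) (a b : n → ℝ) (i : n) :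
    ∑ j, wt V U i j * (a i - b j) ^ 2 ≤ fro (cj V a - cj U b) := by
  rw [fro_sub hV hU]
  exact single_le_sum (f := fun i => ∑ j, wt V U i j * (a i - b j) ^ 2)
    (fun i _ => sum_nonneg fun j _ => mul_nonneg (wt_nonneg _ _ _ _) (sq_nonneg _)) (mem_univ i)

/-- every eigenvalue of a nearby matrix is near the spectrum -/
theorem near_spec {V U : Matrix n n ℂ} (hV : Uni V) (hU : Uni U) (a b : n → ℝ) {r : ℝ}
    (hr : 0 < r) (h : fro (cj V a - cj U b) < r ^ 2) (i : n) : ∃ j, |a i - b j| < r := by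
  by_contra hc
  push Not at hc
  have h1 := row_le_fro hV hU a b i
  have h2 : ∑ j, wt V U i j * r ^ 2 ≤ ∑ j, wt V U i j * (a i - b j) ^ 2 := by
    refine sum_le_sum fun j _ => mul_le_mul_of_nonneg_left ?_ (wt_nonneg _ _ _ _)
    rw [← sq_abs (a i - b j)]
    exact pow_le_pow_left₀ hr.le (hc j) 2
  rw [← sum_mul, wt_row hV hU, one_mul] at h2
  linarith

/-- continuity of the functional calculus at a fixed matrix -/
theorem cj_cont {U : Matrix n n ℂ} (hU : Uni U) (p : n → ℝ) (φ : ℝ → ℝ)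
    (hφ : ∀ k, ContinuousAt φ (p k)) {ε : ℝ} (hε : 0 < ε) :
    ∃ δ > 0, ∀ (V : Matrix n n ℂ) (x : n → ℝ), Uni V → fro (cj V x - cj U p) < δ →
      fro (cj V (fun i => φ (x i)) - cj U (fun k => φ (p k))) ≤ ε := by
  set N : ℝ := (Fintype.card n : ℝ) + 1 with hN
  have hN0 : 0 < N := by positivity
  obtain ⟨e, he0, he1, he2⟩ : ∃ e : ℝ, 0 < e ∧ e ≤ 1 ∧ N * e ^ 2 ≤ ε / 2 := by
    refine ⟨min 1 (ε / (2 * N)), by positivity, min_le_left _ _, ?_⟩
    have h1 : min 1 (ε / (2 * N)) ≤ 1 := min_le_left _ _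
    have h2 : min 1 (ε / (2 * N)) ≤ ε / (2 * N) := min_le_right _ _
    have h3 : 0 < min 1 (ε / (2 * N)) := by positivity
    have h4 : min 1 (ε / (2 * N)) ^ 2 ≤ ε / (2 * N) := by nlinarith
    calc N * min 1 (ε / (2 * N)) ^ 2 ≤ N * (ε / (2 * N)) := by gcongr
      _ = ε / 2 := by field_simp
  have hr : ∀ k, ∃ r > 0, ∀ y, |y - p k| < r → |φ y - φ (p k)| < e := by
    intro k
    obtain ⟨r, hr0, hr⟩ := Metric.continuousAt_iff.1 (hφ k) e he0
    exact ⟨r, hr0, fun y hy => by simpa [Real.dist_eq] using hr (by simpa [Real.dist_eq] using hy)⟩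
  choose r hr0 hr using hr
  obtain ⟨R, hR0, hR⟩ : ∃ R > 0, ∀ k, R ≤ r k := by
    rcases isEmpty_or_nonempty n with h | h
    · exact ⟨1, one_pos, fun k => isEmptyElim k⟩
    · obtain ⟨k, -, hk⟩ := exists_min_image univ r univ_nonempty
      exact ⟨r k, hr0 k, fun j => hk j (mem_univ j)⟩
  set M : ℝ := ∑ k, |φ (p k)| + 1 with hM
  have hMk : ∀ k, |φ (p k)| + 1 ≤ M := fun k => by
    have := single_le_sum (f := fun k => |φ (p k)|) (fun k _ => abs_nonneg _) (mem_univ k)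
    linarith
  have hM0 : 0 < M := by positivity
  refine ⟨min (R ^ 2) (ε * R ^ 2 / (8 * M ^ 2)), by positivity, fun V x hV hx => ?_⟩
  have hx1 : fro (cj V x - cj U p) < R ^ 2 := hx.trans_le (min_le_left _ _)
  have hx2 : fro (cj V x - cj U p) < ε * R ^ 2 / (8 * M ^ 2) := hx.trans_le (min_le_right _ _)
  have hb : ∀ i, |φ (x i)| ≤ M := by
    intro i
    obtain ⟨j, hj⟩ := near_spec hV hU x p hR0 hx1 i
    have h1 := hr j (x i) (hj.trans_le (hR j))
    have h2 := hMk j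
    have h3 := abs_sub_abs_le_abs_sub (φ (x i)) (φ (p j))
    linarith
  have hpt : ∀ i k, (φ (x i) - φ (p k)) ^ 2 ≤ e ^ 2 + 4 * M ^ 2 / R ^ 2 * (x i - p k) ^ 2 := by
    intro i k
    by_cases h : |x i - p k| < R
    · have h1 := hr k (x i) (h.trans_le (hR k))
      have h2 : (φ (x i) - φ (p k)) ^ 2 ≤ e ^ 2 := by
        rw [← sq_abs]; exact pow_le_pow_left₀ (abs_nonneg _) h1.le 2
      have : 0 ≤ 4 * M ^ 2 / R ^ 2 * (x i - p k) ^ 2 := by positivity
      linarith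
    · push Not at h
      have h1 : R ^ 2 ≤ (x i - p k) ^ 2 := by
        rw [← sq_abs (x i - p k)]; exact pow_le_pow_left₀ hR0.le h 2
      have h2 : |φ (x i) - φ (p k)| ≤ 2 * M := by
        have := abs_sub (φ (x i)) (φ (p k))
        have := hb i
        have := hMk k
        linarith
      have h3 : (φ (x i) - φ (p k)) ^ 2 ≤ (2 * M) ^ 2 := by
        rw [← sq_abs]; exact pow_le_pow_left₀ (abs_nonneg _) h2 2
      have h4 : 4 * M ^ 2 / R ^ 2 * R ^ 2 ≤ 4 * M ^ 2 / R ^ 2 * (x i - p k) ^ 2 := by gcongr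
      have h5 : 4 * M ^ 2 / R ^ 2 * R ^ 2 = (2 * M) ^ 2 := by field_simp; ring
      nlinarith [sq_nonneg e]
  rw [fro_sub hV hU]
  calc ∑ i, ∑ j, wt V U i j * (φ (x i) - φ (p j)) ^ 2
      ≤ ∑ i, ∑ j, wt V U i j * (e ^ 2 + 4 * M ^ 2 / R ^ 2 * (x i - p j) ^ 2) :=
        sum_le_sum fun i _ => sum_le_sum fun j _ =>
          mul_le_mul_of_nonneg_left (hpt i j) (wt_nonneg _ _ _ _)
    _ = Fintype.card n * e ^ 2 + 4 * M ^ 2 / R ^ 2 * fro (cj V x - cj U p) := by
        rw [fro_sub hV hU]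
        simp only [mul_add, sum_add_distrib]
        rw [sum_wt_left hV hU (fun _ => e ^ 2), mul_sum]
        congr 1
        · simp
        · refine sum_congr rfl fun i _ => ?_
          rw [mul_sum]
          exact sum_congr rfl fun j _ => by ring
    _ ≤ N * e ^ 2 + 4 * M ^ 2 / R ^ 2 * (ε * R ^ 2 / (8 * M ^ 2)) := by
        gcongr
        linarith
    _ ≤ ε := by
        have : 4 * M ^ 2 / R ^ 2 * (ε * R ^ 2 / (8 * M ^ 2)) = ε / 2 := by field_simp; ring
        linarith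

end Crest.Agent.R331.Var
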