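import Crest.Agent.R331.VarA

/-! Row 331, variational module, part B: logarithmic mean, Klein's inequality, second order
expansion of the entropy. -/

set_option autoImplicit false
set_option linter.unusedSectionVars false

namespace Crest.Agent.R331.Var

open Real Finset Matrix Crest.Quantum Crest.Agent.R341
open scoped ComplexOrder

/-- logarithmic mean -/
noncomputable def lm (x y : ℝ) : ℝ := ∫ s in (0 : ℝ)..1, x ^ s * y ^ (1 - s)

theorem lm_integrand {x y : ℝ} (hx : 0 < x) (hy : 0 < y) (s : ℝ) :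
    x ^ s * y ^ (1 - s) = y * exp (s * (log x - log y)) := by
  rw [rpow_def_of_pos hx, rpow_def_of_pos hy, ← exp_add]
  conv_rhs => rw [← exp_log hy, ← exp_add, exp_log hy]
  congr 1; ring

theorem lm_self {x : ℝ} (hx : 0 < x) : lm x x = x := by
  unfold lm
  simp [lm_integrand hx hx]

theorem lm_mul_log {x y : ℝ} (hx : 0 < x) (hy : 0 < y) : lm x y * (log x - log y) = x - y := by
  unfold lm
  simp only [lm_integrand hx hy]
  rw [← intervalIntegral.integral_mul_const]
  have hd : ∀ s ∈ Set.uIcc (0 : ℝ) 1, HasDerivAt (fun s => y * exp (s * (log x - log y)))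
      (y * exp (s * (log x - log y)) * (log x - log y)) s := by
    intro s _
    have h := (((hasDerivAt_id s).mul_const (log x - log y)).exp).const_mul y
    simpa [mul_assoc] using h
  rw [intervalIntegral.integral_eq_sub_of_hasDerivAt hd
    (Continuous.intervalIntegrable (by fun_prop) _ _)]
  rw [one_mul, zero_mul, exp_zero, exp_sub, exp_log hx, exp_log hy]
  field_simp

theorem lm_pos {x y : ℝ} (hx : 0 < x) (hy : 0 < y) : 0 < lm x y := by
  unfold lm
  simp only [lm_integrand hx hy]
  exact intervalIntegral.intervalIntegral_pos_of_pos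
    (Continuous.intervalIntegrable (by fun_prop) _ _) (fun s => by positivity) one_pos

theorem lm_comm {x y : ℝ} (hx : 0 < x) (hy : 0 < y) : lm x y = lm y x := by
  by_cases h : x = y
  · rw [h]
  · have h1 := lm_mul_log hx hy
    have h2 := lm_mul_log hy hx
    have h3 : log x - log y ≠ 0 := fun h0 =>
      h (log_injOn_pos hx hy (sub_eq_zero.1 h0))
    apply mul_right_cancel₀ h3
    linarith

/-- scalar relative entropy -/
noncomputable def kl (x y : ℝ) : ℝ := x * log x - x * log y - x + y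

theorem kl_pos {x y : ℝ} (hx : 0 ≤ x) (hy : 0 < y) (h : x ≠ y) : 0 < kl x y := by
  unfold kl
  rcases hx.eq_or_lt with h0 | h0
  · subst h0; simpa using hy
  · have h1 : y / x ≠ 1 := fun h1 => h ((div_eq_one_iff_eq h0.ne').1 h1).symm
    have h2 := log_lt_sub_one_of_pos (div_pos hy h0) h1
    rw [log_div hy.ne' h0.ne'] at h2
    have h3 := mul_lt_mul_of_pos_left h2 h0
    have h4 : x * (y / x - 1) = y - x := by field_simp
    nlinarith

theorem kl_nonneg {x y : ℝ} (hx : 0 ≤ x) (hy : 0 < y) : 0 ≤ kl x y := by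
  by_cases h : x = y
  · subst h; simp [kl]
  · exact (kl_pos hx hy h).le

/-- second divided difference of `x log x` at `(x, y, y)` -/
noncomputable def g2 (y x : ℝ) : ℝ := if x = y then 1 / (2 * y) else kl x y / (x - y) ^ 2

theorem kl_eq (x y : ℝ) : kl x y = (x - y) ^ 2 * g2 y x := by
  unfold g2
  split_ifs with h
  · subst h; simp [kl]
  · have : x - y ≠ 0 := sub_ne_zero.2 h
    field_simp

theorem g2_add {x y : ℝ} (hx : 0 < x) (hy : 0 < y) : g2 y x + g2 x y = 1 / lm x y := by
  unfold g2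
  by_cases h : x = y
  · subst h; simp only [if_true]; rw [lm_self hx]; field_simp; ring
  · have h' : ¬ y = x := fun e => h e.symm
    rw [if_neg h, if_neg h']
    have h1 := lm_mul_log hx hy
    have h2 := lm_pos hx hy
    have h3 : x - y ≠ 0 := sub_ne_zero.2 h
    have h4 : (y - x) ^ 2 = (x - y) ^ 2 := by ring
    rw [h4, ← add_div, div_eq_div_iff (pow_ne_zero 2 h3) h2.ne']
    unfold kl
    linear_combination (x - y) * h1

theorem g2_near {x y : ℝ} (hy : 0 < y) (h : |x - y| ≤ y / 2) :
    |g2 y x - 1 / (2 * y)| ≤ 4 / y ^ 2 * |x - y| := by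
  by_cases hxy : x = y
  · subst hxy; simp [g2]
  obtain ⟨u, hu⟩ : ∃ u, x = y * (1 + u) := ⟨x / y - 1, by field_simp; ring⟩
  have hxu : x - y = y * u := by rw [hu]; ring
  have hu0 : u ≠ 0 := by rintro rfl; exact hxy (by rw [hu]; ring)
  have hu2 : |u| ≤ 1 / 2 := by
    rw [hxu, abs_mul, abs_of_pos hy] at h
    by_contra hc
    push Not at hc
    nlinarith
  have hu3 := abs_le.1 hu2
  have h1u : 0 < 1 + u := by linarith
  have hl := abs_log_sub_add_sum_range_le (x := -u) (by rw [abs_neg]; linarith) 2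
  simp only [sum_range_succ, range_zero, sum_empty, sub_neg_eq_add, abs_neg] at hl
  set r := log (1 + u) - u + u ^ 2 / 2 with hr
  have hr1 : |r| ≤ 2 * |u| ^ 3 := by
    have e : (0 + (-u) ^ (0 + 1) / (((0 : ℕ) : ℝ) + 1) + (-u) ^ (1 + 1) / (((1 : ℕ) : ℝ) + 1) +
        log (1 + u)) = r := by rw [hr]; push_cast; ring
    rw [e] at hl
    refine hl.trans ?_
    rw [div_le_iff₀ (by linarith)]
    have : 0 ≤ |u| ^ 3 := by positivity
    have h21 : |u| ^ (2 + 1) = |u| ^ 3 := rfl
    rw [h21]
    nlinarith [mul_nonneg this (sub_nonneg.2 hu2)]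
  have hk : g2 y x - 1 / (2 * y) = (-u / 2 + (1 + u) * r / u ^ 2) / y := by
    rw [g2, if_neg hxy, kl, hxu, hu, log_mul hy.ne' h1u.ne', hr]
    field_simp
    ring
  rw [hk, hxu, abs_div, abs_mul, abs_of_pos hy, div_le_iff₀ hy]
  have hua : 0 < |u| := abs_pos.2 hu0
  have h5 : |(1 + u) * r / u ^ 2| ≤ 3 * |u| := by
    rw [abs_div, abs_mul, abs_of_pos h1u, abs_pow, div_le_iff₀ (by positivity)]
    have : (1 + u) * |r| ≤ (3 / 2) * (2 * |u| ^ 3) :=
      mul_le_mul (by linarith) hr1 (abs_nonneg _) (by norm_num)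
    nlinarith
  have h6 := abs_add_le (-u / 2) ((1 + u) * r / u ^ 2)
  have h7 : |-u / 2| = |u| / 2 := by rw [abs_div, abs_neg]; simp
  have h8 : 4 / y ^ 2 * (y * |u|) * y = 4 * |u| := by field_simp
  rw [h8]
  linarith

theorem g2_cont {x y : ℝ} (hx : 0 < x) (hy : 0 < y) : ContinuousAt (g2 y) x := by
  by_cases h : x = y
  · subst h
    rw [Metric.continuousAt_iff]
    intro ε hε
    refine ⟨min (x / 2) (ε * x ^ 2 / 4), by positivity, fun {z} hz => ?_⟩
    rw [Real.dist_eq] at hz ⊢
    have h1 := g2_near hx (hz.le.trans (min_le_left _ _))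
    have h2 : g2 x x = 1 / (2 * x) := by simp [g2]
    rw [h2]
    have h3 : |z - x| < ε * x ^ 2 / 4 := hz.trans_le (min_le_right _ _)
    calc _ ≤ 4 / x ^ 2 * |z - x| := h1
      _ < 4 / x ^ 2 * (ε * x ^ 2 / 4) := by gcongr
      _ = ε := by field_simp
  · have hc : ContinuousAt (fun z => kl z y / (z - y) ^ 2) x := by
      unfold kl
      refine ContinuousAt.div ?_ (by fun_prop) (pow_ne_zero 2 (sub_ne_zero.2 h))
      have := (continuousAt_log hx.ne')
      fun_prop
    refine hc.congr ?_
    filter_upwards [eventually_ne_nhds h] with z hz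
    rw [g2, if_neg hz]

variable {n : Type*} [Fintype n] [DecidableEq n]

/-- relative entropy as a weighted sum -/
theorem rel_ent {V U : Matrix n n ℂ} (hV : Uni V) (hU : Uni U) {x : n → ℝ} (hx : ∀ i, 0 ≤ x i)
    (p : n → ℝ) :
    ∑ i, ∑ j, wt V U i j * kl (x i) (p j) =
      -vnEntropy (cj V x) - (cj V x * cj U fun j => log (p j)).trace.re - (cj V x).trace.re +
        (cj U p).trace.re := by
  rw [vn_cj hV hx, trace_cj_mul_cj, trace_cj hV, trace_cj hU, Complex.ofReal_re,
    Complex.ofReal_re, Complex.ofReal_re, ← sum_wt_left hV hU x, ← sum_wt_right hV hU p,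
    ← sum_wt_left hV hU fun i => negMulLog (x i)]
  simp only [← sum_neg_distrib, ← sum_sub_distrib, ← sum_add_distrib]
  refine sum_congr rfl fun i _ => sum_congr rfl fun j _ => ?_
  rw [kl, negMulLog]; ring

/-- Klein's inequality -/
theorem klein {X U : Matrix n n ℂ} (hX : X.PosSemidef) (hU : Uni U) {p : n → ℝ}
    (hp : ∀ i, 0 < p i) :
    vnEntropy X ≤ -(X * cj U fun j => log (p j)).trace.re - X.trace.re + (cj U p).trace.re := by
  obtain ⟨V, x, hV, hx, rfl⟩ := exists_cj_psd hX
  have h := rel_ent hV hU hx p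
  have h0 : 0 ≤ ∑ i, ∑ j, wt V U i j * kl (x i) (p j) :=
    sum_nonneg fun i _ => sum_nonneg fun j _ =>
      mul_nonneg (wt_nonneg _ _ _ _) (kl_nonneg (hx i) (hp j))
  linarith

theorem vn_eq_log {U : Matrix n n ℂ} (hU : Uni U) {p : n → ℝ} (hp : ∀ i, 0 ≤ p i) :
    vnEntropy (cj U p) = -(cj U p * cj U fun j => log (p j)).trace.re := by
  have h := rel_ent hU hU hp p
  have h0 : ∑ i, ∑ j, wt U U i j * kl (p i) (p j) = 0 := by
    refine sum_eq_zero fun i _ => sum_eq_zero fun j _ => ?_
    rw [wt, hU.h1]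
    by_cases hij : i = j
    · subst hij; simp [kl]
    · simp [hij]
  linarith

/-- equality case of Klein's inequality -/
theorem klein_eq {V U : Matrix n n ℂ} (hV : Uni V) (hU : Uni U) {x p : n → ℝ}
    (hx : ∀ i, 0 ≤ x i) (hp : ∀ i, 0 < p i)
    (h : -(cj V x * cj U fun j => log (p j)).trace.re - (cj V x).trace.re + (cj U p).trace.re ≤
      vnEntropy (cj V x)) :
    (∀ i, 0 < x i) ∧ ∀ φ : ℝ → ℝ, cj V (fun i => φ (x i)) = cj U (fun j => φ (p j)) := by
  have h1 := rel_ent hV hU hx p
  have hn : ∀ i j, 0 ≤ wt V U i j * kl (x i) (p j) := fun i j =>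
    mul_nonneg (wt_nonneg _ _ _ _) (kl_nonneg (hx i) (hp j))
  have h0 : ∑ i, ∑ j, wt V U i j * kl (x i) (p j) = 0 :=
    le_antisymm (by linarith) (sum_nonneg fun i _ => sum_nonneg fun j _ => hn i j)
  have h2 : ∀ i j, wt V U i j = 0 ∨ x i = p j := by
    intro i j
    have a := (sum_eq_zero_iff_of_nonneg (fun i _ => sum_nonneg fun j _ => hn i j)).1 h0 i
      (mem_univ i)
    have b := (sum_eq_zero_iff_of_nonneg (fun j _ => hn i j)).1 a j (mem_univ j)
    rcases mul_eq_zero.1 b with c | c
    · exact Or.inl c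
    · right
      by_contra hne
      exact (kl_pos (hx i) (hp j) hne).ne' c
  constructor
  · intro i
    by_contra hc
    have : ∑ j, wt V U i j = 0 := sum_eq_zero fun j _ => by
      rcases h2 i j with c | c
      · exact c
      · exact absurd (c ▸ hp j) hc
    rw [wt_row hV hU] at this
    exact one_ne_zero this
  · intro φ
    have hf : fro (cj V (fun i => φ (x i)) - cj U (fun j => φ (p j))) = 0 := by
      rw [fro_sub hV hU]
      refine sum_eq_zero fun i _ => sum_eq_zero fun j _ => ?_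
      rcases h2 i j with c | c
      · rw [c, zero_mul]
      · rw [c]; simp
    ext i j
    have a := (sum_eq_zero_iff_of_nonneg (fun i _ => sum_nonneg fun j _ => by positivity)).1 hf i
      (mem_univ i)
    have b := (sum_eq_zero_iff_of_nonneg (fun j _ => by positivity)).1 a j (mem_univ j)
    have c := norm_eq_zero.1 (pow_eq_zero_iff two_ne_zero |>.1 b)
    rwa [Matrix.sub_apply, sub_eq_zero] at c

end Crest.Agent.R331.Var
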