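import Crest.Agent.R331.VarB

/-! Row 331, variational module, part C: second order expansion of the entropy, continuity,
existence of minimisers. -/

set_option autoImplicit false
set_option linter.unusedSectionVars false

namespace Crest.Agent.R331.Var

open Real Finset Matrix Crest.Quantum Crest.Agent.R341
open scoped ComplexOrder

variable {n : Type*} [Fintype n] [DecidableEq n]

/-- weighted quadratic form -/
noncomputable def qf (lam : n → n → ℝ) (M : Matrix n n ℂ) : ℝ := ∑ j, ∑ k, lam j k * ‖M j k‖ ^ 2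

theorem col_form (M V : Matrix n n ℂ) (d : n → ℝ) (j : n) :
    ((Mᴴ * cj V d * M) j j).re = ∑ i, ‖(Vᴴ * M) i j‖ ^ 2 * d i := by
  have e : Mᴴ * cj V d * M = (Mᴴ * V) * rdiag d * (Mᴴ * V)ᴴ := by
    rw [cj, conjTranspose_mul, conjTranspose_conjTranspose]
    simp only [Matrix.mul_assoc]
  rw [e, conj_rdiag_apply]
  refine sum_congr rfl fun i _ => ?_
  have : (Mᴴ * V) j i = star ((Vᴴ * M) i j) := by
    rw [← conjTranspose_apply, conjTranspose_mul, conjTranspose_conjTranspose]
  rw [this, Complex.star_def, Complex.normSq_conj, Complex.sq_norm]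

theorem entry_le_of_fro {A : Matrix n n ℂ} {e : ℝ} (he : 0 ≤ e) (h : fro A ≤ e ^ 2) (a b : n) :
    ‖A a b‖ ≤ e := by
  have h1 : ‖A a b‖ ^ 2 ≤ ∑ j, ‖A a j‖ ^ 2 :=
    single_le_sum (f := fun j => ‖A a j‖ ^ 2) (fun j _ => by positivity) (mem_univ b)
  have h2 : ∑ j, ‖A a j‖ ^ 2 ≤ fro A :=
    single_le_sum (f := fun i => ∑ j, ‖A i j‖ ^ 2) (fun j _ => by positivity) (mem_univ a)
  exact (pow_le_pow_iff_left₀ (norm_nonneg _) he two_ne_zero).1 (h1.trans (h2.trans h))

theorem col_bound (M A : Matrix n n ℂ) {e : ℝ} (hA : ∀ a b, ‖A a b‖ ≤ e) (j : n) :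
    |((Mᴴ * A * M) j j).re| ≤ e * (∑ a, ‖M a j‖) ^ 2 := by
  refine (Complex.abs_re_le_norm _).trans ?_
  rw [Matrix.mul_apply]
  refine (norm_sum_le _ _).trans ?_
  calc ∑ b, ‖(Mᴴ * A) j b * M b j‖ ≤ ∑ b, (∑ a, ‖M a j‖ * e) * ‖M b j‖ := by
        refine sum_le_sum fun b _ => ?_
        rw [norm_mul]
        refine mul_le_mul_of_nonneg_right ?_ (norm_nonneg _)
        rw [Matrix.mul_apply]
        refine (norm_sum_le _ _).trans (sum_le_sum fun a _ => ?_)
        rw [norm_mul, conjTranspose_apply, norm_star]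
        exact mul_le_mul_of_nonneg_left (hA a b) (norm_nonneg _)
    _ = e * (∑ a, ‖M a j‖) ^ 2 := by rw [← mul_sum, ← sum_mul]; ring

theorem fro_smul (t : ℝ) (B : Matrix n n ℂ) : fro ((t : ℂ) • B) = t ^ 2 * fro B := by
  unfold fro
  simp only [mul_sum, Matrix.smul_apply, smul_eq_mul, norm_mul, mul_pow, Complex.norm_real,
    Real.norm_eq_abs, sq_abs]

theorem exists_pos_le {ι : Type*} [Fintype ι] {r : ι → ℝ} (hr : ∀ i, 0 < r i) :
    ∃ R > 0, ∀ k, R ≤ r k := by
  rcases isEmpty_or_nonempty ι with h | h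
  · exact ⟨1, one_pos, fun k => isEmptyElim k⟩
  · obtain ⟨k, -, hk⟩ := exists_min_image univ r univ_nonempty
    exact ⟨r k, hr k, fun j => hk j (mem_univ j)⟩

theorem herm_norm {A : Matrix n n ℂ} (hA : A.IsHermitian) (j k : n) : ‖A j k‖ = ‖A k j‖ := by
  rw [← hA.apply k j, norm_star]

theorem herm_conj {B : Matrix n n ℂ} (hB : B.IsHermitian) (U : Matrix n n ℂ) :
    (Uᴴ * B * U).IsHermitian := isHermitian_conjTranspose_mul_mul U hB

theorem herm_smul {B : Matrix n n ℂ} (hB : B.IsHermitian) (t : ℝ) :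
    ((t : ℂ) • B).IsHermitian := by
  unfold IsHermitian
  rw [conjTranspose_smul, hB.eq]; simp

/-- second order expansion of the entropy at a positive definite matrix -/
theorem second_order {U : Matrix n n ℂ} (hU : Uni U) {p : n → ℝ} (hp : ∀ i, 0 < p i)
    {B : Matrix n n ℂ} (hB : B.IsHermitian) {ε : ℝ} (hε : 0 < ε) :
    ∃ δ > 0, ∀ t : ℝ, |t| < δ → (cj U p + (t : ℂ) • B).PosSemidef ∧
      |-vnEntropy (cj U p + (t : ℂ) • B) + vnEntropy (cj U p) -
        t * (B * cj U fun j => log (p j)).trace.re - t * B.trace.re -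
        t ^ 2 * (qf (fun j k => 1 / lm (p j) (p k)) (Uᴴ * B * U) / 2)| ≤ ε * t ^ 2 := by
  set S : ℝ := ∑ j, (∑ a, ‖(B * U) a j‖) ^ 2 with hS
  have hS0 : 0 ≤ S := by positivity
  set e : ℝ := ε / (S + 1) with he
  have he0 : 0 < e := by positivity
  have h1 : ∀ j, ∃ δ > 0, ∀ (V : Matrix n n ℂ) (x : n → ℝ), Uni V → fro (cj V x - cj U p) < δ →
      fro (cj V (fun i => g2 (p j) (x i)) - cj U (fun k => g2 (p j) (p k))) ≤ e ^ 2 :=
    fun j => cj_cont hU p (g2 (p j)) (fun k => g2_cont (hp k) (hp j)) (by positivity)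
  choose d hd0 hd using h1
  obtain ⟨D, hD0, hD⟩ := exists_pos_le hd0
  obtain ⟨m, hm0, hm⟩ := exists_pos_le hp
  set D' := min D (m ^ 2) with hD'
  have hD'0 : 0 < D' := by positivity
  have hF := fro_nonneg B
  refine ⟨min 1 (D' / (fro B + 1)), by positivity, fun t ht => ?_⟩
  have ht1 : |t| < 1 := ht.trans_le (min_le_left _ _)
  have ht2 : |t| < D' / (fro B + 1) := ht.trans_le (min_le_right _ _)
  have ht3 : t ^ 2 * fro B < D' := by
    rw [lt_div_iff₀ (by positivity)] at ht2
    have a1 : t ^ 2 ≤ |t| := by rw [← sq_abs]; nlinarith [abs_nonneg t]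
    nlinarith [abs_nonneg t]
  obtain ⟨V, x, hV, hX⟩ := exists_cj ((cj_herm U p).add (herm_smul hB t))
  have hsub : cj V x - cj U p = (t : ℂ) • B := by rw [← hX]; abel
  have hfro : fro (cj V x - cj U p) < D' := by rw [hsub, fro_smul]; exact ht3
  have hx : ∀ i, 0 ≤ x i := by
    intro i
    obtain ⟨j, hj⟩ := near_spec hV hU x p hm0 (hfro.trans_le (min_le_right _ _)) i
    have := abs_lt.1 hj
    have := hm j
    linarith
  rw [hX]
  refine ⟨cj_psd V hx, ?_⟩
  have r1 := rel_ent hV hU hx p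
  have r2 := vn_eq_log hU fun i => (hp i).le
  have r3 : (cj V x * cj U fun j => log (p j)).trace.re =
      (cj U p * cj U fun j => log (p j)).trace.re + t * (B * cj U fun j => log (p j)).trace.re := by
    rw [← hX, Matrix.add_mul, trace_add, Matrix.smul_mul, trace_smul, Complex.add_re,
      smul_eq_mul, Complex.re_ofReal_mul]
  have r4 : (cj V x).trace.re = (cj U p).trace.re + t * B.trace.re := by
    rw [← hX, trace_add, trace_smul, Complex.add_re, smul_eq_mul, Complex.re_ofReal_mul]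
  have r5 : ∑ i, ∑ j, wt V U i j * kl (x i) (p j) =
      t ^ 2 * ∑ j, (((B * U)ᴴ * cj V (fun i => g2 (p j) (x i)) * (B * U)) j j).re := by
    rw [sum_comm, mul_sum]
    refine sum_congr rfl fun j _ => ?_
    rw [col_form, mul_sum]
    refine sum_congr rfl fun i _ => ?_
    rw [kl_eq, ← mul_assoc, ← norm_sub_apply hV hU, hsub, Matrix.mul_smul, Matrix.smul_mul,
      Matrix.smul_apply, smul_eq_mul, norm_mul, mul_pow, Complex.norm_real, Real.norm_eq_abs,
      sq_abs, Matrix.mul_assoc, mul_assoc]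
  have r6 : qf (fun j k => 1 / lm (p j) (p k)) (Uᴴ * B * U) / 2 =
      ∑ j, (((B * U)ᴴ * cj U (fun i => g2 (p j) (p i)) * (B * U)) j j).re := by
    simp only [col_form]
    simp only [← Matrix.mul_assoc]
    have hH := herm_conj hB U
    have a1 : ∑ j, ∑ i, ‖(Uᴴ * B * U) i j‖ ^ 2 * g2 (p j) (p i) =
        ∑ j, ∑ i, ‖(Uᴴ * B * U) i j‖ ^ 2 * g2 (p i) (p j) := by
      rw [sum_comm]
      exact sum_congr rfl fun j _ => sum_congr rfl fun i _ => by rw [herm_norm hH]
    have a2 : qf (fun j k => 1 / lm (p j) (p k)) (Uᴴ * B * U) =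
        ∑ j, ∑ i, ‖(Uᴴ * B * U) i j‖ ^ 2 * g2 (p j) (p i) +
          ∑ j, ∑ i, ‖(Uᴴ * B * U) i j‖ ^ 2 * g2 (p i) (p j) := by
      rw [qf, ← sum_add_distrib]
      refine sum_congr rfl fun j _ => ?_
      rw [← sum_add_distrib]
      refine sum_congr rfl fun i _ => ?_
      rw [← mul_add, add_comm, g2_add (hp j) (hp i), herm_norm hH, mul_comm]
    rw [a2, ← a1]; ring
  have r7 : |∑ j, (((B * U)ᴴ * cj V (fun i => g2 (p j) (x i)) * (B * U)) j j).re -
      ∑ j, (((B * U)ᴴ * cj U (fun i => g2 (p j) (p i)) * (B * U)) j j).re| ≤ ε := by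
    rw [← sum_sub_distrib]
    refine (abs_sum_le_sum_abs _ _).trans ?_
    calc _ ≤ ∑ j, e * (∑ a, ‖(B * U) a j‖) ^ 2 := by
          refine sum_le_sum fun j _ => ?_
          rw [← Complex.sub_re, ← Matrix.sub_apply, ← Matrix.sub_mul, ← Matrix.mul_sub]
          exact col_bound _ _ (entry_le_of_fro he0.le
            (hd j V x hV (hfro.trans_le ((min_le_left _ _).trans (hD j))))) j
      _ = e * S := by rw [← mul_sum]
      _ ≤ ε := by
          rw [he, div_mul_eq_mul_div, div_le_iff₀ (by positivity)]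
          nlinarith
  have r8 : -vnEntropy (cj V x) + vnEntropy (cj U p) -
        t * (B * cj U fun j => log (p j)).trace.re - t * B.trace.re -
        t ^ 2 * (qf (fun j k => 1 / lm (p j) (p k)) (Uᴴ * B * U) / 2) =
      t ^ 2 * (∑ j, (((B * U)ᴴ * cj V (fun i => g2 (p j) (x i)) * (B * U)) j j).re -
      ∑ j, (((B * U)ᴴ * cj U (fun i => g2 (p j) (p i)) * (B * U)) j j).re) := by
    rw [r6, mul_sub, ← r5, r1, r2, r3, r4]; ring
  rw [r8, abs_mul, abs_of_nonneg (sq_nonneg t), mul_comm]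
  exact mul_le_mul_of_nonneg_right r7 (sq_nonneg t)

theorem continuous_fro : Continuous (fro : Matrix n n ℂ → ℝ) := by
  unfold fro
  fun_prop

theorem trace_re_le_of_fro {A : Matrix n n ℂ} {e : ℝ} (he : 0 ≤ e) (h : fro A ≤ e ^ 2) :
    |A.trace.re| ≤ Fintype.card n * e := by
  refine (Complex.abs_re_le_norm _).trans ((norm_sum_le _ _).trans ?_)
  calc ∑ i, ‖A.diag i‖ ≤ ∑ _i : n, e := sum_le_sum fun i _ => entry_le_of_fro he h i i
    _ = _ := by simp

/-- the entropy is continuous on positive semidefinite matrices -/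
theorem continuousOn_vn : ContinuousOn (vnEntropy : Matrix n n ℂ → ℝ) {A | A.PosSemidef} := by
  intro A hA
  obtain ⟨U, p, hU, hp, rfl⟩ := exists_cj_psd hA
  rw [ContinuousWithinAt, Metric.tendsto_nhds]
  intro ε hε
  set e : ℝ := ε / (2 * (Fintype.card n + 1)) with he
  have he0 : 0 < e := by positivity
  obtain ⟨δ, hδ0, hδ⟩ := cj_cont hU p negMulLog (fun k => continuous_negMulLog.continuousAt)
    (pow_pos he0 2)
  have hc : Continuous fun X : Matrix n n ℂ => fro (X - cj U p) :=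
    continuous_fro.comp (continuous_id.sub continuous_const)
  have h0 : ∀ᶠ X in nhds (cj U p), fro (X - cj U p) < δ := by
    refine hc.continuousAt.eventually_lt continuousAt_const ?_
    simpa [fro] using hδ0
  filter_upwards [nhdsWithin_le_nhds h0, self_mem_nhdsWithin] with X hX hX'
  obtain ⟨V, x, hV, hx, rfl⟩ := exists_cj_psd hX'
  have h1 := trace_re_le_of_fro he0.le (hδ V x hV hX)
  rw [trace_sub, trace_cj hV, trace_cj hU, Complex.sub_re, Complex.ofReal_re,
    Complex.ofReal_re] at h1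
  rw [Real.dist_eq, vn_cj hV hx, vn_cj hU hp]
  refine h1.trans_lt ?_
  rw [he, mul_div_assoc', div_lt_iff₀ (by positivity)]
  have : (0 : ℝ) ≤ Fintype.card n := by positivity
  nlinarith

theorem density_entry_le {A : Matrix n n ℂ} (hA : IsDensity A) (i j : n) : ‖A i j‖ ≤ 1 := by
  obtain ⟨U, p, hU, hp, rfl⟩ := exists_cj_psd hA.1
  have h1 : ∑ i, p i = 1 := by
    have := hA.2
    rw [trace_cj hU] at this
    exact_mod_cast this
  refine entry_le_of_fro zero_le_one ?_ i j
  have h2 := fro_sub hU hU p (fun _ => 0)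
  have h3 : cj U (fun _ => (0 : ℝ)) = 0 := by simp [cj, rdiag]
  rw [h3, sub_zero] at h2
  rw [h2]
  simp only [sub_zero]
  rw [sum_wt_left hU hU fun i => p i ^ 2, one_pow, ← h1]
  refine sum_le_sum fun i _ => ?_
  have : p i ≤ 1 := h1 ▸ single_le_sum (f := p) (fun i _ => hp i) (mem_univ i)
  nlinarith [hp i]

theorem isClosed_psd : IsClosed {A : Matrix n n ℂ | A.PosSemidef} := by
  have : {A : Matrix n n ℂ | A.PosSemidef} =
      {A | Aᴴ = A} ∩ ⋂ v : n → ℂ, {A | 0 ≤ star v ⬝ᵥ (A *ᵥ v)} := by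
    ext A
    simp only [Set.mem_ofPred_eq, Set.mem_inter_iff, Set.mem_iInter]
    exact posSemidef_iff_dotProduct_mulVec
  rw [this]
  refine (isClosed_eq (by fun_prop) continuous_id).inter (isClosed_iInter fun v => ?_)
  exact isClosed_le continuous_const (by fun_prop)

theorem isCompact_density : IsCompact {A : Matrix n n ℂ | IsDensity A} := by
  have hc : IsCompact (Set.pi Set.univ fun _ : n => Set.pi Set.univ fun _ : n =>
      Metric.closedBall (0 : ℂ) 1) :=
    isCompact_univ_pi fun _ => isCompact_univ_pi fun _ => isCompact_closedBall _ _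
  refine IsCompact.of_isClosed_subset (s := Set.pi Set.univ fun _ : n => Set.pi Set.univ
    fun _ : n => Metric.closedBall (0 : ℂ) 1) hc ?_ ?_
  · exact isClosed_psd.inter (isClosed_eq (by fun_prop) continuous_const)
  · intro A hA i _ j _
    simpa using density_entry_le hA i j

end Crest.Agent.R331.Var
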